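import Vale.Agent.P355.MathlibUsed
import Vale.Agent.P355.MatDefs

set_option linter.all false

section

section

/-! Basic definitions for P355 (symmetries of quadruples of mutually unbiased bases in dimension 6). -/

namespace Vale.Agent.P355

/-- Complex six-dimensional Hilbert space. -/
abbrev H : Type := EuclideanSpace ℂ (Fin 6)

/-- The four orthonormal bases `B 0, B 1, B 2, B 3` of `ℂ⁶` are pairwise mutually unbiased. -/
def PairwiseMUB (B : Fin 4 → OrthonormalBasis (Fin 6) ℂ H) : Prop :=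
  ∀ i j, i ≠ j → ∀ k l, ‖inner ℂ (B i k) (B j l)‖ ^ 2 = 1 / 6

/-- The map `g` sends every line `ℂ b`, `b ∈ B i`, into a line of the same basis `B i`,
for each of the four bases. -/
def PreservesBases (B : Fin 4 → OrthonormalBasis (Fin 6) ℂ H) (g : H → H) : Prop :=
  ∀ i k, ∃ l, ∃ z : ℂ, g (B i k) = z • B i l

end Vale.Agent.P355
end
end

section

section

/-! From a symmetry of an orthonormal basis (as a set of lines) to a permutation with phases. -/

namespace Vale.Agent.P355

theorem isom_norm {g : H →ₗ[ℂ] H} (hg : ∀ x y, inner ℂ (g x) (g y) = inner ℂ x y) (x : H) :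
    ‖g x‖ = ‖x‖ := by
  have h := hg x x
  rw [inner_self_eq_norm_sq_to_K, inner_self_eq_norm_sq_to_K] at h
  have h2 : ‖g x‖ ^ 2 = ‖x‖ ^ 2 := by exact_mod_cast h
  exact (sq_eq_sq₀ (norm_nonneg _) (norm_nonneg _)).1 h2

theorem inner_basis (b : OrthonormalBasis (Fin 6) ℂ H) (k l : Fin 6) :
    inner ℂ (b k) (b l) = if k = l then 1 else 0 := by
  exact (orthonormal_iff_ite.1 b.orthonormal) k l

/-- A linear isometry preserving the lines of an orthonormal basis permutes them, with phases. -/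
theorem exists_perm (b : OrthonormalBasis (Fin 6) ℂ H) (g : H →ₗ[ℂ] H)
    (hg : ∀ x y, inner ℂ (g x) (g y) = inner ℂ x y)
    (hp : ∀ k, ∃ l, ∃ z : ℂ, g (b k) = z • b l) :
    ∃ σ : Equiv.Perm (Fin 6), ∃ z : Fin 6 → ℂ, (∀ k, ‖z k‖ = 1) ∧
      ∀ k, g (b k) = z k • b (σ k) := by
  choose f z hf using hp
  have hz : ∀ k, ‖z k‖ = 1 := by
    intro k
    have h1 := isom_norm hg (b k)
    rw [hf k, norm_smul, b.norm_eq_one, b.norm_eq_one, mul_one] at h1
    exact h1
  have hinj : Function.Injective f := by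
    intro k l hkl
    by_contra hne
    have h := hg (b k) (b l)
    rw [hf k, hf l, hkl, inner_smul_left, inner_smul_right, inner_basis, inner_basis,
      if_pos rfl, if_neg hne, mul_one] at h
    have h1 := hz k
    have h2 := hz l
    have h3 : z k ≠ 0 := by intro h0; rw [h0, norm_zero] at h1; norm_num at h1
    have h4 : z l ≠ 0 := by intro h0; rw [h0, norm_zero] at h2; norm_num at h2
    rcases mul_eq_zero.1 h with h5 | h5
    · exact h3 ((map_eq_zero _).1 h5)
    · exact h4 h5
  refine ⟨Equiv.ofBijective f ((Finite.injective_iff_bijective).1 hinj), z, hz, fun k => ?_⟩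
  rw [Equiv.ofBijective_apply]
  exact hf k

/-- Iterating. -/
theorem iter_perm {b : OrthonormalBasis (Fin 6) ℂ H} {g : H →ₗ[ℂ] H}
    {σ : Equiv.Perm (Fin 6)} {z : Fin 6 → ℂ} (hz : ∀ k, ‖z k‖ = 1)
    (h : ∀ k, g (b k) = z k • b (σ k)) (n : ℕ) (k : Fin 6) :
    ∃ c : ℂ, ‖c‖ = 1 ∧ (g ^ n) (b k) = c • b ((σ ^ n) k) := by
  induction n with
  | zero => exact ⟨1, by simp, by simp only [pow_zero, Module.End.one_apply, Equiv.Perm.coe_one, id_eq, one_smul]⟩
  | succ n ih =>
    obtain ⟨c, hc, e⟩ := ih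
    refine ⟨c * z ((σ ^ n) k), by rw [norm_mul, hc, hz, one_mul], ?_⟩
    rw [pow_succ', Module.End.mul_apply, e, map_smul, h, smul_smul, pow_succ',
      Equiv.Perm.mul_apply]

/-- If `b k` is a scalar multiple of `b l` then `k = l`. -/
theorem eq_of_smul_eq {b : OrthonormalBasis (Fin 6) ℂ H} {k l : Fin 6} {c d : ℂ} (hd : d ≠ 0)
    (h : c • b k = d • b l) : k = l := by
  by_contra hne
  have h1 : inner ℂ (b l) (c • b k) = inner ℂ (b l) (d • b l) := by rw [h]
  rw [inner_smul_right, inner_smul_right, inner_basis, inner_basis, if_pos rfl,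
    if_neg (Ne.symm hne), mul_zero, mul_one] at h1
  exact hd h1.symm

theorem fixed_iff {b : OrthonormalBasis (Fin 6) ℂ H} {g : H →ₗ[ℂ] H}
    {σ : Equiv.Perm (Fin 6)} {z : Fin 6 → ℂ} (hz : ∀ k, ‖z k‖ = 1)
    (h : ∀ k, g (b k) = z k • b (σ k)) (k : Fin 6) :
    σ k = k ↔ ∃ c : ℂ, g (b k) = c • b k := by
  constructor
  · intro e
    refine ⟨z k, ?_⟩
    rw [h k, e]
  · rintro ⟨c, hc⟩
    rw [h k] at hc
    have hz0 : z k ≠ 0 := by
      intro h0
      have := hz k
      rw [h0, norm_zero] at this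
      norm_num at this
    exact (eq_of_smul_eq hz0 hc.symm).symm

/-- If the `p`-th power of `g` is the identity so is the `p`-th power of the permutation. -/
theorem perm_pow_eq_one {b : OrthonormalBasis (Fin 6) ℂ H} {g : H →ₗ[ℂ] H}
    {σ : Equiv.Perm (Fin 6)} {z : Fin 6 → ℂ} (hz : ∀ k, ‖z k‖ = 1)
    (h : ∀ k, g (b k) = z k • b (σ k)) {n : ℕ} (hn : ∀ x, (g ^ n) x = x) : σ ^ n = 1 := by
  ext k
  obtain ⟨c, hc, e⟩ := iter_perm hz h n k
  rw [hn] at e
  have h1 : (1 : ℂ) • b k = c • b ((σ ^ n) k) := by rw [one_smul]; exact e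
  have hc0 : c ≠ 0 := by
    intro h0
    rw [h0, norm_zero] at hc
    norm_num at hc
  have := eq_of_smul_eq hc0 h1
  rw [← this]
  rfl

/-- Number of fixed lines modulo a prime. -/
theorem card_fixed_mod (σ : Equiv.Perm (Fin 6)) (p : ℕ) [hp : Fact p.Prime] (h : σ ^ p = 1) :
    (Finset.univ.filter (fun k => σ k = k)).card ≡ 6 [MOD p] := by
  have h1 : σ ^ p ^ 1 = 1 := by rw [pow_one]; exact h
  have h2 := Equiv.Perm.card_compl_support_modEq (p := p) (n := 1) h1
  rw [Fintype.card_fin] at h2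
  have h3 : (Finset.univ.filter (fun k => σ k = k)) = σ.supportᶜ := by
    ext k
    simp [Equiv.Perm.mem_support]
  rw [h3]
  exact h2

/-- Vectors of different bases which are eigenvectors of the same isometry have
the same eigenvalue. -/
theorem same_eigenvalue {B : Fin 4 → OrthonormalBasis (Fin 6) ℂ H} (hB : PairwiseMUB B)
    {g : H →ₗ[ℂ] H} (hg : ∀ x y, inner ℂ (g x) (g y) = inner ℂ x y) {i j : Fin 4} (hij : i ≠ j)
    {k l : Fin 6} {z w : ℂ} (hz : g (B i k) = z • B i k) (hw : g (B j l) = w • B j l) :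
    z = w := by
  have hne : inner ℂ (B i k) (B j l) ≠ 0 := by
    intro h0
    have := hB i j hij k l
    rw [h0, norm_zero] at this
    norm_num at this
  have hzn : ‖z‖ = 1 := by
    have h1 := isom_norm hg (B i k)
    rw [hz, norm_smul, (B i).norm_eq_one, mul_one] at h1
    exact h1
  have h := hg (B i k) (B j l)
  rw [hz, hw, inner_smul_left, inner_smul_right] at h
  have h2 : (starRingEnd ℂ) z * w = 1 := by
    have : ((starRingEnd ℂ) z * w - 1) * inner ℂ (B i k) (B j l) = 0 := by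
      linear_combination h
    rcases mul_eq_zero.1 this with h3 | h3
    · linear_combination h3
    · exact absurd h3 hne
  have h3 : z * (starRingEnd ℂ) z = 1 := by
    rw [Complex.mul_conj, Complex.normSq_eq_norm_sq, hzn]; norm_num
  calc z = z * ((starRingEnd ℂ) z * w) := by rw [h2, mul_one]
    _ = (z * (starRingEnd ℂ) z) * w := by ring
    _ = w := by rw [h3, one_mul]

end Vale.Agent.P355
end
end

section

section

/-! Spectral projections of an isometry of order three. -/

namespace Vale.Agent.P355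

open Complex

/-- Three times the spectral projection of `g` for the cube root of unity `z`. -/
noncomputable def EE (g : H →ₗ[ℂ] H) (z : ℂ) (x : H) : H :=
  x + (starRingEnd ℂ) z • g x + z • g (g x)

/-- `z` is a cube root of unity. -/
def CR (z : ℂ) : Prop := z * z = (starRingEnd ℂ) z ∧ z * (starRingEnd ℂ) z = 1

theorem CR.conj' {z : ℂ} (hz : CR z) : (starRingEnd ℂ) z * (starRingEnd ℂ) z = z := by
  have := congrArg (starRingEnd ℂ) hz.1
  rw [map_mul, conj_conj] at this
  exact this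

variable {g : H →ₗ[ℂ] H}

theorem g_EE (h3 : ∀ x, g (g (g x)) = x) {z : ℂ} (hz : CR z) (x : H) :
    g (EE g z x) = z • EE g z x := by
  unfold EE
  rw [map_add, map_add, map_smul, map_smul, h3, smul_add, smul_add, smul_smul, smul_smul,
    hz.1, hz.2, one_smul]
  abel

theorem inner_g_left (hg : ∀ x y, inner ℂ (g x) (g y) = inner ℂ x y)
    (h3 : ∀ x, g (g (g x)) = x) (x y : H) : inner ℂ (g x) y = inner ℂ x (g (g y)) := by
  rw [← hg x (g (g y)), h3]

theorem inner_EE_left (hg : ∀ x y, inner ℂ (g x) (g y) = inner ℂ x y)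
    (h3 : ∀ x, g (g (g x)) = x) (z : ℂ) (x y : H) :
    inner ℂ (EE g z x) y = inner ℂ x (EE g z y) := by
  unfold EE
  simp only [inner_add_left, inner_add_right, inner_smul_left, inner_smul_right, conj_conj]
  rw [inner_g_left hg h3 x y, inner_g_left hg h3 (g x) y, inner_g_left hg h3 x (g (g y)), h3]
  ring

theorem EE_of_eig {z : ℂ} (hz : CR z) {a : H} (ha : g a = z • a) :
    EE g z a = (3 : ℂ) • a := by
  unfold EE
  rw [ha, map_smul, ha, smul_smul, smul_smul, smul_smul, mul_comm ((starRingEnd ℂ) z) z, hz.2,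
    hz.1, mul_comm ((starRingEnd ℂ) z) z, hz.2, one_smul]
  module

theorem EE_EE (h3 : ∀ x, g (g (g x)) = x) {z : ℂ} (hz : CR z) (x : H) :
    EE g z (EE g z x) = (3 : ℂ) • EE g z x :=
  EE_of_eig hz (g_EE h3 hz x)

theorem inner_EE_EE (hg : ∀ x y, inner ℂ (g x) (g y) = inner ℂ x y)
    (h3 : ∀ x, g (g (g x)) = x) {z : ℂ} (hz : CR z) (x y : H) :
    inner ℂ (EE g z x) (EE g z y) = 3 * inner ℂ x (EE g z y) := by
  rw [inner_EE_left hg h3, EE_EE h3 hz, inner_smul_right]

theorem inner_eig_EE (hg : ∀ x y, inner ℂ (g x) (g y) = inner ℂ x y)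
    (h3 : ∀ x, g (g (g x)) = x) {z : ℂ} (hz : CR z) {a : H} (ha : g a = z • a) (y : H) :
    inner ℂ a (EE g z y) = 3 * inner ℂ a y := by
  rw [← inner_EE_left hg h3, EE_of_eig hz ha, inner_smul_left]
  have : (starRingEnd ℂ) (3 : ℂ) = 3 := Complex.conj_ofNat 3
  rw [this]

/-- `EE` kills eigenvectors for the other cube roots of unity. -/
theorem EE_of_ne {z w : ℂ} (hz : CR z) (hw : CR w) (hne : z ≠ w) {a : H} (ha : g a = w • a) :
    EE g z a = 0 := by
  unfold EE
  rw [ha, map_smul, ha, smul_smul, smul_smul, smul_smul]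
  have key : 1 + (starRingEnd ℂ) z * w + z * (w * w) = 0 := by
    set t := (starRingEnd ℂ) z * w with ht
    have ht2 : z * (w * w) = t * t := by
      rw [ht]
      calc z * (w * w) = ((starRingEnd ℂ) z * (starRingEnd ℂ) z) * (w * w) := by rw [hz.conj']
        _ = _ := by ring
    rw [ht2]
    have ht3 : t * t * t = 1 := by
      have e1 : (starRingEnd ℂ) z * (starRingEnd ℂ) z * (starRingEnd ℂ) z = 1 := by
        rw [hz.conj']; exact hz.2
      have e2 : w * w * w = 1 := by rw [hw.1, mul_comm]; exact hw.2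
      calc t * t * t = ((starRingEnd ℂ) z * (starRingEnd ℂ) z * (starRingEnd ℂ) z)
            * (w * w * w) := by rw [ht]; ring
        _ = 1 := by rw [e1, e2, one_mul]
    have ht1 : t ≠ 1 := by
      intro h
      apply hne
      calc z = z * t := by rw [h, mul_one]
        _ = (z * (starRingEnd ℂ) z) * w := by rw [ht]; ring
        _ = w := by rw [hz.2, one_mul]
    have : (t - 1) * (1 + t + t * t) = 0 := by linear_combination ht3
    exact (mul_eq_zero.1 this).resolve_left (sub_ne_zero.2 ht1)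
  have : a + ((starRingEnd ℂ) z * w) • a + (z * w * w) • a
      = (1 + (starRingEnd ℂ) z * w + z * (w * w)) • a := by
    rw [add_smul, add_smul, one_smul, mul_assoc]
  rw [this, key, zero_smul]

/-- A fixed-point free permutation of order three of six points has two orbits. -/
theorem exists_reps (σ : Equiv.Perm (Fin 6)) (hfree : ∀ k, σ k ≠ k) (h3 : ∀ k, σ (σ (σ k)) = k) :
    ∃ k : Fin 2 → Fin 6, (k 0 ≠ k 1 ∧ k 0 ≠ σ (k 1) ∧ k 0 ≠ σ (σ (k 1))) ∧
      ∀ F : Fin 6 → ℂ, (∀ k, F (σ k) = F k) → ∑ k, F k = 3 * (F (k 0) + F (k 1)) := by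
  have hS : ∃ b : Fin 6, b ∉ ({0, σ 0, σ (σ 0)} : Finset (Fin 6)) := by
    by_contra hc
    push Not at hc
    have h1 : (Finset.univ : Finset (Fin 6)) ⊆ {0, σ 0, σ (σ 0)} := fun x _ => hc x
    have h2 := Finset.card_le_card h1
    have h3' : ({0, σ 0, σ (σ 0)} : Finset (Fin 6)).card ≤ 3 := Finset.card_le_three
    rw [Finset.card_univ, Fintype.card_fin] at h2
    omega
  obtain ⟨b, hb⟩ := hS
  simp only [Finset.mem_insert, Finset.mem_singleton, not_or] at hb
  obtain ⟨b0, b1, b2⟩ := hb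
  have inj := σ.injective
  have f2 : ∀ k, σ (σ k) ≠ k := by
    intro k h
    apply hfree k
    have := h3 k
    rw [h] at this
    exact this
  -- disjointness
  have d1 : (0 : Fin 6) ≠ b := fun h => b0 h.symm
  have d2 : (0 : Fin 6) ≠ σ b := fun h => b2 (by rw [h, h3])
  have d3 : (0 : Fin 6) ≠ σ (σ b) := fun h => b1 (by rw [h, h3])
  refine ⟨![0, b], ⟨d1, d2, d3⟩, ?_⟩
  intro F hF
  show _ = 3 * (F 0 + F b)
  have hSc : ({0, σ 0, σ (σ 0), b, σ b, σ (σ b)} : Finset (Fin 6)) = Finset.univ := by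
    apply Finset.eq_univ_of_card
    rw [Fintype.card_fin]
    rw [Finset.card_insert_of_notMem, Finset.card_insert_of_notMem, Finset.card_insert_of_notMem,
      Finset.card_insert_of_notMem, Finset.card_insert_of_notMem, Finset.card_singleton]
    · simp only [Finset.mem_singleton]
      exact fun h => hfree b (inj h).symm
    · simp only [Finset.mem_insert, Finset.mem_singleton, not_or]
      exact ⟨fun h => hfree b h.symm, fun h => f2 b h.symm⟩
    · simp only [Finset.mem_insert, Finset.mem_singleton, not_or]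
      refine ⟨fun h => b2 h.symm, fun h => b1 (inj h).symm, fun h => d1 (inj (inj h))⟩
    · simp only [Finset.mem_insert, Finset.mem_singleton, not_or]
      refine ⟨fun h => hfree 0 (inj h).symm, fun h => b1 h.symm, fun h => d1 (inj h),
        fun h => d2 (inj h)⟩
    · simp only [Finset.mem_insert, Finset.mem_singleton, not_or]
      exact ⟨fun h => hfree 0 h.symm, fun h => f2 0 h.symm, d1, d2, d3⟩
  rw [← hSc]
  rw [Finset.sum_insert, Finset.sum_insert, Finset.sum_insert, Finset.sum_insert,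
    Finset.sum_insert, Finset.sum_singleton]
  · simp only [hF]; ring
  · simp only [Finset.mem_singleton]
    exact fun h => hfree b (inj h).symm
  · simp only [Finset.mem_insert, Finset.mem_singleton, not_or]
    exact ⟨fun h => hfree b h.symm, fun h => f2 b h.symm⟩
  · simp only [Finset.mem_insert, Finset.mem_singleton, not_or]
    refine ⟨fun h => b2 h.symm, fun h => b1 (inj h).symm, fun h => d1 (inj (inj h))⟩
  · simp only [Finset.mem_insert, Finset.mem_singleton, not_or]
    refine ⟨fun h => hfree 0 (inj h).symm, fun h => b1 h.symm, fun h => d1 (inj h),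
      fun h => d2 (inj h)⟩
  · simp only [Finset.mem_insert, Finset.mem_singleton, not_or]
    exact ⟨fun h => hfree 0 h.symm, fun h => f2 0 h.symm, d1, d2, d3⟩

/-- Two vectors whose `g`-orbits form an orthonormal basis. -/
structure Frame (g : H →ₗ[ℂ] H) (v : Fin 2 → H) : Prop where
  self : ∀ α z, inner ℂ (v α) (EE g z (v α)) = 1
  cross : ∀ z, inner ℂ (v 0) (EE g z (v 1)) = 0
  complete : ∀ z, CR z → ∀ x y, inner ℂ x (EE g z y)
    = inner ℂ x (EE g z (v 0)) * inner ℂ (v 0) (EE g z y)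
      + inner ℂ x (EE g z (v 1)) * inner ℂ (v 1) (EE g z y)

theorem exists_frame (b : OrthonormalBasis (Fin 6) ℂ H)
    (hg : ∀ x y, inner ℂ (g x) (g y) = inner ℂ x y) (h3 : ∀ x, g (g (g x)) = x)
    (hp : ∀ k, ∃ l, ∃ z : ℂ, g (b k) = z • b l)
    (hfree : ∀ k, ¬ ∃ z : ℂ, g (b k) = z • b k) :
    ∃ k : Fin 2 → Fin 6, Frame g (fun α => b (k α)) := by
  obtain ⟨σ, c, hc, hσ⟩ := exists_perm b g hg hp
  have hσfree : ∀ k, σ k ≠ k := fun k h => hfree k ((fixed_iff hc hσ k).1 h)
  have hσ3 : σ ^ 3 = 1 := perm_pow_eq_one hc hσ (n := 3) (fun x => by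
    simp only [pow_succ, pow_zero, one_mul, Module.End.mul_apply]; exact h3 x)
  have hσ3' : ∀ k, σ (σ (σ k)) = k := by
    intro k
    have := congrArg (fun τ : Equiv.Perm (Fin 6) => τ k) hσ3
    simpa [pow_succ] using this
  obtain ⟨k, ⟨n0, n1, n2⟩, hsum⟩ := exists_reps σ hσfree hσ3'
  have f2 : ∀ k, σ (σ k) ≠ k := by
    intro k h
    apply hσfree k
    have := hσ3' k
    rw [h] at this
    exact this
  refine ⟨k, ⟨?_, ?_, ?_⟩⟩
  · intro α z
    unfold EE
    simp only [inner_add_right, inner_smul_right, hσ, map_smul, inner_basis, if_true]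
    rw [if_neg (Ne.symm (hσfree _)), if_neg (Ne.symm (f2 _))]
    ring
  · intro z
    unfold EE
    simp only [inner_add_right, inner_smul_right, hσ, map_smul, inner_basis]
    rw [if_neg n0, if_neg n1, if_neg n2]
    ring
  · intro z hz x y
    have e1 : inner ℂ (EE g z x) (EE g z y)
        = ∑ k, inner ℂ (EE g z x) (b k) * inner ℂ (b k) (EE g z y) :=
      (OrthonormalBasis.sum_inner_mul_inner b _ _).symm
    have e2 := hsum (fun k => inner ℂ (EE g z x) (b k) * inner ℂ (b k) (EE g z y)) (by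
      intro k
      -- invariance
      have i1 : inner ℂ (EE g z x) (g (b k)) = z * inner ℂ (EE g z x) (b k) := by
        have : EE g z x = (starRingEnd ℂ) z • g (EE g z x) := by
          rw [g_EE h3 hz, smul_smul, mul_comm, hz.2, one_smul]
        calc inner ℂ (EE g z x) (g (b k))
            = inner ℂ ((starRingEnd ℂ) z • g (EE g z x)) (g (b k)) := by rw [← this]
          _ = z * inner ℂ (EE g z x) (b k) := by rw [inner_smul_left, conj_conj, hg]
      have i2 : inner ℂ (g (b k)) (EE g z y) = (starRingEnd ℂ) z * inner ℂ (b k) (EE g z y) := by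
        have : EE g z y = (starRingEnd ℂ) z • g (EE g z y) := by
          rw [g_EE h3 hz, smul_smul, mul_comm, hz.2, one_smul]
        calc inner ℂ (g (b k)) (EE g z y)
            = inner ℂ (g (b k)) ((starRingEnd ℂ) z • g (EE g z y)) := by rw [← this]
          _ = (starRingEnd ℂ) z * inner ℂ (b k) (EE g z y) := by rw [inner_smul_right, hg]
      rw [hσ, inner_smul_right] at i1
      rw [hσ, inner_smul_left] at i2
      have hcc : (starRingEnd ℂ) (c k) * c k = 1 := by
        rw [mul_comm, mul_conj, normSq_eq_norm_sq, hc]; norm_num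
      calc inner ℂ (EE g z x) (b (σ k)) * inner ℂ (b (σ k)) (EE g z y)
          = ((starRingEnd ℂ) (c k) * c k)
            * (inner ℂ (EE g z x) (b (σ k)) * inner ℂ (b (σ k)) (EE g z y)) := by
              rw [hcc, one_mul]
        _ = (c k * inner ℂ (EE g z x) (b (σ k)))
            * ((starRingEnd ℂ) (c k) * inner ℂ (b (σ k)) (EE g z y)) := by ring
        _ = (z * (starRingEnd ℂ) z)
            * (inner ℂ (EE g z x) (b k) * inner ℂ (b k) (EE g z y)) := by rw [i1, i2]; ring
        _ = _ := by rw [hz.2, one_mul])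
    rw [e2, inner_EE_EE hg h3 hz, inner_EE_left hg h3, inner_EE_left hg h3] at e1
    have h3' : (3 : ℂ) ≠ 0 := by norm_num
    exact mul_left_cancel₀ h3' e1

end Vale.Agent.P355
end
end

section

section

/-! Core algebraic lemma: three free bases, collinearity of the modulus vectors. -/

namespace Vale.Agent.P355

open Complex

/-- The basic condition on a triple of complex numbers. -/
def Star (f : Fin 3 → ℂ) : Prop :=
  normSq (f 0) + normSq (f 1) + normSq (f 2) = 3 / 2 ∧
  f 1 * (starRingEnd ℂ) (f 0) + f 2 * (starRingEnd ℂ) (f 1) + f 0 * (starRingEnd ℂ) (f 2) = 0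

noncomputable def JJ (g h : Fin 3 → ℂ) : ℝ :=
  normSq (g 0) * (normSq (h 1) - normSq (h 2)) + normSq (g 1) * (normSq (h 2) - normSq (h 0))
    + normSq (g 2) * (normSq (h 0) - normSq (h 1))

noncomputable def dd (f g h : Fin 3 → ℂ) : ℝ :=
  normSq (f 1 * g 0 * h 0 + f 2 * g 1 * h 1 + f 0 * g 2 * h 2)
    - normSq (f 2 * g 0 * h 0 + f 0 * g 1 * h 1 + f 1 * g 2 * h 2)

noncomputable def YY (f g h : Fin 3 → ℂ) : ℝ :=
  normSq (f 0 * g 1 * h 2 + f 1 * g 2 * h 0 + f 2 * g 0 * h 1)
    - normSq (f 0 * g 2 * h 1 + f 1 * g 0 * h 2 + f 2 * g 1 * h 0)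

theorem Star.conj {f : Fin 3 → ℂ} (hf : Star f) : Star (fun m => (starRingEnd ℂ) (f m)) := by
  obtain ⟨h1, h2⟩ := hf
  refine ⟨by simpa [normSq_conj] using h1, ?_⟩
  have := congrArg (starRingEnd ℂ) h2
  simpa only [Fin.isValue, RingHomCompTriple.comp_apply, RingHom.id_apply, mul_comm, map_add, map_mul,     map_zero] using this

theorem Star.neg {f : Fin 3 → ℂ} (hf : Star f) : Star (fun m => - (f m)) := by
  obtain ⟨h1, h2⟩ := hf
  refine ⟨by simpa only [Fin.isValue, normSq_neg] using h1, ?_⟩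
  simpa only [Fin.isValue, map_neg, mul_neg, neg_mul, neg_neg] using h2

/-- Parseval identity. -/
theorem parseval {f : Fin 3 → ℂ} (hf : Star f) (p q r : ℂ) :
    normSq (f 0 * p + f 1 * q + f 2 * r) + normSq (f 1 * p + f 2 * q + f 0 * r)
      + normSq (f 2 * p + f 0 * q + f 1 * r)
      = 3 / 2 * (normSq p + normSq q + normSq r) := by
  obtain ⟨h1, h2⟩ := hf
  have h1' : f 0 * (starRingEnd ℂ) (f 0) + f 1 * (starRingEnd ℂ) (f 1)
      + f 2 * (starRingEnd ℂ) (f 2) = 3 / 2 := by
    rw [mul_conj, mul_conj, mul_conj, ← ofReal_add, ← ofReal_add, h1]; norm_num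
  have h3 := congrArg (starRingEnd ℂ) h2
  simp only [map_add, map_mul, conj_conj, map_zero] at h3
  have key : ((normSq (f 0 * p + f 1 * q + f 2 * r) + normSq (f 1 * p + f 2 * q + f 0 * r)
      + normSq (f 2 * p + f 0 * q + f 1 * r) : ℝ) : ℂ)
      = ((3 / 2 * (normSq p + normSq q + normSq r) : ℝ) : ℂ) := by
    push_cast
    rw [normSq_eq_conj_mul_self, normSq_eq_conj_mul_self, normSq_eq_conj_mul_self,
      normSq_eq_conj_mul_self, normSq_eq_conj_mul_self, normSq_eq_conj_mul_self]
    simp only [map_add, map_mul]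
    linear_combination (p * (starRingEnd ℂ) p + q * (starRingEnd ℂ) q + r * (starRingEnd ℂ) r) * h1'
      + (q * (starRingEnd ℂ) p + r * (starRingEnd ℂ) q + p * (starRingEnd ℂ) r) * h2
      + (p * (starRingEnd ℂ) q + q * (starRingEnd ℂ) r + r * (starRingEnd ℂ) p) * h3
  exact_mod_cast key

/-- The identity obtained from Parseval in the direction `f`. -/
theorem dir {f : Fin 3 → ℂ} (hf : Star f) (g h : Fin 3 → ℂ) :
    3 / 2 * JJ g h = dd h f g - dd g h f + YY f g h := by
  have e1 := parseval hf (g 0 * h 1) (g 1 * h 2) (g 2 * h 0)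
  have e2 := parseval hf (g 0 * h 2) (g 1 * h 0) (g 2 * h 1)
  simp only [normSq_mul] at e1 e2
  unfold JJ dd YY
  have a1 : f 0 * (g 0 * h 1) + f 1 * (g 1 * h 2) + f 2 * (g 2 * h 0)
    = h 1 * f 0 * g 0 + h 2 * f 1 * g 1 + h 0 * f 2 * g 2 := by ring
  have a2 : f 1 * (g 0 * h 1) + f 2 * (g 1 * h 2) + f 0 * (g 2 * h 0)
    = g 2 * h 0 * f 0 + g 0 * h 1 * f 1 + g 1 * h 2 * f 2 := by ring
  have a3 : f 2 * (g 0 * h 1) + f 0 * (g 1 * h 2) + f 1 * (g 2 * h 0)
    = f 0 * g 1 * h 2 + f 1 * g 2 * h 0 + f 2 * g 0 * h 1 := by ring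
  have b1 : f 0 * (g 0 * h 2) + f 1 * (g 1 * h 0) + f 2 * (g 2 * h 1)
    = h 2 * f 0 * g 0 + h 0 * f 1 * g 1 + h 1 * f 2 * g 2 := by ring
  have b2 : f 1 * (g 0 * h 2) + f 2 * (g 1 * h 0) + f 0 * (g 2 * h 1)
    = f 0 * g 2 * h 1 + f 1 * g 0 * h 2 + f 2 * g 1 * h 0 := by ring
  have b3 : f 2 * (g 0 * h 2) + f 0 * (g 1 * h 0) + f 1 * (g 2 * h 1)
    = g 1 * h 0 * f 0 + g 2 * h 1 * f 1 + g 0 * h 2 * f 2 := by ring
  rw [a1, a2, a3] at e1
  rw [b1, b2, b3] at e2
  linarith

theorem YY_cyc (f g h : Fin 3 → ℂ) : YY g h f = YY f g h := by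
  unfold YY
  congr 2 <;> ring

/-- Group lemma. -/
theorem group_lemma {f g h : Fin 3 → ℂ} (hf : Star f) (hg : Star g) (hh : Star h) :
    dd g h f - dd f g h = JJ f g - (JJ g h + JJ h f) / 2 := by
  have e1 := dir hf g h
  have e2 := dir hg h f
  have e3 := dir hh f g
  rw [YY_cyc f g h] at e2
  rw [← YY_cyc h f g] at e3
  linarith

/-- `dd` depends only on the pointwise product of its last two arguments. -/
noncomputable def d1 (f p : Fin 3 → ℂ) : ℝ :=
  normSq (f 1 * p 0 + f 2 * p 1 + f 0 * p 2) - normSq (f 2 * p 0 + f 0 * p 1 + f 1 * p 2)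

theorem dd_eq_d1 (f g h : Fin 3 → ℂ) : dd f g h = d1 f (fun m => g m * h m) := by
  unfold dd d1
  congr 2 <;> ring

theorem d1_neg (f p : Fin 3 → ℂ) : d1 f (fun m => - p m) = d1 f p := by
  unfold d1
  rw [← normSq_neg (f 1 * p 0 + f 2 * p 1 + f 0 * p 2),
    ← normSq_neg (f 2 * p 0 + f 0 * p 1 + f 1 * p 2)]
  congr 2 <;> ring

theorem match1 {f : Fin 3 → ℂ} (hf : Star f) (p q : Fin 3 → ℂ)
    (h : ∀ m, f m = (starRingEnd ℂ) (p m) - q m) :
    d1 (fun m => (starRingEnd ℂ) (f m)) q = d1 f p := by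
  have h2 := hf.2
  have h3 := congrArg (starRingEnd ℂ) h2
  simp only [map_add, map_mul, conj_conj, map_zero] at h3
  unfold d1
  have q0 : q 0 = (starRingEnd ℂ) (p 0) - f 0 := by rw [h 0]; ring
  have q1 : q 1 = (starRingEnd ℂ) (p 1) - f 1 := by rw [h 1]; ring
  have q2 : q 2 = (starRingEnd ℂ) (p 2) - f 2 := by rw [h 2]; ring
  have e1 : (starRingEnd ℂ) (f 1) * q 0 + (starRingEnd ℂ) (f 2) * q 1 + (starRingEnd ℂ) (f 0) * q 2
      = (starRingEnd ℂ) (f 1 * p 0 + f 2 * p 1 + f 0 * p 2) := by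
    simp only [map_add, map_mul]
    rw [q0, q1, q2]
    linear_combination -h3
  have e2 : (starRingEnd ℂ) (f 2) * q 0 + (starRingEnd ℂ) (f 0) * q 1 + (starRingEnd ℂ) (f 1) * q 2
      = (starRingEnd ℂ) (f 2 * p 0 + f 0 * p 1 + f 1 * p 2) := by
    simp only [map_add, map_mul]
    rw [q0, q1, q2]
    linear_combination -h2
  rw [e1, e2, normSq_conj, normSq_conj]

theorem tri {a b c A B C : Fin 3 → ℂ}
    (sa : Star a) (sb : Star b) (sc : Star c) (sA : Star A) (sB : Star B) (sC : Star C)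
    (ha : ∀ m, a m = (starRingEnd ℂ) (b m * c m) - A m * (starRingEnd ℂ) (B m))
    (hb : ∀ m, b m = (starRingEnd ℂ) (c m * a m) - B m * (starRingEnd ℂ) (C m))
    (hB : ∀ m, B m = - ((starRingEnd ℂ) (a m) * A m) - b m * C m)
    (nA : ∀ m, normSq (A m) = 1 - normSq (b m))
    (nB : ∀ m, normSq (B m) = 1 - normSq (c m))
    (nC : ∀ m, normSq (C m) = 1 - normSq (a m)) :
    JJ a b = JJ b c + JJ c a := by
  have g0 := group_lemma sa sb sc
  have g1 := group_lemma sB.conj sa.conj sA
  have g2 := group_lemma sb.conj sB sC.conj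
  have m1 : dd (fun m => (starRingEnd ℂ) (a m)) A (fun m => (starRingEnd ℂ) (B m)) = dd a b c := by
    rw [dd_eq_d1, dd_eq_d1]
    exact match1 sa _ _ ha
  have m2 : dd (fun m => (starRingEnd ℂ) (b m)) B (fun m => (starRingEnd ℂ) (C m)) = dd b c a := by
    rw [dd_eq_d1, dd_eq_d1]
    exact match1 sb _ _ hb
  have m3 : dd (fun m => (starRingEnd ℂ) (B m)) (fun m => (starRingEnd ℂ) (a m)) A
      = dd B (fun m => (starRingEnd ℂ) (C m)) (fun m => (starRingEnd ℂ) (b m)) := by
    rw [dd_eq_d1, dd_eq_d1, ← d1_neg B]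
    refine match1 sB _ _ ?_
    intro m
    have := hB m
    simp only [map_neg, map_mul, conj_conj]
    linear_combination this
  rw [m1, m3] at g1
  rw [m2] at g2
  have hsum : JJ a b - (JJ b c + JJ c a) / 2
      + (JJ (fun m => (starRingEnd ℂ) (B m)) (fun m => (starRingEnd ℂ) (a m))
        - (JJ (fun m => (starRingEnd ℂ) (a m)) A + JJ A (fun m => (starRingEnd ℂ) (B m))) / 2)
      + (JJ (fun m => (starRingEnd ℂ) (b m)) B
        - (JJ B (fun m => (starRingEnd ℂ) (C m))
          + JJ (fun m => (starRingEnd ℂ) (C m)) (fun m => (starRingEnd ℂ) (b m))) / 2) = 0 := by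
    rw [← g0, ← g1, ← g2]; ring
  unfold JJ at hsum ⊢
  simp only [normSq_conj, nA, nB, nC] at hsum
  linarith only [hsum]

/-- **Collinearity lemma.** -/
theorem collinear {x y s t : Fin 3 → ℂ}
    (sx : Star x) (sy : Star y) (ss : Star s) (st : Star t)
    (sb : Star (fun m => (starRingEnd ℂ) (x m) * s m + (starRingEnd ℂ) (y m) * t m))
    (sA : Star (fun m => x m * t m - y m * s m))
    (n1 : ∀ m, normSq (x m) + normSq (y m) = 1)
    (n2 : ∀ m, normSq (s m) + normSq (t m) = 1) :
    JJ x s = 0 ∧ JJ x (fun m => (starRingEnd ℂ) (x m) * s m + (starRingEnd ℂ) (y m) * t m) = 0 ∧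
    JJ s (fun m => (starRingEnd ℂ) (x m) * s m + (starRingEnd ℂ) (y m) * t m) = 0 := by
  set b : Fin 3 → ℂ := fun m => (starRingEnd ℂ) (x m) * s m + (starRingEnd ℂ) (y m) * t m with hb
  set A : Fin 3 → ℂ := fun m => x m * t m - y m * s m with hA
  set c : Fin 3 → ℂ := fun m => (starRingEnd ℂ) (s m) with hc
  set B : Fin 3 → ℂ := fun m => - t m with hB
  have sc : Star c := ss.conj
  have sB : Star B := st.neg
  have n1' : ∀ m, x m * (starRingEnd ℂ) (x m) + y m * (starRingEnd ℂ) (y m) = 1 := by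
    intro m; rw [mul_conj, mul_conj, ← ofReal_add, n1]; norm_num
  have n2' : ∀ m, s m * (starRingEnd ℂ) (s m) + t m * (starRingEnd ℂ) (t m) = 1 := by
    intro m; rw [mul_conj, mul_conj, ← ofReal_add, n2]; norm_num
  have nA : ∀ m, normSq (A m) = 1 - normSq (b m) := by
    intro m
    have key : ((normSq (A m) : ℝ) : ℂ) = ((1 - normSq (b m) : ℝ) : ℂ) := by
      push_cast
      rw [normSq_eq_conj_mul_self, normSq_eq_conj_mul_self, hA, hb]
      simp only [map_add, map_mul, map_sub, conj_conj]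
      linear_combination (s m * (starRingEnd ℂ) (s m) + t m * (starRingEnd ℂ) (t m)) * n1' m + n2' m
    exact_mod_cast key
  have nB : ∀ m, normSq (B m) = 1 - normSq (c m) := by
    intro m; rw [hB, hc]; simp only [normSq_neg, normSq_conj]; linarith [n2 m]
  have nC : ∀ m, normSq (y m) = 1 - normSq (x m) := by
    intro m; linarith [n1 m]
  have ra : ∀ m, x m = (starRingEnd ℂ) (b m * c m) - A m * (starRingEnd ℂ) (B m) := by
    intro m
    rw [hb, hc, hA, hB]
    simp only [map_mul, map_add, conj_conj, map_neg]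
    linear_combination (- x m) * n2' m
  have rb : ∀ m, b m = (starRingEnd ℂ) (c m * x m) - B m * (starRingEnd ℂ) (y m) := by
    intro m
    rw [hb, hc, hB]
    simp only [map_mul, conj_conj]
    ring
  have rc : ∀ m, c m = (starRingEnd ℂ) (x m * b m) - y m * (starRingEnd ℂ) (A m) := by
    intro m
    rw [hb, hc, hA]
    simp only [map_add, map_mul, conj_conj, map_sub]
    linear_combination (- (starRingEnd ℂ) (s m)) * n1' m
  have rA : ∀ m, A m = - ((starRingEnd ℂ) (c m) * y m) - x m * B m := by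
    intro m
    rw [hA, hc, hB]
    simp only [conj_conj]
    ring
  have rB : ∀ m, B m = - ((starRingEnd ℂ) (x m) * A m) - b m * y m := by
    intro m
    rw [hA, hb, hB]
    simp only
    linear_combination (t m) * n1' m
  have rC : ∀ m, y m = - ((starRingEnd ℂ) (b m) * B m) - c m * A m := by
    intro m
    rw [hA, hb, hB, hc]
    simp only [map_add, map_mul, conj_conj]
    linear_combination (- y m) * n2' m
  have t1 := tri sx sb sc sA sB sy ra rb rB nA nB nC
  have t2 := tri sb sc sx sB sy sA rb rc rC nB nC nA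
  have t3 := tri sc sx sb sy sA sB rc ra rA nC nA nB
  have hcs : ∀ g : Fin 3 → ℂ, JJ c g = JJ s g := by
    intro g; unfold JJ; rw [hc]; simp only [normSq_conj]
  have hcs' : ∀ g : Fin 3 → ℂ, JJ g c = JJ g s := by
    intro g; unfold JJ; rw [hc]; simp only [normSq_conj]
  have anti : ∀ f g : Fin 3 → ℂ, JJ f g = - JJ g f := by
    intro f g; unfold JJ; ring
  refine ⟨?_, ?_, ?_⟩
  · rw [anti, ← hcs]; linarith only [t1, t2]
  · linarith
  · rw [anti, ← hcs']; linarith only [t1, t3]

end Vale.Agent.P355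
end
end

section

section

/-! Facts about a single pair of free bases. -/

namespace Vale.Agent.P355

open Complex

theorem Star.ne_zero {f : Fin 3 → ℂ} (hf : Star f) (hle : ∀ m, normSq (f m) ≤ 1) :
    ∀ m, f m ≠ 0 := by
  obtain ⟨h1, h2⟩ := hf
  have l0 := hle 0
  have l1 := hle 1
  have l2 := hle 2
  intro m hm
  fin_cases m
  · simp only [Fin.zero_eta, Fin.isValue] at hm
    rw [hm] at h2 h1
    simp only [map_zero, mul_zero, zero_add, zero_mul, add_zero, mul_eq_zero,
      map_eq_zero] at h2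
    rw [normSq_zero] at h1
    rcases h2 with h | h <;> rw [h, normSq_zero] at h1 <;> linarith
  · simp only [Fin.mk_one, Fin.isValue] at hm
    rw [hm] at h2 h1
    simp only [map_zero, mul_zero, zero_add, zero_mul, add_zero, mul_eq_zero,
      map_eq_zero] at h2
    rw [normSq_zero] at h1
    rcases h2 with h | h <;> rw [h, normSq_zero] at h1 <;> linarith
  · simp only [Fin.reduceFinMk, Fin.isValue] at hm
    rw [hm] at h2 h1
    simp only [map_zero, mul_zero, zero_add, zero_mul, add_zero, mul_eq_zero,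
      map_eq_zero] at h2
    rw [normSq_zero] at h1
    rcases h2 with h | h <;> rw [h, normSq_zero] at h1 <;> linarith

/-- If two of the moduli of a `Star` triple are equal then they are at most `2/3`. -/
theorem Star.le_two_thirds {f : Fin 3 → ℂ} (hf : Star f) (hle : ∀ m, normSq (f m) ≤ 1)
    (i j : Fin 3) (hij : i ≠ j) (h : normSq (f i) = normSq (f j)) : normSq (f i) ≤ 2 / 3 := by
  have hpos : ∀ m, 0 < normSq (f m) := fun m => normSq_pos.2 (hf.ne_zero hle m)
  obtain ⟨h1, h2⟩ := hf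
  -- |X0|^2 <= 2 (|X1|^2+|X2|^2)
  have key : ∀ u v w : ℂ, u + v + w = 0 → normSq u ≤ 2 * (normSq v + normSq w) := by
    intro u v w huvw
    have : u = - (v + w) := by linear_combination huvw
    rw [this, normSq_neg]
    have e1 := normSq_add v w
    have e2 := normSq_sub v w
    have e3 := normSq_nonneg (v - w)
    linarith only [e1, e2, e3]
  have k0 := key _ _ _ h2
  have k1 := key (f 2 * (starRingEnd ℂ) (f 1)) (f 0 * (starRingEnd ℂ) (f 2))
    (f 1 * (starRingEnd ℂ) (f 0)) (by linear_combination h2)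
  have k2 := key (f 0 * (starRingEnd ℂ) (f 2)) (f 1 * (starRingEnd ℂ) (f 0))
    (f 2 * (starRingEnd ℂ) (f 1)) (by linear_combination h2)
  simp only [normSq_mul, normSq_conj] at k0 k1 k2
  have p0 := hpos 0
  have p1 := hpos 1
  have p2 := hpos 2
  have c01 : normSq (f 0) = normSq (f 1) → normSq (f 0) ≤ 2 / 3 := by
    intro h
    rw [← h] at k0 h1
    have : normSq (f 0) * (normSq (f 0) - 4 * normSq (f 2)) ≤ 0 := by nlinarith only [k0]
    have : normSq (f 0) - 4 * normSq (f 2) ≤ 0 := by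
      by_contra hc
      push Not at hc
      nlinarith only [k0, p0, hc]
    linarith
  have c12 : normSq (f 1) = normSq (f 2) → normSq (f 1) ≤ 2 / 3 := by
    intro h
    rw [← h] at k1 h1
    have : normSq (f 1) * (normSq (f 1) - 4 * normSq (f 0)) ≤ 0 := by nlinarith only [k1]
    have : normSq (f 1) - 4 * normSq (f 0) ≤ 0 := by
      by_contra hc
      push Not at hc
      nlinarith only [k1, p1, hc]
    linarith
  have c20 : normSq (f 2) = normSq (f 0) → normSq (f 2) ≤ 2 / 3 := by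
    intro h
    rw [← h] at k2 h1
    have : normSq (f 2) * (normSq (f 2) - 4 * normSq (f 1)) ≤ 0 := by nlinarith only [k2]
    have : normSq (f 2) - 4 * normSq (f 1) ≤ 0 := by
      by_contra hc
      push Not at hc
      nlinarith only [k2, hc, p1]
    linarith
  fin_cases i <;> fin_cases j <;> simp only [ne_eq, not_true_eq_false, Fin.zero_eta, Fin.mk_one,
    Fin.reduceFinMk, Fin.isValue] at hij h ⊢
  · exact c01 h
  · rw [h]; exact c20 h.symm
  · rw [h]; exact c01 h.symm
  · exact c12 h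
  · exact c20 h
  · rw [h]; exact c12 h.symm

/-- The dichotomy: either the determinants form a geometric progression, or all moduli are `1/2`. -/
theorem dichotomy {x y d : Fin 3 → ℂ} (sx : Star x) (sy : Star y)
    (n1 : ∀ m, normSq (x m) + normSq (y m) = 1) (nd : ∀ m, normSq (d m) = 1)
    (sdx : Star (fun m => d m * (starRingEnd ℂ) (x m)))
    (sdy : Star (fun m => d m * (starRingEnd ℂ) (y m))) :
    (∃ χ : ℂ, d 1 = χ * d 0 ∧ d 2 = χ * d 1 ∧ d 0 = χ * d 2) ∨ (∀ m, normSq (x m) = 1 / 2) := by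
  have hx1 : ∀ m, normSq (x m) ≤ 1 := fun m => by have := n1 m; have := normSq_nonneg (y m); linarith
  have hy1 : ∀ m, normSq (y m) ≤ 1 := fun m => by have := n1 m; have := normSq_nonneg (x m); linarith
  have px : ∀ m, 0 < normSq (x m) := fun m => normSq_pos.2 (sx.ne_zero hx1 m)
  have py : ∀ m, 0 < normSq (y m) := fun m => normSq_pos.2 (sy.ne_zero hy1 m)
  -- chi's
  set c0 : ℂ := (starRingEnd ℂ) (d 1) * d 0 with hc0
  set c1 : ℂ := (starRingEnd ℂ) (d 2) * d 1 with hc1
  set c2 : ℂ := (starRingEnd ℂ) (d 0) * d 2 with hc2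
  have gen : ∀ f : Fin 3 → ℂ, Star f → (∀ m, 0 < normSq (f m)) →
      Star (fun m => d m * (starRingEnd ℂ) (f m)) →
      normSq (c1 - c2) * normSq (f 2) = normSq (c2 - c0) * normSq (f 0) ∧
      normSq (c0 - c1) * normSq (f 1) = normSq (c2 - c0) * normSq (f 0) := by
    intro f sf pf sdf
    have e1 := sf.2
    have e2 := congrArg (starRingEnd ℂ) sdf.2
    simp only [map_add, map_mul, conj_conj, map_zero] at e2
    have e2' : c0 * (f 1 * (starRingEnd ℂ) (f 0)) + c1 * (f 2 * (starRingEnd ℂ) (f 1))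
        + c2 * (f 0 * (starRingEnd ℂ) (f 2)) = 0 := by
      rw [hc0, hc1, hc2]; linear_combination e2
    have r1 : (c2 - c0) * (f 1 * (starRingEnd ℂ) (f 0)) = (c1 - c2) * (f 2 * (starRingEnd ℂ) (f 1)) := by
      linear_combination c2 * e1 - e2'
    have r2 : (c0 - c1) * (f 2 * (starRingEnd ℂ) (f 1)) = (c2 - c0) * (f 0 * (starRingEnd ℂ) (f 2)) := by
      linear_combination c0 * e1 - e2'
    have q1 := congrArg normSq r1
    have q2 := congrArg normSq r2
    simp only [normSq_mul, normSq_conj] at q1 q2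
    have f0 := (pf 0).ne'
    have f1 := (pf 1).ne'
    have f2 := (pf 2).ne'
    constructor
    · have : normSq (f 1) * (normSq (c1 - c2) * normSq (f 2) - normSq (c2 - c0) * normSq (f 0)) = 0 := by
        linear_combination -q1
      rcases mul_eq_zero.1 this with h | h
      · exact absurd h f1
      · linarith only [h]
    · have : normSq (f 2) * (normSq (c0 - c1) * normSq (f 1) - normSq (c2 - c0) * normSq (f 0)) = 0 := by
        linear_combination q2
      rcases mul_eq_zero.1 this with h | h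
      · exact absurd h f2
      · linarith only [h]
  obtain ⟨a1, a2⟩ := gen x sx px sdx
  obtain ⟨b1, b2⟩ := gen y sy py sdy
  have A : normSq (c1 - c2) = normSq (c2 - c0) := by
    have h2 := n1 2
    have h0 := n1 0
    calc normSq (c1 - c2) = normSq (c1 - c2) * (normSq (x 2) + normSq (y 2)) := by rw [h2]; ring
      _ = normSq (c2 - c0) * (normSq (x 0) + normSq (y 0)) := by linarith only [a1, b1]
      _ = normSq (c2 - c0) := by rw [h0]; ring
  have B : normSq (c0 - c1) = normSq (c2 - c0) := by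
    have h1 := n1 1
    have h0 := n1 0
    calc normSq (c0 - c1) = normSq (c0 - c1) * (normSq (x 1) + normSq (y 1)) := by rw [h1]; ring
      _ = normSq (c2 - c0) * (normSq (x 0) + normSq (y 0)) := by linarith only [a2, b2]
      _ = normSq (c2 - c0) := by rw [h0]; ring
  by_cases hC : normSq (c2 - c0) = 0
  · left
    have h20 : c2 = c0 := sub_eq_zero.1 (normSq_eq_zero.1 hC)
    have h01 : c0 = c1 := sub_eq_zero.1 (normSq_eq_zero.1 (B.trans hC))
    have D : ∀ m, d m * (starRingEnd ℂ) (d m) = 1 := fun m => by rw [mul_conj, nd m]; norm_num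
    -- chi = conj c0 = d 1 * conj (d 0)
    refine ⟨d 1 * (starRingEnd ℂ) (d 0), ?_, ?_, ?_⟩
    · linear_combination (- d 1) * D 0
    · have : (starRingEnd ℂ) c0 = (starRingEnd ℂ) c1 := congrArg _ h01
      rw [hc0, hc1] at this
      simp only [map_mul, conj_conj] at this
      -- this : d 1 * conj (d 0) = d 2 * conj (d 1)
      rw [this]
      linear_combination (- d 2) * D 1
    · have : (starRingEnd ℂ) c2 = (starRingEnd ℂ) c0 := congrArg _ h20
      rw [hc0, hc2] at this
      simp only [map_mul, conj_conj] at this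
      rw [← this]
      linear_combination (- d 0) * D 2
  · right
    rw [A] at a1
    rw [B] at a2
    have e20 : normSq (x 2) = normSq (x 0) := mul_left_cancel₀ hC a1
    have e10 : normSq (x 1) = normSq (x 0) := mul_left_cancel₀ hC a2
    have := sx.1
    intro m
    fin_cases m
    · simp only [Fin.zero_eta, Fin.isValue]; linarith only [e20, e10, this]
    · simp only [Fin.mk_one, Fin.isValue]; linarith only [e20, e10, this]
    · simp only [Fin.reduceFinMk, Fin.isValue]; linarith only [e20, e10, this]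

end Vale.Agent.P355
end
end

section

section

/-! The cube root of unity and the `Star` condition. -/

namespace Vale.Agent.P355

open Complex

/-- primitive cube root of unity -/
noncomputable def om : ℂ := ⟨-1 / 2, Real.sqrt 3 / 2⟩

theorem om_quad : om * om = -1 - om := by
  have h3 : Real.sqrt 3 * Real.sqrt 3 = 3 := Real.mul_self_sqrt (by norm_num)
  apply Complex.ext
  · simp only [om, mul_re, sub_re, neg_re, one_re]
    linear_combination (-1 / 4) * h3
  · simp only [om, mul_im, sub_im, neg_im, one_im]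
    ring

theorem om_conj : (starRingEnd ℂ) om = -1 - om := by
  apply Complex.ext
  · simp only [om, conj_re, sub_re, neg_re, one_re]
    norm_num
  · simp only [om, conj_im, sub_im, neg_im, one_im]
    ring

/-- The three cube roots of unity. -/
noncomputable def Z : Fin 3 → ℂ := ![1, om, -1 - om]

theorem Z0 : Z 0 = 1 := rfl
theorem Z1 : Z 1 = om := rfl
theorem Z2 : Z 2 = -1 - om := rfl

theorem conj_om2 : (starRingEnd ℂ) (-1 - om) = om := by
  rw [map_sub, map_neg, map_one, om_conj]; ring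

theorem CR_Z (m : Fin 3) : CR (Z m) := by
  have h := om_quad
  fin_cases m
  · simp only [Fin.zero_eta, Fin.isValue, Z0]
    constructor <;> simp
  · simp only [Fin.mk_one, Fin.isValue, Z1]
    constructor
    · rw [om_conj, om_quad]
    · rw [om_conj]; linear_combination (-1 : ℂ) * h
  · simp only [Fin.reduceFinMk, Fin.isValue, Z2]
    constructor
    · rw [conj_om2]; linear_combination h
    · rw [conj_om2]; linear_combination (-1 : ℂ) * h

/-- The discrete Fourier transform of a unimodular (up to scale) triple is a `Star`. -/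
theorem star_fourier (a : Fin 3 → ℂ) (ha : ∀ s, normSq (a s) = 1 / 6) :
    Star (fun m => a 0 + (starRingEnd ℂ) (Z m) * a 1 + Z m * a 2) := by
  have h := om_quad
  have ha' : ∀ s, a s * (starRingEnd ℂ) (a s) = 1 / 6 := by
    intro s
    rw [mul_conj, ha s]
    push_cast
    ring
  have a0 := ha' 0
  have a1 := ha' 1
  have a2 := ha' 2
  constructor
  · have : ((normSq (a 0 + (starRingEnd ℂ) (Z 0) * a 1 + Z 0 * a 2)
        + normSq (a 0 + (starRingEnd ℂ) (Z 1) * a 1 + Z 1 * a 2)
        + normSq (a 0 + (starRingEnd ℂ) (Z 2) * a 1 + Z 2 * a 2) : ℝ) : ℂ) = ((3 / 2 : ℝ) : ℂ) := by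
      push_cast
      rw [← mul_conj, ← mul_conj, ← mul_conj]
      simp only [Z0, Z1, Z2, map_add, map_mul, map_one, om_conj, map_sub, map_neg]
      generalize (starRingEnd ℂ) (a 0) = b0 at *
      generalize (starRingEnd ℂ) (a 1) = b1 at *
      generalize (starRingEnd ℂ) (a 2) = b2 at *
      linear_combination (-2 * a 1 * b1 + 2 * a 1 * b2 + 2 * a 2 * b1 - 2 * a 2 * b2) * h
        + 3 * a0 + 3 * a1 + 3 * a2
    exact_mod_cast this
  · simp only [Z1, om_conj, Z0, map_one, map_add, map_mul, Z2, map_sub, map_neg]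
    generalize (starRingEnd ℂ) (a 0) = b0 at *
    generalize (starRingEnd ℂ) (a 1) = b1 at *
    generalize (starRingEnd ℂ) (a 2) = b2 at *
    linear_combination (a 1 * b1 - a 1 * b2 - a 2 * b1 + a 2 * b2) * h
      + 3 * a0 + 3 * (-1 - om) * a1 + 3 * om * a2

/-- For two frames coming from mutually unbiased bases, every entry is a `Star`. -/
theorem star_of_unbiased {g : H →ₗ[ℂ] H} {x y : H}
    (h0 : normSq (inner ℂ x y) = 1 / 6) (h1 : normSq (inner ℂ x (g y)) = 1 / 6)
    (h2 : normSq (inner ℂ x (g (g y))) = 1 / 6) :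
    Star (fun m => inner ℂ x (EE g (Z m) y)) := by
  have := star_fourier ![inner ℂ x y, inner ℂ x (g y), inner ℂ x (g (g y))] (by
    intro s
    fin_cases s
    · exact h0
    · exact h1
    · exact h2)
  have e : (fun m => inner ℂ x (EE g (Z m) y)) = fun m => inner ℂ x y
      + (starRingEnd ℂ) (Z m) * inner ℂ x (g y) + Z m * inner ℂ x (g (g y)) := by
    funext m
    unfold EE
    rw [inner_add_right, inner_add_right, inner_smul_right, inner_smul_right]
  rw [e]
  exact this

end Vale.Agent.P355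
end
end

section

section

/-! Three free bases: the modulus vectors are collinear. -/

namespace Vale.Agent.P355

open Complex

theorem Star.twist {f d : Fin 3 → ℂ} (hf : Star f) (nd : ∀ m, normSq (d m) = 1) {χ : ℂ}
    (h1 : d 1 = χ * d 0) (h2 : d 2 = χ * d 1) (h0 : d 0 = χ * d 2) :
    Star (fun m => d m * f m) := by
  obtain ⟨e1, e2⟩ := hf
  have nn : ∀ m, d m * (starRingEnd ℂ) (d m) = 1 := by
    intro m; rw [mul_conj, nd m]; norm_num
  constructor
  · simp only [normSq_mul, nd, one_mul]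
    exact e1
  · simp only [map_mul]
    have c1 : d 1 * (starRingEnd ℂ) (d 0) = χ := by
      rw [h1]; linear_combination χ * nn 0
    have c2 : d 2 * (starRingEnd ℂ) (d 1) = χ := by
      rw [h2]; linear_combination χ * nn 1
    have c0 : d 0 * (starRingEnd ℂ) (d 2) = χ := by
      rw [h0]; linear_combination χ * nn 2
    calc d 1 * f 1 * ((starRingEnd ℂ) (d 0) * (starRingEnd ℂ) (f 0))
          + d 2 * f 2 * ((starRingEnd ℂ) (d 1) * (starRingEnd ℂ) (f 1))
          + d 0 * f 0 * ((starRingEnd ℂ) (d 2) * (starRingEnd ℂ) (f 2))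
        = (d 1 * (starRingEnd ℂ) (d 0)) * (f 1 * (starRingEnd ℂ) (f 0))
          + (d 2 * (starRingEnd ℂ) (d 1)) * (f 2 * (starRingEnd ℂ) (f 1))
          + (d 0 * (starRingEnd ℂ) (d 2)) * (f 0 * (starRingEnd ℂ) (f 2)) := by ring
      _ = χ * (f 1 * (starRingEnd ℂ) (f 0) + f 2 * (starRingEnd ℂ) (f 1)
            + f 0 * (starRingEnd ℂ) (f 2)) := by rw [c1, c2, c0]; ring
      _ = 0 := by rw [e2, mul_zero]

variable {g : H →ₗ[ℂ] H}

theorem inner_swap (hg : ∀ x y, inner ℂ (g x) (g y) = inner ℂ x y)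
    (h3 : ∀ x, g (g (g x)) = x) (z : ℂ) (x y : H) :
    inner ℂ y (EE g z x) = (starRingEnd ℂ) (inner ℂ x (EE g z y)) := by
  rw [inner_conj_symm, inner_EE_left hg h3]

/-- First-column relation. -/
theorem frame_gram (hg : ∀ x y, inner ℂ (g x) (g y) = inner ℂ x y)
    (h3 : ∀ x, g (g (g x)) = x) {v : Fin 2 → H} (Fv : Frame g v) {z : ℂ} (hz : CR z) (x y : H) :
    inner ℂ x (EE g z y)
      = (starRingEnd ℂ) (inner ℂ (v 0) (EE g z x)) * inner ℂ (v 0) (EE g z y)
      + (starRingEnd ℂ) (inner ℂ (v 1) (EE g z x)) * inner ℂ (v 1) (EE g z y) := by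
  rw [Fv.complete z hz x y, inner_swap hg h3 z (v 0) x, inner_swap hg h3 z (v 1) x]

theorem frame_norm (hg : ∀ x y, inner ℂ (g x) (g y) = inner ℂ x y)
    (h3 : ∀ x, g (g (g x)) = x) {v w : Fin 2 → H} (Fv : Frame g v) (Fw : Frame g w)
    {z : ℂ} (hz : CR z) (β : Fin 2) :
    normSq (inner ℂ (v 0) (EE g z (w β))) + normSq (inner ℂ (v 1) (EE g z (w β))) = 1 := by
  have h := frame_gram hg h3 Fv hz (w β) (w β)
  rw [Fw.self, ← normSq_eq_conj_mul_self, ← normSq_eq_conj_mul_self] at h
  exact_mod_cast h.symm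

theorem J_free (hg : ∀ x y, inner ℂ (g x) (g y) = inner ℂ x y)
    (h3 : ∀ x, g (g (g x)) = x) {v w u : Fin 2 → H} (Fv : Frame g v) (Fw : Frame g w)
    (Fu : Frame g u)
    (Svw : ∀ α β, Star (fun m => inner ℂ (v α) (EE g (Z m) (w β))))
    (Svu : ∀ α β, Star (fun m => inner ℂ (v α) (EE g (Z m) (u β))))
    (Swu : ∀ α β, Star (fun m => inner ℂ (w α) (EE g (Z m) (u β)))) :
    (∀ m, normSq (inner ℂ (v 0) (EE g (Z m) (w 0))) = 1 / 2) ∨
    JJ (fun m => inner ℂ (v 0) (EE g (Z m) (w 0)))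
      (fun m => inner ℂ (w 0) (EE g (Z m) (u 0))) = 0 := by
  set x : Fin 3 → ℂ := fun m => inner ℂ (v 0) (EE g (Z m) (w 0)) with hx
  set y : Fin 3 → ℂ := fun m => inner ℂ (v 1) (EE g (Z m) (w 0)) with hy
  set p : Fin 3 → ℂ := fun m => inner ℂ (v 0) (EE g (Z m) (w 1)) with hp
  set q : Fin 3 → ℂ := fun m => inner ℂ (v 1) (EE g (Z m) (w 1)) with hq
  set s : Fin 3 → ℂ := fun m => inner ℂ (v 0) (EE g (Z m) (u 0)) with hs
  set t : Fin 3 → ℂ := fun m => inner ℂ (v 1) (EE g (Z m) (u 0)) with ht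
  have n1 : ∀ m, normSq (x m) + normSq (y m) = 1 := fun m => frame_norm hg h3 Fv Fw (CR_Z m) 0
  have n2 : ∀ m, normSq (p m) + normSq (q m) = 1 := fun m => frame_norm hg h3 Fv Fw (CR_Z m) 1
  have n3 : ∀ m, normSq (s m) + normSq (t m) = 1 := fun m => frame_norm hg h3 Fv Fu (CR_Z m) 0
  have o1 : ∀ m, (starRingEnd ℂ) (x m) * p m + (starRingEnd ℂ) (y m) * q m = 0 := by
    intro m
    have h := frame_gram hg h3 Fv (CR_Z m) (w 0) (w 1)
    rw [Fw.cross] at h
    exact h.symm
  set d : Fin 3 → ℂ := fun m => x m * q m - y m * p m with hd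
  have n1c : ∀ m, x m * (starRingEnd ℂ) (x m) + y m * (starRingEnd ℂ) (y m) = 1 := by
    intro m
    rw [mul_conj, mul_conj]
    exact_mod_cast n1 m
  have n2c : ∀ m, p m * (starRingEnd ℂ) (p m) + q m * (starRingEnd ℂ) (q m) = 1 := by
    intro m
    rw [mul_conj, mul_conj]
    exact_mod_cast n2 m
  have eq : ∀ m, q m = d m * (starRingEnd ℂ) (x m) := by
    intro m
    simp only [hd]
    linear_combination (- q m) * n1c m + y m * o1 m
  have ep : ∀ m, - p m = d m * (starRingEnd ℂ) (y m) := by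
    intro m
    simp only [hd]
    linear_combination (p m) * n1c m - x m * o1 m
  have nd : ∀ m, normSq (d m) = 1 := by
    intro m
    have h1 : normSq (q m) = normSq (d m) * normSq (x m) := by
      rw [eq m, normSq_mul, normSq_conj]
    have h2 : normSq (p m) = normSq (d m) * normSq (y m) := by
      rw [← normSq_neg, ep m, normSq_mul, normSq_conj]
    have h3 := n2 m
    rw [h1, h2] at h3
    have h4 := n1 m
    calc normSq (d m) = normSq (d m) * (normSq (x m) + normSq (y m)) := by rw [h4, mul_one]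
      _ = 1 := by rw [← h3]; ring
  have sq' : Star (fun m => d m * (starRingEnd ℂ) (x m)) := by
    have : (fun m => d m * (starRingEnd ℂ) (x m)) = q := by funext m; exact (eq m).symm
    rw [this]; exact Svw 1 1
  have sp' : Star (fun m => d m * (starRingEnd ℂ) (y m)) := by
    have : (fun m => d m * (starRingEnd ℂ) (y m)) = fun m => - p m := by
      funext m; exact (ep m).symm
    rw [this]; exact (Svw 0 1).neg
  rcases dichotomy (Svw 0 0) (Svw 1 0) n1 nd sq' sp' with ⟨χ, c1, c2, c0⟩ | hhalf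
  · right
    have hb : ∀ m, inner ℂ (w 0) (EE g (Z m) (u 0))
        = (starRingEnd ℂ) (x m) * s m + (starRingEnd ℂ) (y m) * t m := fun m =>
      frame_gram hg h3 Fv (CR_Z m) (w 0) (u 0)
    have hb1 : ∀ m, inner ℂ (w 1) (EE g (Z m) (u 0))
        = (starRingEnd ℂ) (p m) * s m + (starRingEnd ℂ) (q m) * t m := fun m =>
      frame_gram hg h3 Fv (CR_Z m) (w 1) (u 0)
    have hbf : (fun m => inner ℂ (w 0) (EE g (Z m) (u 0)))
        = (fun m => (starRingEnd ℂ) (x m) * s m + (starRingEnd ℂ) (y m) * t m) := by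
      funext m; exact hb m
    have sb : Star (fun m => (starRingEnd ℂ) (x m) * s m + (starRingEnd ℂ) (y m) * t m) := by
      rw [← hbf]; exact Swu 0 0
    have sA : Star (fun m => x m * t m - y m * s m) := by
      have e : (fun m => x m * t m - y m * s m)
          = fun m => d m * inner ℂ (w 1) (EE g (Z m) (u 0)) := by
        funext m
        rw [hb1 m]
        have cq : (starRingEnd ℂ) (q m) = (starRingEnd ℂ) (d m) * x m := by
          rw [eq m, map_mul, conj_conj]
        have cp : (starRingEnd ℂ) (p m) = - ((starRingEnd ℂ) (d m) * y m) := by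
          have := congrArg (starRingEnd ℂ) (ep m)
          rw [map_neg, map_mul, conj_conj] at this
          rw [← this, neg_neg]
        rw [cq, cp]
        have ndc : d m * (starRingEnd ℂ) (d m) = 1 := by
          rw [mul_conj, nd m]; norm_num
        linear_combination (- (x m * t m - y m * s m)) * ndc
      rw [e]
      exact (Swu 1 0).twist nd c1 c2 c0
    have hc := (collinear (Svw 0 0) (Svw 1 0) (Svu 0 0) (Svu 1 0) sb sA n1 n3).2.1
    rw [hbf]
    exact hc
  · left
    exact hhalf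

end Vale.Agent.P355
end
end

section

section

/-! Bloch vectors of unit vectors of `ℂ²`. -/

namespace Vale.Agent.P355

open Complex

/-- Bloch vector. -/
noncomputable def bl (c : Fin 2 → ℂ) : Fin 3 → ℝ :=
  ![2 * ((c 0).re * (c 1).re + (c 0).im * (c 1).im),
    2 * ((c 0).re * (c 1).im - (c 0).im * (c 1).re),
    normSq (c 0) - normSq (c 1)]

theorem bl_dot (c d : Fin 2 → ℂ) (hc : normSq (c 0) + normSq (c 1) = 1)
    (hd : normSq (d 0) + normSq (d 1) = 1) :
    2 * normSq ((starRingEnd ℂ) (c 0) * d 0 + (starRingEnd ℂ) (c 1) * d 1) - 1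
      = ∑ a, bl c a * bl d a := by
  have h1 : (normSq (c 0) + normSq (c 1)) * (normSq (d 0) + normSq (d 1)) = 1 := by
    rw [hc, hd, mul_one]
  have h2 : 2 * normSq ((starRingEnd ℂ) (c 0) * d 0 + (starRingEnd ℂ) (c 1) * d 1)
      - (normSq (c 0) + normSq (c 1)) * (normSq (d 0) + normSq (d 1))
      = ∑ a, bl c a * bl d a := by
    have b0 : ∀ c : Fin 2 → ℂ, bl c 0 = 2 * ((c 0).re * (c 1).re + (c 0).im * (c 1).im) :=
      fun c => rfl
    have b1 : ∀ c : Fin 2 → ℂ, bl c 1 = 2 * ((c 0).re * (c 1).im - (c 0).im * (c 1).re) :=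
      fun c => rfl
    have b2 : ∀ c : Fin 2 → ℂ, bl c 2 = normSq (c 0) - normSq (c 1) := fun c => rfl
    simp only [Fin.sum_univ_three, b0, b1, b2, normSq_apply, add_re, add_im, mul_re, mul_im,
      conj_re, conj_im]
    ring
  rw [← h2, h1]

/-- Four vectors in `ℝ³` are dependent. -/
theorem exists_dep (n : Fin 4 → Fin 3 → ℝ) : ∃ v : Fin 4 → ℝ, v ≠ 0 ∧ ∀ a, ∑ j, v j * n j a = 0 := by
  let T : (Fin 4 → ℝ) →ₗ[ℝ] (Fin 3 → ℝ) :=
    { toFun := fun v a => ∑ j, v j * n j a
      map_add' := by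
        intro x y; funext a
        simp [add_mul, Finset.sum_add_distrib]
      map_smul' := by
        intro c x; funext a
        simp only [Pi.smul_apply, smul_eq_mul, mul_assoc, Real.ringHom_apply, Finset.mul_sum] }
  have h : LinearMap.ker T ≠ ⊥ := by
    apply LinearMap.ker_ne_bot_of_finrank_lt
    simp
  obtain ⟨v, hv, hne⟩ := Submodule.exists_mem_ne_zero_of_ne_bot h
  refine ⟨v, hne, fun a => ?_⟩
  have := congrFun (LinearMap.mem_ker.1 hv) a
  exact this

theorem dot_ker (n : Fin 4 → Fin 3 → ℝ) :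
    ∃ v : Fin 4 → ℝ, v ≠ 0 ∧ ∀ i, ∑ j, (∑ a, n i a * n j a) * v j = 0 := by
  obtain ⟨v, hv, h⟩ := exists_dep n
  refine ⟨v, hv, fun i => ?_⟩
  have : ∑ j, (∑ a, n i a * n j a) * v j = ∑ a, n i a * ∑ j, v j * n j a := by
    simp only [Finset.sum_mul, Finset.mul_sum]
    rw [Finset.sum_comm]
    refine Finset.sum_congr rfl fun a _ => Finset.sum_congr rfl fun j _ => ?_
    ring
  rw [this]
  simp [h]

theorem dot_psd (n : Fin 4 → Fin 3 → ℝ) (v : Fin 4 → ℝ) :
    0 ≤ ∑ i, ∑ j, v i * ((∑ a, n i a * n j a) * v j) := by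
  have : ∑ i, ∑ j, v i * ((∑ a, n i a * n j a) * v j) = ∑ a, (∑ j, v j * n j a) ^ 2 := by
    have e : ∀ i j, v i * ((∑ a, n i a * n j a) * v j) = ∑ a, (v i * n i a) * (v j * n j a) := by
      intro i j
      rw [Finset.sum_mul, Finset.mul_sum]
      exact Finset.sum_congr rfl fun a _ => by ring
    simp only [e]
    have e2 : ∀ i, ∑ j, ∑ a, (v i * n i a) * (v j * n j a)
        = ∑ a, ∑ j, (v i * n i a) * (v j * n j a) := fun i => Finset.sum_comm
    simp only [e2]
    rw [Finset.sum_comm]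
    refine Finset.sum_congr rfl fun a _ => ?_
    rw [sq, Finset.sum_mul]
    refine Finset.sum_congr rfl fun i _ => ?_
    rw [Finset.mul_sum]
  rw [this]
  exact Finset.sum_nonneg fun a _ => sq_nonneg _

end Vale.Agent.P355
end
end

section

section

/-! Final contradiction for four unit vectors in `ℝ³` (for each of three values of `m`),
in Gram matrix form. -/

namespace Vale.Agent.P355

/-- antisymmetric form on `ℝ³` -/
def JR (p q : Fin 3 → ℝ) : ℝ :=
  p 0 * (q 1 - q 2) + p 1 * (q 2 - q 0) + p 2 * (q 0 - q 1)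

theorem parallel_of_JR {p q : Fin 3 → ℝ} (hp : p 0 + p 1 + p 2 = 0) (hq : q 0 + q 1 + q 2 = 0)
    (h : JR p q = 0) : ∀ m m', p m * q m' = p m' * q m := by
  unfold JR at h
  have hp2 : p 2 = - p 0 - p 1 := by linarith
  have hq2 : q 2 = - q 0 - q 1 := by linarith
  rw [hp2, hq2] at h
  have e : p 0 * q 1 = p 1 * q 0 := by linarith
  have e02 : p 0 * q 2 = p 2 * q 0 := by rw [hp2, hq2]; linarith
  have e12 : p 1 * q 2 = p 2 * q 1 := by rw [hp2, hq2]; linarith only [h]
  intro m m'
  fin_cases m <;> fin_cases m' <;>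
    simp only [Fin.zero_eta, Fin.mk_one, Fin.reduceFinMk, Fin.isValue] <;> linarith

/-- If `q` is parallel to a nonzero `κ`, then `q = s κ`. -/
theorem exists_scale {κ q : Fin 3 → ℝ} (m0 : Fin 3) (h0 : κ m0 ≠ 0)
    (h : ∀ m m', κ m * q m' = κ m' * q m) : ∀ m, q m = (q m0 / κ m0) * κ m := by
  intro m
  have := h m0 m
  field_simp
  linarith

structure GramData (G : Fin 4 → Fin 4 → Fin 3 → ℝ) : Prop where
  symm : ∀ i j m, G i j m = G j i m
  diag : ∀ i m, G i i m = 1
  ker : ∀ m, ∃ v : Fin 4 → ℝ, v ≠ 0 ∧ ∀ i, ∑ j, G i j m * v j = 0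
  psd : ∀ m (v : Fin 4 → ℝ), 0 ≤ ∑ i, ∑ j, v i * (G i j m * v j)
  sum : ∀ i j, i ≠ j → G i j 0 + G i j 1 + G i j 2 = 0
  lt : ∀ i j m, i ≠ j → |G i j m| < 1
  J : ∀ i j k, i ≠ j → j ≠ k → i ≠ k → JR (G i j) (G j k) = 0
  third : ∀ i j m m', i ≠ j → m ≠ m' → G i j m = G i j m' → |G i j m| ≤ 1 / 3

/-- core case: all vectors `G i j` are multiples of a common `κ`. -/
theorem contra_scaled {G : Fin 4 → Fin 4 → Fin 3 → ℝ} (D : GramData G)
    (κ : Fin 3 → ℝ) (hκs : κ 0 + κ 1 + κ 2 = 0) (s : Fin 4 → Fin 4 → ℝ)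
    (hs : ∀ i j, i ≠ j → ∀ m, G i j m = s i j * κ m) : False := by
  -- quadratic form off the diagonal
  have hQ : ∀ m (v : Fin 4 → ℝ), ∑ i, ∑ j, v i * (G i j m * v j)
      = (v 0 ^ 2 + v 1 ^ 2 + v 2 ^ 2 + v 3 ^ 2) + κ m *
        (v 0 * v 1 * (s 0 1 + s 1 0) + v 0 * v 2 * (s 0 2 + s 2 0) + v 0 * v 3 * (s 0 3 + s 3 0)
        + v 1 * v 2 * (s 1 2 + s 2 1) + v 1 * v 3 * (s 1 3 + s 3 1) + v 2 * v 3 * (s 2 3 + s 3 2)) := by
    intro m v
    simp only [Fin.sum_univ_four, D.diag]
    rw [hs 0 1 (by decide), hs 0 2 (by decide), hs 0 3 (by decide), hs 1 0 (by decide),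
      hs 1 2 (by decide), hs 1 3 (by decide), hs 2 0 (by decide), hs 2 1 (by decide),
      hs 2 3 (by decide), hs 3 0 (by decide), hs 3 1 (by decide), hs 3 2 (by decide)]
    ring
  have hnorm : ∀ v : Fin 4 → ℝ, v ≠ 0 → 0 < v 0 ^ 2 + v 1 ^ 2 + v 2 ^ 2 + v 3 ^ 2 := by
    intro v hv
    by_contra hc
    push Not at hc
    apply hv
    have h0 : v 0 = 0 := by nlinarith only [hc]
    have h1 : v 1 = 0 := by nlinarith only [hc]
    have h2 : v 2 = 0 := by nlinarith only [hc]
    have h3 : v 3 = 0 := by nlinarith only [hc]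
    funext i
    fin_cases i <;> simp [h0, h1, h2, h3]
  -- comparing two values of m
  have hcmp : ∀ m, κ m ≠ 0 ∧ ∀ m', κ m' / κ m ≤ 1 := by
    intro m
    obtain ⟨v, hv, hk⟩ := D.ker m
    have hz : ∑ i, ∑ j, v i * (G i j m * v j) = 0 := by
      apply Finset.sum_eq_zero
      intro i _
      rw [← Finset.mul_sum, hk i, mul_zero]
    rw [hQ] at hz
    have hpos := hnorm v hv
    set N := v 0 ^ 2 + v 1 ^ 2 + v 2 ^ 2 + v 3 ^ 2 with hN
    set T := (v 0 * v 1 * (s 0 1 + s 1 0) + v 0 * v 2 * (s 0 2 + s 2 0) + v 0 * v 3 * (s 0 3 + s 3 0)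
        + v 1 * v 2 * (s 1 2 + s 2 1) + v 1 * v 3 * (s 1 3 + s 3 1) + v 2 * v 3 * (s 2 3 + s 3 2)) with hT
    have hne : κ m ≠ 0 := by
      intro h
      rw [h] at hz
      linarith only [hpos, hz]
    refine ⟨hne, fun m' => ?_⟩
    have h' := D.psd m' v
    rw [hQ] at h'
    have hTe : T = - N / κ m := by field_simp; linarith only [hz]
    have : 0 ≤ N * (1 - κ m' / κ m) := by
      have : N + κ m' * T = N * (1 - κ m' / κ m) := by rw [hTe]; field_simp; ring
      rw [← this]; exact h'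
    by_contra hc
    push Not at hc
    nlinarith only [this, hpos, hc]
  -- two of the κ are equal
  have hsame : ∀ m m', 0 < κ m * κ m' → κ m = κ m' := by
    intro m m' h
    have a := (hcmp m).2 m'
    have b := (hcmp m').2 m
    have hm := (hcmp m).1
    have hm' := (hcmp m').1
    rcases lt_or_gt_of_ne hm with h1 | h1
    · have h2 : κ m' < 0 := by nlinarith only [h, h1]
      rw [div_le_one_of_neg h1] at a
      rw [div_le_one_of_neg h2] at b
      linarith
    · have h2 : 0 < κ m' := by nlinarith only [h, h1]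
      rw [div_le_one h1] at a
      rw [div_le_one h2] at b
      linarith
  have hex : ∃ m1 m2 m3 : Fin 3, m1 ≠ m2 ∧ κ m1 = κ m2 ∧ κ m3 = - 2 * κ m1 := by
    have n0 := (hcmp 0).1
    have n1 := (hcmp 1).1
    have n2 := (hcmp 2).1
    by_cases h01 : 0 < κ 0 * κ 1
    · exact ⟨0, 1, 2, by decide, hsame _ _ h01, by have := hsame _ _ h01; linarith⟩
    · by_cases h12 : 0 < κ 1 * κ 2
      · exact ⟨1, 2, 0, by decide, hsame _ _ h12, by have := hsame _ _ h12; linarith⟩
      · have h20 : 0 < κ 2 * κ 0 := by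
          push Not at h01 h12
          have hpos1 : 0 < κ 1 * κ 1 := mul_self_pos.2 n1
          -- κ0 κ1 ≤ 0, κ1 κ2 ≤ 0
          have h3 : 0 ≤ (κ 0 * κ 1) * (κ 1 * κ 2) := mul_nonneg_of_nonpos_of_nonpos h01 h12
          have h4 : 0 ≤ κ 2 * κ 0 := by
            by_contra hc
            push Not at hc
            nlinarith only [h3, hpos1, hc]
          exact lt_of_le_of_ne h4 (Ne.symm (mul_ne_zero n2 n0))
        exact ⟨2, 0, 1, by decide, hsame _ _ h20, by have := hsame _ _ h20; linarith⟩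
  obtain ⟨m1, m2, m3, hne, heq, h3⟩ := hex
  have hb : ∀ i j, i ≠ j → |G i j m1| ≤ 1 / 3 := by
    intro i j hij
    apply D.third i j m1 m2 hij hne
    rw [hs i j hij, hs i j hij, heq]
  have hG3 : ∀ i j, i ≠ j → G i j m3 = - 2 * G i j m1 := by
    intro i j hij
    rw [hs i j hij, hs i j hij, h3]; ring
  -- kernel vector at m1
  obtain ⟨v, hv, hk⟩ := D.ker m1
  have hk' : ∀ i, v i + ∑ j ∈ Finset.univ.erase i, G i j m1 * v j = 0 := by
    intro i
    have := hk i
    rw [← Finset.add_sum_erase _ _ (Finset.mem_univ i), D.diag, one_mul] at this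
    exact this
  -- maximal entry
  obtain ⟨i0, -, hi0⟩ := Finset.exists_max_image (Finset.univ : Finset (Fin 4)) (fun i => v i ^ 2)
    ⟨0, Finset.mem_univ _⟩
  have hM : ∀ j, v j ^ 2 ≤ v i0 ^ 2 := fun j => hi0 j (Finset.mem_univ j)
  have hMpos : 0 < v i0 ^ 2 := by
    by_contra hc
    apply hv
    funext j
    have := hM j
    have : v j ^ 2 ≤ 0 := by linarith
    have : v j = 0 := by (clear G D κ hκs s hs hQ hnorm hcmp hsame m1 m2 m3 hne heq h3 hb hG3 hv hk hk' this; nlinarith [sq_nonneg (v j)])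
    simpa using this
  set M2 := v i0 ^ 2 with hM2
  -- each term is nonnegative
  have hterm : ∀ i j, i ≠ j → 0 ≤ M2 / 3 + G i j m1 * (v i * v j) := by
    intro i j hij
    have h1 := abs_le.1 (hb i j hij)
    have h2 : |v i * v j| ≤ M2 := by
      rw [abs_le]
      constructor <;> nlinarith only [hM i, hM j]
    have h4 : |G i j m1 * (v i * v j)| ≤ 1 / 3 * M2 := by
      rw [abs_mul]
      exact mul_le_mul (hb i j hij) h2 (abs_nonneg _) (by norm_num)
    have h5 := (abs_le.1 h4).1
    linarith only [h5]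
  have hsumterm : ∀ i, ∑ j ∈ Finset.univ.erase i, (M2 / 3 + G i j m1 * (v i * v j))
      = M2 - v i ^ 2 := by
    intro i
    rw [Finset.sum_add_distrib, Finset.sum_const, Finset.card_erase_of_mem (Finset.mem_univ i)]
    have : ∑ j ∈ Finset.univ.erase i, G i j m1 * (v i * v j)
        = v i * ∑ j ∈ Finset.univ.erase i, G i j m1 * v j := by
      rw [Finset.mul_sum]
      apply Finset.sum_congr rfl
      intro j _; ring
    rw [this]
    have h := hk' i
    have h' : ∑ j ∈ Finset.univ.erase i, G i j m1 * v j = - v i := by linarith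
    rw [h']
    simp only [Finset.card_univ, Fintype.card_fin, Nat.add_one_sub_one, nsmul_eq_mul, Nat.cast_ofNat, mul_neg]
    ring
  have hall0 : ∀ j, v j ^ 2 = M2 := by
    intro j
    by_cases hj : j = i0
    · rw [hj]
    · have hz : ∑ j ∈ Finset.univ.erase i0, (M2 / 3 + G i0 j m1 * (v i0 * v j)) = 0 := by
        rw [hsumterm]; simp [hM2]
      have hz' := (Finset.sum_eq_zero_iff_of_nonneg (fun j hj' =>
        hterm i0 j (Ne.symm (Finset.ne_of_mem_erase hj')))).1 hz j
        (Finset.mem_erase.2 ⟨hj, Finset.mem_univ j⟩)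
      have hb' := hb i0 j (Ne.symm hj)
      -- |v i0 * v j| ≥ M2
      have h6 : M2 / 3 = |G i0 j m1| * |v i0 * v j| := by
        rw [← abs_mul]
        have : G i0 j m1 * (v i0 * v j) = - (M2 / 3) := by linarith only [hz']
        rw [this, abs_neg, abs_of_pos (by (clear * - hMpos; positivity))]
      have h7 : M2 ≤ |v i0 * v j| := by
        have h8 := abs_nonneg (v i0 * v j)
        nlinarith only [h6, hb', h8]
      have h9 : M2 ^ 2 ≤ (v i0 * v j) ^ 2 := by
        rw [← sq_abs (v i0 * v j)]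
        exact pow_le_pow_left₀ hMpos.le h7 2
      have h10 : (v i0 * v j) ^ 2 = M2 * v j ^ 2 := by rw [mul_pow]
      rw [h10] at h9
      have h11 := hM j
      have h12 : M2 ≤ v j ^ 2 := by
        have : M2 * (M2 - v j ^ 2) ≤ 0 := by nlinarith only [h9]
        by_contra hc
        push Not at hc
        nlinarith only [h9, hc]
      linarith only [h12, h11]
  have hoff : ∀ i j, i ≠ j → G i j m1 * (v i * v j) = - (M2 / 3) := by
    intro i j hij
    have hz : ∑ j ∈ Finset.univ.erase i, (M2 / 3 + G i j m1 * (v i * v j)) = 0 := by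
      rw [hsumterm, hall0 i]; simp
    have hz' := (Finset.sum_eq_zero_iff_of_nonneg (fun j hj' =>
      hterm i j (Ne.symm (Finset.ne_of_mem_erase hj')))).1 hz j
      (Finset.mem_erase.2 ⟨Ne.symm hij, Finset.mem_univ j⟩)
    linarith only [hz']
  -- now look at m3
  obtain ⟨y, hy, hyk⟩ := D.ker m3
  have hvne : ∀ i, v i ≠ 0 := by
    intro i h
    have := hall0 i
    rw [h] at this
    simp at this
    linarith
  have hrow : ∀ i, ∑ j, (v j * y j) * (if i = j then (1 : ℝ) else 2 / 3) = 0 := by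
    intro i
    have h1 : ∀ j, G i j m3 * (v i * v j) = M2 * (if i = j then (1 : ℝ) else 2 / 3) := by
      intro j
      by_cases hij : i = j
      · subst hij
        rw [D.diag, if_pos rfl]
        have := hall0 i
        linarith
      · rw [hG3 i j hij, if_neg hij]
        have := hoff i j hij
        linarith only [this]
    have h2 : ∑ j, M2 * ((v j * y j) * (if i = j then (1 : ℝ) else 2 / 3))
        = (v i * M2) * ∑ j, G i j m3 * y j := by
      rw [Finset.mul_sum]
      apply Finset.sum_congr rfl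
      intro j _
      have e := h1 j
      have e2 := hall0 j
      calc M2 * ((v j * y j) * (if i = j then (1 : ℝ) else 2 / 3))
          = (v j * y j) * (M2 * (if i = j then (1 : ℝ) else 2 / 3)) := by ring
        _ = (v j * y j) * (G i j m3 * (v i * v j)) := by rw [e]
        _ = (v i * v j ^ 2) * (G i j m3 * y j) := by ring
        _ = (v i * M2) * (G i j m3 * y j) := by rw [e2]
    rw [hyk i, mul_zero, ← Finset.mul_sum] at h2
    rcases mul_eq_zero.1 h2 with h | h
    · exact absurd h hMpos.ne'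
    · exact h
  have r0 := hrow 0
  have r1 := hrow 1
  have r2 := hrow 2
  have r3 := hrow 3
  simp only [Fin.isValue, mul_ite, mul_one, Fin.sum_univ_four, ↓reduceIte, zero_ne_one, Fin.reduceEq, one_ne_zero] at r0 r1 r2 r3
  have z0 : v 0 * y 0 = 0 := by linarith
  have z1 : v 1 * y 1 = 0 := by linarith
  have z2 : v 2 * y 2 = 0 := by linarith
  have z3 : v 3 * y 3 = 0 := by linarith
  apply hy
  have w0 : y 0 = 0 := (mul_eq_zero.1 z0).resolve_left (hvne 0)
  have w1 : y 1 = 0 := (mul_eq_zero.1 z1).resolve_left (hvne 1)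
  have w2 : y 2 = 0 := (mul_eq_zero.1 z2).resolve_left (hvne 2)
  have w3 : y 3 = 0 := (mul_eq_zero.1 z3).resolve_left (hvne 3)
  funext i
  fin_cases i <;> simp [w0, w1, w2, w3]

end Vale.Agent.P355
end
end

section

section

/-! Final contradiction for four unit vectors in `ℝ³`, general case. -/

namespace Vale.Agent.P355

theorem GramData.perm {G : Fin 4 → Fin 4 → Fin 3 → ℝ} (D : GramData G) (σ : Equiv.Perm (Fin 4)) :
    GramData (fun i j => G (σ i) (σ j)) where
  symm := fun i j m => D.symm _ _ _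
  diag := fun i m => D.diag _ _
  ker := by
    intro m
    obtain ⟨v, hv, hk⟩ := D.ker m
    refine ⟨fun i => v (σ i), ?_, ?_⟩
    · intro h
      apply hv
      funext i
      have := congrFun h (σ.symm i)
      simpa using this
    · intro i
      have := hk (σ i)
      rw [← Equiv.sum_comp σ (fun j => G (σ i) j m * v j)] at this
      exact this
  psd := by
    intro m v
    have := D.psd m (fun i => v (σ.symm i))
    rw [← Equiv.sum_comp σ] at this
    have e : ∀ i, ∑ j, (fun i => v (σ.symm i)) (σ i) *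
        (G (σ i) j m * (fun i => v (σ.symm i)) j) = ∑ j, v i * (G (σ i) (σ j) m * v j) := by
      intro i
      rw [← Equiv.sum_comp σ]
      simp
    simp only [e] at this
    exact this
  sum := fun i j h => D.sum _ _ (fun e => h (σ.injective e))
  lt := fun i j m h => D.lt _ _ _ (fun e => h (σ.injective e))
  J := fun i j k h1 h2 h3 => D.J _ _ _ (fun e => h1 (σ.injective e))
    (fun e => h2 (σ.injective e)) (fun e => h3 (σ.injective e))
  third := fun i j m m' h h' => D.third _ _ _ _ (fun e => h (σ.injective e)) h'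

theorem contra_of_ne {G : Fin 4 → Fin 4 → Fin 3 → ℝ} (D : GramData G) (m0 : Fin 3)
    (h0 : G 0 1 m0 ≠ 0) : False := by
  have hκ := D.sum 0 1 (by decide)
  have hs10 : G 1 0 = G 0 1 := by funext m; exact D.symm _ _ _
  have hpar : ∀ i j, i ≠ j → JR (G 0 1) (G i j) = 0 →
      ∀ m, G i j m = (G i j m0 / G 0 1 m0) * G 0 1 m := by
    intro i j hij hJ
    exact exists_scale m0 h0 (parallel_of_JR hκ (D.sum i j hij) hJ)
  have p02 := hpar 0 2 (by decide) (by
    have := D.J 1 0 2 (by decide) (by decide) (by decide); rwa [hs10] at this)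
  have p03 := hpar 0 3 (by decide) (by
    have := D.J 1 0 3 (by decide) (by decide) (by decide); rwa [hs10] at this)
  have p12 := hpar 1 2 (by decide) (D.J 0 1 2 (by decide) (by decide) (by decide))
  have p13 := hpar 1 3 (by decide) (D.J 0 1 3 (by decide) (by decide) (by decide))
  -- the pair (2,3)
  have p23 : ∀ m, G 2 3 m = (G 2 3 m0 / G 0 1 m0) * G 0 1 m := by
    by_cases hall : G 0 2 m0 = 0 ∧ G 0 3 m0 = 0 ∧ G 1 2 m0 = 0 ∧ G 1 3 m0 = 0
    · exfalso
      obtain ⟨a, b, c, d⟩ := hall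
      obtain ⟨v, hv, hk⟩ := D.ker m0
      have k0 := hk 0
      have k1 := hk 1
      have k2 := hk 2
      have k3 := hk 3
      have s20 := D.symm 2 0 m0
      have s30 := D.symm 3 0 m0
      have s21 := D.symm 2 1 m0
      have s31 := D.symm 3 1 m0
      have s32 := D.symm 3 2 m0
      have s10 := D.symm 1 0 m0
      simp only [Fin.sum_univ_four, D.diag, a, b, c, d, s20, s30, s21, s31, s32, s10] at k0 k1 k2 k3
      have l01 := abs_lt.1 (D.lt 0 1 m0 (by decide))
      have l23 := abs_lt.1 (D.lt 2 3 m0 (by decide))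
      have e0 : v 0 * (1 - G 0 1 m0 ^ 2) = 0 := by
        have : v 0 = - (G 0 1 m0 * v 1) := by linarith only [k0]
        have : G 0 1 m0 * v 0 = - v 1 := by linarith only [k1]
        linear_combination k0 - G 0 1 m0 * k1
      have e1 : v 1 * (1 - G 0 1 m0 ^ 2) = 0 := by linear_combination k1 - G 0 1 m0 * k0
      have e2 : v 2 * (1 - G 2 3 m0 ^ 2) = 0 := by linear_combination k2 - G 2 3 m0 * k3
      have e3 : v 3 * (1 - G 2 3 m0 ^ 2) = 0 := by linear_combination k3 - G 2 3 m0 * k2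
      have n01 : 1 - G 0 1 m0 ^ 2 ≠ 0 := by nlinarith only [l01]
      have n23 : 1 - G 2 3 m0 ^ 2 ≠ 0 := by nlinarith only [l23]
      apply hv
      funext i
      fin_cases i
      · exact (mul_eq_zero.1 e0).resolve_right n01
      · exact (mul_eq_zero.1 e1).resolve_right n01
      · exact (mul_eq_zero.1 e2).resolve_right n23
      · exact (mul_eq_zero.1 e3).resolve_right n23
    · -- some cross pair is nonzero at m0
      have hgen : ∀ i j k, JR (G i j) (G 2 3) = 0 → i ≠ j → G i j m0 ≠ 0 → k = (0 : ℕ) →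
          (∀ m, G i j m = (G i j m0 / G 0 1 m0) * G 0 1 m) →
          ∀ m, G 2 3 m = (G 2 3 m0 / G 0 1 m0) * G 0 1 m := by
        intro i j _ hJ hij hne _ hp m
        have q := exists_scale m0 hne
          (parallel_of_JR (D.sum i j hij) (D.sum 2 3 (by decide)) hJ) m
        rw [hp m] at q
        rw [q]
        (clear * - hne h0; field_simp)
      have s32 : G 3 2 = G 2 3 := by funext m; exact D.symm _ _ _
      by_cases a : G 0 2 m0 = 0
      · by_cases b : G 0 3 m0 = 0
        · by_cases c : G 1 2 m0 = 0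
          · by_cases d : G 1 3 m0 = 0
            · exact absurd ⟨a, b, c, d⟩ hall
            · exact hgen 1 3 0 (by
                have := D.J 1 3 2 (by decide) (by decide) (by decide); rwa [s32] at this)
                (by decide) d rfl p13
          · exact hgen 1 2 0 (D.J 1 2 3 (by decide) (by decide) (by decide)) (by decide) c rfl p12
        · exact hgen 0 3 0 (by
            have := D.J 0 3 2 (by decide) (by decide) (by decide); rwa [s32] at this)
            (by decide) b rfl p03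
      · exact hgen 0 2 0 (D.J 0 2 3 (by decide) (by decide) (by decide)) (by decide) a rfl p02
  have p01 : ∀ m, G 0 1 m = (G 0 1 m0 / G 0 1 m0) * G 0 1 m := by
    intro m; rw [div_self h0, one_mul]
  refine contra_scaled D (G 0 1) hκ (fun i j => G i j m0 / G 0 1 m0) ?_
  have hlt : ∀ i j, i < j → ∀ m, G i j m = (G i j m0 / G 0 1 m0) * G 0 1 m := by
    intro i j hij
    fin_cases i <;> fin_cases j <;> first | exact absurd hij (by decide) | assumption
  intro i j hij m
  rcases lt_or_gt_of_ne hij with h | h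
  · exact hlt i j h m
  · have := hlt j i h m
    rw [D.symm i j m]
    show _ = G i j m0 / G 0 1 m0 * G 0 1 m
    rw [D.symm i j m0]
    exact this

theorem exists_perm_two : ∀ i j : Fin 4, i ≠ j → ∃ σ : Equiv.Perm (Fin 4), σ 0 = i ∧ σ 1 = j := by
  decide

theorem gram_contra {G : Fin 4 → Fin 4 → Fin 3 → ℝ} (D : GramData G) : False := by
  by_cases h : ∃ i j, i ≠ j ∧ ∃ m, G i j m ≠ 0
  · obtain ⟨i, j, hij, m, hm⟩ := h
    obtain ⟨σ, h0, h1⟩ := exists_perm_two i j hij
    refine contra_of_ne (D.perm σ) m ?_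
    show G (σ 0) (σ 1) m ≠ 0
    rw [h0, h1]
    exact hm
  · push Not at h
    refine contra_scaled D (fun _ => 0) (by norm_num) (fun _ _ => 0) ?_
    intro i j hij m
    rw [h i j hij m]
    norm_num

end Vale.Agent.P355
end
end

section

section

/-! A common symmetry of order three of four mutually unbiased bases of `ℂ⁶` is scalar. -/

namespace Vale.Agent.P355

open Complex

/-- No line of the basis `B i` is preserved. -/
def Free (B : Fin 4 → OrthonormalBasis (Fin 6) ℂ H) (g : H →ₗ[ℂ] H) (i : Fin 4) : Prop :=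
  ∀ k, ¬ ∃ z : ℂ, g (B i k) = z • B i k

variable {B : Fin 4 → OrthonormalBasis (Fin 6) ℂ H} {g : H →ₗ[ℂ] H}

/-- An eigenvalue of an isometry of order three is a cube root of unity. -/
theorem CR_of_eig (hg : ∀ x y, inner ℂ (g x) (g y) = inner ℂ x y)
    (h3 : ∀ x, g (g (g x)) = x) {a : H} (hna : ‖a‖ = 1) {z : ℂ} (ha : g a = z • a) : CR z := by
  have hz1 : ‖z‖ = 1 := by
    have h1 := isom_norm hg a
    rw [ha, norm_smul, hna, mul_one] at h1
    exact h1
  have hzz : z * (starRingEnd ℂ) z = 1 := by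
    rw [mul_conj, normSq_eq_norm_sq, hz1]; norm_num
  have h := h3 a
  rw [ha, map_smul, ha, map_smul, map_smul, ha, smul_smul, smul_smul] at h
  have ha0 : a ≠ 0 := by
    intro h0; rw [h0, norm_zero] at hna; norm_num at hna
  have h1 : (z * z * z - 1) • a = 0 := by
    rw [sub_smul, one_smul, h, sub_self]
  have h2 : z * z * z = 1 := sub_eq_zero.1 ((smul_eq_zero.1 h1).resolve_right ha0)
  refine ⟨?_, hzz⟩
  calc z * z = z * z * (z * (starRingEnd ℂ) z) := by rw [hzz, mul_one]
    _ = (z * z * z) * (starRingEnd ℂ) z := by ring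
    _ = (starRingEnd ℂ) z := by rw [h2, one_mul]

/-- For a vector of a basis whose line moves, `⟨b, E b⟩ = 1`. -/
theorem inner_self_EE (b : OrthonormalBasis (Fin 6) ℂ H)
    (hg : ∀ x y, inner ℂ (g x) (g y) = inner ℂ x y) (h3 : ∀ x, g (g (g x)) = x)
    (hp : ∀ k, ∃ l, ∃ z : ℂ, g (b k) = z • b l) (k : Fin 6)
    (hk : ¬ ∃ z : ℂ, g (b k) = z • b k) (z : ℂ) : inner ℂ (b k) (EE g z (b k)) = 1 := by
  obtain ⟨σ, c, hc, hσ⟩ := exists_perm b g hg hp
  have hσk : σ k ≠ k := fun h => hk ((fixed_iff hc hσ k).1 h)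
  have hσ3 : σ ^ 3 = 1 := perm_pow_eq_one hc hσ (n := 3) (fun x => by
    simp only [pow_succ, pow_zero, one_mul, Module.End.mul_apply]; exact h3 x)
  have hσ3' : σ (σ (σ k)) = k := by
    have := congrArg (fun τ : Equiv.Perm (Fin 6) => τ k) hσ3
    simpa [pow_succ] using this
  have f2 : σ (σ k) ≠ k := by
    intro h
    apply hσk
    have := hσ3'
    rw [h] at this
    exact this
  unfold EE
  simp only [inner_add_right, inner_smul_right, hσ, map_smul, inner_basis, if_true]
  rw [if_neg (Ne.symm hσk), if_neg (Ne.symm f2)]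
  ring

/-- If two of the bases contain preserved lines, the symmetry is scalar. -/
theorem scalar_of_two (hB : PairwiseMUB B) (hg : ∀ x y, inner ℂ (g x) (g y) = inner ℂ x y)
    (hp : PreservesBases B g) (h3 : ∀ x, g (g (g x)) = x) {i j : Fin 4} (hij : i ≠ j)
    (hi : ¬ Free B g i) (hj : ¬ Free B g j) : ∃ z : ℂ, ∀ x, g x = z • x := by
  unfold Free at hi hj
  push Not at hi hj
  obtain ⟨k0, z, hz⟩ := hi
  obtain ⟨l0, w, hw⟩ := hj
  have hzw : z = w := same_eigenvalue hB hg hij hz hw
  subst hzw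
  have hCR : CR z := CR_of_eig hg h3 ((B i).norm_eq_one k0) hz
  have hall : ∀ k, ∃ c : ℂ, g (B i k) = c • B i k := by
    intro k
    by_contra hk
    have e1 : inner ℂ (B i k) (EE g z (B i k)) = 1 := inner_self_EE (B i) hg h3 (hp i) k hk z
    have e2 : inner ℂ (EE g z (B i k)) (EE g z (B i k)) = 3 := by
      rw [inner_EE_EE hg h3 hCR, e1, mul_one]
    have e3 : ∑ l, ‖inner ℂ (B j l) (EE g z (B i k))‖ ^ 2 = 3 := by
      rw [OrthonormalBasis.sum_sq_norm_inner_right]
      rw [inner_self_eq_norm_sq_to_K] at e2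
      have e2' : ((‖EE g z (B i k)‖ ^ 2 : ℝ) : ℂ) = ((3 : ℝ) : ℂ) := by
        push_cast
        exact e2
      exact Complex.ofReal_injective e2'
    obtain ⟨σ, c, hc, hσ⟩ := exists_perm (B j) g hg (hp j)
    have hσ3 : σ ^ 3 = 1 := perm_pow_eq_one hc hσ (n := 3) (fun x => by
      simp only [pow_succ, pow_zero, one_mul, Module.End.mul_apply]; exact h3 x)
    have : Fact (Nat.Prime 3) := ⟨Nat.prime_three⟩
    have hcard := card_fixed_mod σ 3 hσ3
    have hpos : 0 < (Finset.univ.filter (fun k => σ k = k)).card := by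
      apply Finset.card_pos.2
      exact ⟨l0, by simp only [Finset.mem_filter, Finset.mem_univ, true_and]
                    exact (fixed_iff hc hσ l0).2 ⟨z, hw⟩⟩
    have hge : 3 ≤ (Finset.univ.filter (fun k => σ k = k)).card := by
      unfold Nat.ModEq at hcard
      omega
    have hterm : ∀ l ∈ Finset.univ.filter (fun k => σ k = k),
        ‖inner ℂ (B j l) (EE g z (B i k))‖ ^ 2 = 3 / 2 := by
      intro l hl
      simp only [Finset.mem_filter, Finset.mem_univ, true_and] at hl
      obtain ⟨c', hc'⟩ := (fixed_iff hc hσ l).1 hl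
      have hcz : z = c' := same_eigenvalue hB hg hij hz hc'
      rw [← hcz] at hc'
      rw [inner_eig_EE hg h3 hCR hc', norm_mul, mul_pow, hB j i (Ne.symm hij)]
      norm_num
    have hle : ∑ l ∈ Finset.univ.filter (fun k => σ k = k),
        ‖inner ℂ (B j l) (EE g z (B i k))‖ ^ 2 ≤ 3 := by
      rw [← e3]
      exact Finset.sum_le_sum_of_subset_of_nonneg (Finset.filter_subset _ _)
        (fun _ _ _ => by (clear * -; positivity))
    rw [Finset.sum_congr rfl hterm, Finset.sum_const, nsmul_eq_mul] at hle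
    have : (3 : ℝ) ≤ ((Finset.univ.filter (fun k => σ k = k)).card : ℝ) := by exact_mod_cast hge
    linarith only [hle, this]
  refine ⟨z, ?_⟩
  have hall' : ∀ k, g (B i k) = z • B i k := by
    intro k
    obtain ⟨c, hc⟩ := hall k
    rw [hc, same_eigenvalue hB hg hij hc hw]
  have heq : g = z • LinearMap.id := by
    apply (B i).toBasis.ext
    intro k
    simp [hall' k]
  intro x
  rw [heq]
  simp

/-- Eigenvectors in a basis that is not free, when another one is free. -/
theorem exists_eig (hg : ∀ x y, inner ℂ (g x) (g y) = inner ℂ x y)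
    (hp : PreservesBases B g) (h3 : ∀ x, g (g (g x)) = x) {i j : Fin 4}
    (hi : ¬ Free B g i) (hj : Free B g j) (m : Fin 3) :
    ∃ k, g (B i k) = Z m • B i k := by
  by_contra hcon
  push Not at hcon
  have hCR := CR_Z m
  let T : H →ₗ[ℂ] H := LinearMap.id + (starRingEnd ℂ) (Z m) • g + Z m • (g ∘ₗ g)
  have hT : ∀ x, T x = EE g (Z m) x := fun x => by simp only [LinearMap.add_apply, LinearMap.id_coe, id_eq, LinearMap.smul_apply, LinearMap.coe_comp, Function.comp_apply, EE, T]
  have t1 := LinearMap.trace_eq_sum_inner T (B i)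
  have t2 := LinearMap.trace_eq_sum_inner T (B j)
  rw [t1] at t2
  have s2 : ∑ k, inner ℂ (B j k) (T (B j k)) = 6 := by
    have : ∀ k, inner ℂ (B j k) (T (B j k)) = 1 := by
      intro k
      rw [hT]
      exact inner_self_EE (B j) hg h3 (hp j) k (hj k) _
    simp [this]
  rw [s2] at t2
  have t3 := congrArg Complex.re t2
  rw [Complex.re_sum] at t3
  -- each term
  have hle : ∀ k, (inner ℂ (B i k) (T (B i k))).re ≤ 1 := by
    intro k
    rw [hT]
    by_cases hk : ∃ z : ℂ, g (B i k) = z • B i k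
    · obtain ⟨w, hw⟩ := hk
      have hCw := CR_of_eig hg h3 ((B i).norm_eq_one k) hw
      have hne : Z m ≠ w := by
        intro h; apply hcon k; rw [h]; exact hw
      rw [EE_of_ne hCR hCw hne hw, inner_zero_right]
      norm_num
    · rw [inner_self_EE (B i) hg h3 (hp i) k hk]
      norm_num
  unfold Free at hi
  push Not at hi
  obtain ⟨k0, w, hw⟩ := hi
  have hlt : (inner ℂ (B i k0) (T (B i k0))).re < 1 := by
    rw [hT]
    have hCw := CR_of_eig hg h3 ((B i).norm_eq_one k0) hw
    have hne : Z m ≠ w := by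
      intro h; apply hcon k0; rw [h]; exact hw
    rw [EE_of_ne hCR hCw hne hw, inner_zero_right]
    norm_num
  have hsum : ∑ k, (inner ℂ (B i k) (T (B i k))).re < ∑ _k : Fin 6, (1 : ℝ) :=
    Finset.sum_lt_sum (fun k _ => hle k) ⟨k0, Finset.mem_univ _, hlt⟩
  rw [t3] at hsum
  simp at hsum

/-- unbiasedness of iterates -/
theorem unbiased_iter (hB : PairwiseMUB B) (hg : ∀ x y, inner ℂ (g x) (g y) = inner ℂ x y)
    (hp : PreservesBases B g) {i j : Fin 4} (hij : i ≠ j) (k l : Fin 6) :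
    normSq (inner ℂ (B i k) (B j l)) = 1 / 6 ∧ normSq (inner ℂ (B i k) (g (B j l))) = 1 / 6 ∧
      normSq (inner ℂ (B i k) (g (g (B j l)))) = 1 / 6 := by
  obtain ⟨σ, c, hc, hσ⟩ := exists_perm (B j) g hg (hp j)
  have hb : ∀ l, normSq (inner ℂ (B i k) (B j l)) = 1 / 6 := by
    intro l
    rw [normSq_eq_norm_sq]
    exact hB i j hij k l
  have hcs : ∀ l, normSq (c l) = 1 := by
    intro l; rw [normSq_eq_norm_sq, hc]; norm_num
  refine ⟨hb l, ?_, ?_⟩
  · rw [hσ, inner_smul_right, normSq_mul, hcs, hb, one_mul]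
  · rw [hσ, map_smul, hσ, inner_smul_right, inner_smul_right, normSq_mul, normSq_mul, hcs, hcs,
      hb, one_mul, one_mul]

/-- Properties of the numbers `2|x_m|^2 - 1`. -/
theorem pair_props {x y : Fin 3 → ℂ} (sx : Star x) (sy : Star y)
    (n1 : ∀ m, normSq (x m) + normSq (y m) = 1) {G : Fin 3 → ℝ}
    (hG : ∀ m, G m = 2 * normSq (x m) - 1) :
    G 0 + G 1 + G 2 = 0 ∧ (∀ m, |G m| < 1) ∧ ∀ m m', m ≠ m' → G m = G m' → |G m| ≤ 1 / 3 := by
  have hx1 : ∀ m, normSq (x m) ≤ 1 := fun m => by have := n1 m; have := normSq_nonneg (y m); linarith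
  have hy1 : ∀ m, normSq (y m) ≤ 1 := fun m => by have := n1 m; have := normSq_nonneg (x m); linarith
  have px : ∀ m, 0 < normSq (x m) := fun m => normSq_pos.2 (sx.ne_zero hx1 m)
  have py : ∀ m, 0 < normSq (y m) := fun m => normSq_pos.2 (sy.ne_zero hy1 m)
  refine ⟨?_, ?_, ?_⟩
  · have := sx.1
    rw [hG, hG, hG]
    linarith
  · intro m
    rw [hG, abs_lt]
    have := px m
    have := py m
    have := n1 m
    constructor <;> linarith
  · intro m m' hmm h
    rw [hG, hG] at h
    have e1 : normSq (x m) = normSq (x m') := by linarith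
    have e2 : normSq (y m) = normSq (y m') := by
      have := n1 m
      have := n1 m'
      linarith
    have b1 := sx.le_two_thirds hx1 m m' hmm e1
    have b2 := sy.le_two_thirds hy1 m m' hmm e2
    rw [hG, abs_le]
    have := n1 m
    constructor <;> linarith only [b1, b2, this]

/-- Inner products inside an eigenspace through a frame. -/
theorem inner_eig_frame (hg : ∀ x y, inner ℂ (g x) (g y) = inner ℂ x y)
    (h3 : ∀ x, g (g (g x)) = x) {v : Fin 2 → H} (Fv : Frame g v) {z : ℂ} (hz : CR z) {x y : H}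
    (hx : g x = z • x) (hy : g y = z • y) :
    inner ℂ x y = 3 * (inner ℂ x (v 0) * inner ℂ (v 0) y + inner ℂ x (v 1) * inner ℂ (v 1) y) := by
  have h := Fv.complete z hz x y
  rw [EE_of_eig hz hy, inner_smul_right, inner_smul_right, inner_smul_right,
    inner_eig_EE hg h3 hz hx, inner_eig_EE hg h3 hz hx] at h
  have h3' : (3 : ℂ) ≠ 0 := by norm_num
  apply mul_left_cancel₀ h3'
  rw [h]; ring

theorem order3 (hB : PairwiseMUB B) (g : H →ₗ[ℂ] H)
    (hg : ∀ x y, inner ℂ (g x) (g y) = inner ℂ x y) (hp : PreservesBases B g)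
    (h3 : ∀ x, g (g (g x)) = x) : ∃ z : ℂ, ∀ x, g x = z • x := by
  by_contra hns
  have hfree : ∀ i j, i ≠ j → Free B g i ∨ Free B g j := by
    intro i j hij
    by_contra hc
    push Not at hc
    exact hns (scalar_of_two hB hg hp h3 hij hc.1 hc.2)
  obtain ⟨r, hr⟩ : ∃ r, Free B g r := by
    rcases hfree 0 1 (by decide) with h | h
    · exact ⟨0, h⟩
    · exact ⟨1, h⟩
  -- frames
  have hfr : ∀ i, ∃ k : Fin 2 → Fin 6, Free B g i → Frame g (fun α => B i (k α)) := by
    intro i
    by_cases hi : Free B g i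
    · obtain ⟨k, hk⟩ := exists_frame (B i) hg h3 (hp i) hi
      exact ⟨k, fun _ => hk⟩
    · exact ⟨fun _ => 0, fun h => absurd h hi⟩
  choose κ hκ using hfr
  set v : Fin 4 → Fin 2 → H := fun i α => B i (κ i α) with hv
  have hF : ∀ i, Free B g i → Frame g (v i) := hκ
  -- square root of three
  set r3 : ℂ := ((Real.sqrt 3 : ℝ) : ℂ) with hr3
  have hr3sq : r3 * r3 = 3 := by
    rw [hr3, ← ofReal_mul, Real.mul_self_sqrt (by norm_num)]; norm_num
  have hr3ne : r3 ≠ 0 := by
    intro h; rw [h] at hr3sq; norm_num at hr3sq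
  have hr3c : (starRingEnd ℂ) r3 = r3 := by rw [hr3, conj_ofReal]
  have hr3n : normSq r3 = 3 := by
    rw [hr3, normSq_ofReal, Real.mul_self_sqrt (by norm_num)]
  -- unit eigenvectors
  have hu : ∀ i m, ∃ u : H, g u = Z m • u ∧ inner ℂ u u = 1 ∧
      (Free B g i → u = r3⁻¹ • EE g (Z m) (v i 0)) ∧ (¬ Free B g i → ∃ k, u = B i k) := by
    intro i m
    by_cases hi : Free B g i
    · refine ⟨r3⁻¹ • EE g (Z m) (v i 0), ?_, ?_, fun _ => rfl, fun h => absurd hi h⟩
      · rw [map_smul, g_EE h3 (CR_Z m), smul_comm]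
      · rw [inner_smul_left, inner_smul_right, inner_EE_EE hg h3 (CR_Z m), (hF i hi).self,
          map_inv₀, hr3c]
        field_simp
        linear_combination (-1 : ℂ) * hr3sq
    · obtain ⟨k, hk⟩ := exists_eig hg hp h3 hi hr m
      refine ⟨B i k, hk, ?_, fun h => absurd h hi, fun _ => ⟨k, rfl⟩⟩
      rw [inner_basis, if_pos rfl]
  choose u hu1 hu2 hu3 hu4 using hu
  set G : Fin 4 → Fin 4 → Fin 3 → ℝ := fun i j m => 2 * normSq (inner ℂ (u i m) (u j m)) - 1
    with hG
  -- coordinates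
  set c : Fin 4 → Fin 3 → Fin 2 → ℂ := fun i m α => r3 * inner ℂ (v r α) (u i m) with hc
  have hcin : ∀ i j m, inner ℂ (u i m) (u j m)
      = (starRingEnd ℂ) (c i m 0) * c j m 0 + (starRingEnd ℂ) (c i m 1) * c j m 1 := by
    intro i j m
    rw [inner_eig_frame hg h3 (hF r hr) (CR_Z m) (hu1 i m) (hu1 j m)]
    simp only [hc, map_mul, hr3c, inner_conj_symm]
    linear_combination (-(inner ℂ (u i m) (v r 0) * inner ℂ (v r 0) (u j m)
      + inner ℂ (u i m) (v r 1) * inner ℂ (v r 1) (u j m))) * hr3sq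
  have hcn : ∀ i m, normSq (c i m 0) + normSq (c i m 1) = 1 := by
    intro i m
    have h := hcin i i m
    rw [hu2, ← normSq_eq_conj_mul_self, ← normSq_eq_conj_mul_self] at h
    exact_mod_cast h.symm
  have hGdot : ∀ i j m, G i j m = ∑ a, bl (c i m) a * bl (c j m) a := by
    intro i j m
    rw [← bl_dot _ _ (hcn i m) (hcn j m), ← hcin]
  -- formulas for pairs
  have hGff : ∀ i j, Free B g i → Free B g j → ∀ m,
      G i j m = 2 * normSq (inner ℂ (v i 0) (EE g (Z m) (v j 0))) - 1 := by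
    intro i j hi hj m
    simp only [hG]
    rw [hu3 i m hi, hu3 j m hj, inner_smul_left, inner_smul_right,
      inner_EE_EE hg h3 (CR_Z m), map_inv₀, hr3c]
    have : r3⁻¹ * (r3⁻¹ * (3 * inner ℂ (v i 0) (EE g (Z m) (v j 0))))
        = inner ℂ (v i 0) (EE g (Z m) (v j 0)) := by
      field_simp
      linear_combination (-(inner ℂ (v i 0) (EE g (Z m) (v j 0)))) * hr3sq
    rw [this]
  have hGsymm : ∀ i j m, G i j m = G j i m := by
    intro i j m
    simp only [hG]
    rw [← inner_conj_symm, normSq_conj]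
  have hGnf : ∀ i j, i ≠ j → ¬ Free B g i → Free B g j → ∀ m, G i j m = 0 := by
    intro i j hij hi hj m
    simp only [hG]
    obtain ⟨k, hk⟩ := hu4 i m hi
    have hk1 := hu1 i m
    rw [hk] at hk1
    rw [hk, hu3 j m hj, inner_smul_right, inner_eig_EE hg h3 (CR_Z m) hk1, normSq_mul,
      normSq_mul, normSq_inv, hr3n]
    have h6 : normSq (inner ℂ (B i k) (v j 0)) = 1 / 6 := (unbiased_iter hB hg hp hij k _).1
    rw [h6]
    norm_num
  have hG0 : ∀ i j, i ≠ j → (¬ Free B g i ∨ ¬ Free B g j) → ∀ m, G i j m = 0 := by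
    intro i j hij h m
    rcases h with h | h
    · exact hGnf i j hij h ((hfree i j hij).resolve_left h) m
    · rw [hGsymm]
      exact hGnf j i (Ne.symm hij) h ((hfree j i (Ne.symm hij)).resolve_left h) m
  -- Star for entries
  have hstar : ∀ i j, i ≠ j → ∀ α β, Star (fun m => inner ℂ (v i α) (EE g (Z m) (v j β))) := by
    intro i j hij α β
    obtain ⟨a, b, c⟩ := unbiased_iter hB hg hp hij (κ i α) (κ j β)
    exact star_of_unbiased a b c
  have hpair : ∀ i j, i ≠ j → G i j 0 + G i j 1 + G i j 2 = 0 ∧ (∀ m, |G i j m| < 1) ∧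
      ∀ m m', m ≠ m' → G i j m = G i j m' → |G i j m| ≤ 1 / 3 := by
    intro i j hij
    by_cases h : Free B g i ∧ Free B g j
    · exact pair_props (hstar i j hij 0 0) (hstar i j hij 1 0)
        (fun m => frame_norm hg h3 (hF i h.1) (hF j h.2) (CR_Z m) 0) (hGff i j h.1 h.2)
    · have h0 := hG0 i j hij (by (clear * - h; tauto))
      refine ⟨by rw [h0, h0, h0]; norm_num, fun m => by rw [h0]; norm_num,
        fun m m' _ _ => by rw [h0]; norm_num⟩
  have hJ : ∀ i j k, i ≠ j → j ≠ k → i ≠ k → JR (G i j) (G j k) = 0 := by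
    intro i j k hij hjk hik
    by_cases hi : Free B g i ∧ Free B g j
    · by_cases hk : Free B g k
      · rcases J_free hg h3 (hF i hi.1) (hF j hi.2) (hF k hk) (hstar i j hij) (hstar i k hik)
          (hstar j k hjk) with h | h
        · have h0 : ∀ m, G i j m = 0 := by
            intro m
            rw [hGff i j hi.1 hi.2, h m]
            norm_num
          unfold JR
          rw [h0, h0, h0]
          ring
        · unfold JJ at h
          unfold JR
          rw [hGff i j hi.1 hi.2, hGff i j hi.1 hi.2, hGff i j hi.1 hi.2, hGff j k hi.2 hk,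
            hGff j k hi.2 hk, hGff j k hi.2 hk]
          linear_combination 4 * h
      · have h0 := hG0 j k hjk (Or.inr hk)
        unfold JR
        rw [h0, h0, h0]
        ring
    · have h0 := hG0 i j hij (by (clear * - hi; tauto))
      unfold JR
      rw [h0, h0, h0]
      ring
  refine gram_contra (G := G) ⟨hGsymm, ?_, ?_, ?_, fun i j h => (hpair i j h).1,
    fun i j m h => (hpair i j h).2.1 m, hJ, fun i j m m' h h' => (hpair i j h).2.2 m m' h'⟩
  · intro i m
    simp only [hG]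
    rw [hu2]
    norm_num
  · intro m
    obtain ⟨w, hw, hw0⟩ := dot_ker (fun i => bl (c i m))
    refine ⟨w, hw, fun i => ?_⟩
    simp only [hGdot]
    exact hw0 i
  · intro m w
    simp only [hGdot]
    exact dot_psd (fun i => bl (c i m)) w

end Vale.Agent.P355
end
end

section

section

/-! A symmetry of order five of four mutually unbiased bases of `ℂ⁶` is a scalar. -/

open scoped ComplexConjugate

namespace Vale.Agent.P355

variable {V : Type*} [NormedAddCommGroup V] [InnerProductSpace ℂ V]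

theorem eig_unit {g : V →ₗ[ℂ] V} (hg : ∀ x y, inner ℂ (g x) (g y) = inner ℂ x y)
    {x : V} {a : ℂ} (hx : g x = a • x) (h0 : x ≠ 0) : conj a * a = 1 := by
  have h := hg x x
  rw [hx, inner_smul_left, inner_smul_right] at h
  have h1 : (inner ℂ x x : ℂ) ≠ 0 := inner_self_ne_zero.mpr h0
  have h2 : (conj a * a - 1) * inner ℂ x x = 0 := by linear_combination h
  rcases mul_eq_zero.mp h2 with h3 | h3
  · linear_combination h3
  · exact absurd h3 h1

theorem eig_same {g : V →ₗ[ℂ] V} (hg : ∀ x y, inner ℂ (g x) (g y) = inner ℂ x y)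
    {x y : V} {a c : ℂ} (hx : g x = a • x) (hy : g y = c • y) (hxy : (inner ℂ x y : ℂ) ≠ 0) :
    a = c := by
  have h0 : x ≠ 0 := by
    rintro rfl
    simp at hxy
  have hu := eig_unit hg hx h0
  have h := hg x y
  rw [hx, hy, inner_smul_left, inner_smul_right] at h
  have h2 : (conj a * c - 1) * inner ℂ x y = 0 := by linear_combination h
  rcases mul_eq_zero.mp h2 with h3 | h3
  · have h4 : conj a * c = 1 := by linear_combination h3
    calc a = a * (conj a * c) := by rw [h4, mul_one]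
      _ = (conj a * a) * c := by ring
      _ = c := by rw [hu, one_mul]
  · exact absurd h3 hxy

theorem inner_ne_zero_of_mub {x y : V} (h : ‖(inner ℂ x y : ℂ)‖ ^ 2 = 1 / 6) :
    (inner ℂ x y : ℂ) ≠ 0 := by
  intro h0
  rw [h0] at h
  norm_num at h

theorem scalar_of_basis {ι : Type*} [Fintype ι] (b : OrthonormalBasis ι ℂ V) (g : V →ₗ[ℂ] V)
    {a : ℂ} (h : ∀ k, g (b k) = a • b k) (v : V) : g v = a • v := by
  have h1 : g = a • LinearMap.id := by
    apply b.toBasis.ext
    intro k
    simp [h k]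
  rw [h1]
  simp

theorem coord_back {b : OrthonormalBasis (Fin 6) ℂ V} {g : V →ₗ[ℂ] V}
    (hg : ∀ x y, inner ℂ (g x) (g y) = inner ℂ x y) {s : Equiv.Perm (Fin 6)} {c : Fin 6 → ℂ}
    (hb : ∀ k, g (b k) = c k • b (s k)) {a : ℂ} {z : V} (hz : g z = a • z) {k : Fin 6}
    (h : inner ℂ (b (s k)) z = (0 : ℂ)) : inner ℂ (b k) z = (0 : ℂ) := by
  rw [← hg, hb, hz, inner_smul_left, inner_smul_right, h]
  simp

theorem coord_back_pow {b : OrthonormalBasis (Fin 6) ℂ V} {g : V →ₗ[ℂ] V}
    (hg : ∀ x y, inner ℂ (g x) (g y) = inner ℂ x y) {s : Equiv.Perm (Fin 6)} {c : Fin 6 → ℂ}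
    (hb : ∀ k, g (b k) = c k • b (s k)) {a : ℂ} {z : V} (hz : g z = a • z) (n : ℕ) {k : Fin 6}
    (h : inner ℂ (b ((s ^ n) k)) z = (0 : ℂ)) : inner ℂ (b k) z = (0 : ℂ) := by
  induction n generalizing k with
  | zero => simpa using h
  | succ n ih =>
    have h1 : inner ℂ (b (s k)) z = (0 : ℂ) := by
      apply ih
      rw [pow_succ, Equiv.Perm.mul_apply] at h
      exact h
    exact coord_back hg hb hz h1

theorem fixed_of_pow_five (s : Equiv.Perm (Fin 6)) (h : s ^ 5 = 1) : ∃ k, s k = k := by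
  by_contra hne
  push Not at hne
  have : Fact (Nat.Prime 5) := ⟨Nat.prime_five⟩
  have h1 : s ^ 5 ^ 1 = 1 := by simpa only [pow_one] using h
  have h2 := Equiv.Perm.card_compl_support_modEq (p := 5) (n := 1) h1
  have h3 : s.supportᶜ = ∅ := by
    ext k
    simp [hne k]
  rw [h3] at h2
  simp only [Finset.card_empty, Fintype.card_fin] at h2
  revert h2
  decide

theorem cycle_of_pow_five {s : Equiv.Perm (Fin 6)} (h : s ^ 5 = 1) (h1 : s ≠ 1) :
    s.IsCycle ∧ s.support.card = 5 := by
  have : Fact (Nat.Prime 5) := ⟨Nat.prime_five⟩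
  have ho : orderOf s = 5 := orderOf_eq_prime h h1
  have hc : s.IsCycle := by
    apply Equiv.Perm.isCycle_of_prime_order'
    · rw [ho]; exact Nat.prime_five
    · rw [ho]; simp
  exact ⟨hc, by rw [← hc.orderOf, ho]⟩

theorem order5_scalar (b : Fin 3 → OrthonormalBasis (Fin 6) ℂ V)
    (hM : ∀ i j, i ≠ j → ∀ k l, ‖(inner ℂ (b i k) (b j l) : ℂ)‖ ^ 2 = 1 / 6)
    (g : V →ₗ[ℂ] V) (hg : ∀ x y, inner ℂ (g x) (g y) = inner ℂ x y)
    (s : Fin 3 → Equiv.Perm (Fin 6)) (c : Fin 3 → Fin 6 → ℂ)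
    (hb : ∀ i k, g (b i k) = c i k • b i (s i k)) (h5 : ∀ i, (s i) ^ 5 = 1) :
    ∃ a : ℂ, ∀ v, g v = a • v := by
  choose f hf using fun i => fixed_of_pow_five (s i) (h5 i)
  have he : ∀ i, g (b i (f i)) = c i (f i) • b i (f i) := by
    intro i
    have := hb i (f i)
    rwa [hf i] at this
  have hsame : ∀ i j, i ≠ j → c i (f i) = c j (f j) := fun i j hij =>
    eig_same hg (he i) (he j) (inner_ne_zero_of_mub (hM i j hij _ _))
  set a := c 0 (f 0) with ha
  have hall : ∀ i, c i (f i) = a := by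
    intro i
    by_cases h : i = 0
    · rw [h]
    · exact hsame i 0 h
  by_cases hs : s 0 = 1
  · refine ⟨a, fun v => scalar_of_basis (b 0) g (fun k => ?_) v⟩
    have h1 : g (b 0 k) = c 0 k • b 0 k := by
      have := hb 0 k
      rwa [hs, Equiv.Perm.one_apply] at this
    have h2 : c 0 k = c 1 (f 1) :=
      eig_same hg h1 (he 1) (inner_ne_zero_of_mub (hM 0 1 (by decide) _ _))
    rw [h1, h2, hall 1]
  · exfalso
    obtain ⟨hc, hcard⟩ := cycle_of_pow_five (h5 0) hs
    have huniq : ∀ k, s 0 k = k → k = f 0 := by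
      intro k hk
      have hcompl : (s 0).supportᶜ.card = 1 := by
        rw [Finset.card_compl, hcard]
        simp
      have h1 : k ∈ (s 0).supportᶜ := by simp [hk]
      have h2 : f 0 ∈ (s 0).supportᶜ := by simp [hf 0]
      exact Finset.card_le_one.mp hcompl.le k h1 (f 0) h2
    obtain ⟨k0, hk0⟩ : ∃ k0, s 0 k0 ≠ k0 := by
      by_contra hcon
      push Not at hcon
      exact hs (Equiv.ext hcon)
    have hvan : ∀ z : V, g z = a • z → inner ℂ (b 0 (f 0)) z = (0 : ℂ) →
        inner ℂ (b 0 k0) z = (0 : ℂ) → z = 0 := by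
      intro z hz h0 h1
      have hall0 : ∀ k, inner ℂ (b 0 k) z = (0 : ℂ) := by
        intro k
        by_cases hk : s 0 k = k
        · rw [huniq k hk]; exact h0
        · obtain ⟨n, hn⟩ := hc.exists_pow_eq hk hk0
          refine coord_back_pow hg (hb 0) hz n ?_
          rw [hn]; exact h1
      have h3 := (b 0).sum_repr' z
      rw [← h3]
      simp [hall0]
    set e0 := b 0 (f 0) with he0
    set e1 := b 1 (f 1) with he1
    set e2 := b 2 (f 2) with he2
    have n0 : (inner ℂ e0 e0 : ℂ) = 1 := by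
      rw [inner_self_eq_norm_sq_to_K, (b 0).norm_eq_one]; simp
    have n1 : (inner ℂ e1 e1 : ℂ) = 1 := by
      rw [inner_self_eq_norm_sq_to_K, (b 1).norm_eq_one]; simp
    have n2 : (inner ℂ e2 e2 : ℂ) = 1 := by
      rw [inner_self_eq_norm_sq_to_K, (b 2).norm_eq_one]; simp
    have m01 : ‖(inner ℂ e0 e1 : ℂ)‖ ^ 2 = 1 / 6 := hM 0 1 (by decide) _ _
    have m02 : ‖(inner ℂ e0 e2 : ℂ)‖ ^ 2 = 1 / 6 := hM 0 2 (by decide) _ _
    have m12 : ‖(inner ℂ e1 e2 : ℂ)‖ ^ 2 = 1 / 6 := hM 1 2 (by decide) _ _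
    have g0 : g e0 = a • e0 := he 0
    have g1 : g e1 = a • e1 := by rw [he 1, hall 1]
    have g2 : g e2 = a • e2 := by rw [he 2, hall 2]
    set w1 := e1 - (inner ℂ e0 e1 : ℂ) • e0 with hw1
    set w2 := e2 - (inner ℂ e0 e2 : ℂ) • e0 with hw2
    have gw1 : g w1 = a • w1 := by
      rw [hw1, map_sub, map_smul, g0, g1, smul_sub, smul_comm]
    have gw2 : g w2 = a • w2 := by
      rw [hw2, map_sub, map_smul, g0, g2, smul_sub, smul_comm]
    have o1 : inner ℂ e0 w1 = (0 : ℂ) := by
      rw [hw1, inner_sub_right, inner_smul_right, n0]; ring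
    have o2 : inner ℂ e0 w2 = (0 : ℂ) := by
      rw [hw2, inner_sub_right, inner_smul_right, n0]; ring
    have conj_sq : ∀ z : ℂ, ‖z‖ ^ 2 = 1 / 6 → conj z * z = 1 / 6 := by
      intro z hz
      rw [mul_comm, Complex.mul_conj, Complex.normSq_eq_norm_sq, hz]
      norm_num
    have i11 : (inner ℂ w1 w1 : ℂ) = 5 / 6 := by
      have h1 : (inner ℂ w1 w1 : ℂ) = inner ℂ e1 w1 := by
        conv_lhs => rw [hw1, inner_sub_left, inner_smul_left, ← hw1, o1]
        ring
      rw [h1, hw1, inner_sub_right, inner_smul_right, n1, ← inner_conj_symm e1 e0]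
      have := conj_sq _ m01
      linear_combination (-1) * this
    have i22 : (inner ℂ w2 w2 : ℂ) = 5 / 6 := by
      have h1 : (inner ℂ w2 w2 : ℂ) = inner ℂ e2 w2 := by
        conv_lhs => rw [hw2, inner_sub_left, inner_smul_left, ← hw2, o2]
        ring
      rw [h1, hw2, inner_sub_right, inner_smul_right, n2, ← inner_conj_symm e2 e0]
      have := conj_sq _ m02
      linear_combination (-1) * this
    have i12 : (inner ℂ w1 w2 : ℂ) = inner ℂ e1 e2 - inner ℂ e0 e2 * inner ℂ e1 e0 := by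
      have h1 : (inner ℂ w1 w2 : ℂ) = inner ℂ e1 w2 := by
        conv_lhs => rw [hw1, inner_sub_left, inner_smul_left, o2]
        ring
      rw [h1, hw2, inner_sub_right, inner_smul_right]
    have nz1 : w1 ≠ 0 := by
      intro h
      rw [h, inner_zero_left] at i11
      norm_num at i11
    have nz2 : w2 ≠ 0 := by
      intro h
      rw [h, inner_zero_left] at i22
      norm_num at i22
    set p := (inner ℂ (b 0 k0) w1 : ℂ) with hp
    set q := (inner ℂ (b 0 k0) w2 : ℂ) with hq
    have hp0 : p ≠ 0 := fun h => nz1 (hvan w1 gw1 o1 h)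
    have hu : q • w1 - p • w2 = 0 := by
      apply hvan
      · rw [map_sub, map_smul, map_smul, gw1, gw2, smul_sub a (q • w1) (p • w2),
          smul_comm q a w1, smul_comm p a w2]
      · rw [inner_sub_right, inner_smul_right, inner_smul_right, o1, o2]; ring
      · rw [inner_sub_right, inner_smul_right, inner_smul_right, ← hp, ← hq]; ring
    have hw : w2 = (q / p) • w1 := by
      have h1 : p • w2 = q • w1 := (sub_eq_zero.mp hu).symm
      rw [div_eq_inv_mul, mul_smul, ← h1, smul_smul, inv_mul_cancel₀ hp0, one_smul]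
    set r := q / p with hr
    have hr1 : ‖r‖ ^ 2 = 1 := by
      have h1 : (inner ℂ w2 w2 : ℂ) = conj r * r * (5 / 6) := by
        rw [hw, inner_smul_left, inner_smul_right, i11]; ring
      rw [i22] at h1
      have h2 : conj r * r = 1 := by
        linear_combination (-6 / 5) * h1
      rw [mul_comm, Complex.mul_conj, Complex.normSq_eq_norm_sq] at h2
      exact_mod_cast h2
    have hr2 : ‖r‖ = 1 := by
      have := norm_nonneg r
      nlinarith only [hr1, this]
    have h12 : ‖(inner ℂ w1 w2 : ℂ)‖ = 5 / 6 := by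
      rw [hw, inner_smul_right, i11, norm_mul, hr2]
      norm_num
    have hle : ‖(inner ℂ w1 w2 : ℂ)‖ ≤ ‖(inner ℂ e1 e2 : ℂ)‖ +
        ‖(inner ℂ e0 e2 : ℂ)‖ * ‖(inner ℂ e0 e1 : ℂ)‖ := by
      rw [i12]
      refine (norm_sub_le _ _).trans ?_
      rw [norm_mul, ← inner_conj_symm e1 e0, RCLike.norm_conj]
    have k1 : ‖(inner ℂ e1 e2 : ℂ)‖ < 1 / 2 := by
      have := norm_nonneg (inner ℂ e1 e2 : ℂ)
      nlinarith only [m12]
    have k2 : ‖(inner ℂ e0 e2 : ℂ)‖ < 1 / 2 := by
      have := norm_nonneg (inner ℂ e0 e2 : ℂ)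
      nlinarith only [m02]
    have k3 : ‖(inner ℂ e0 e1 : ℂ)‖ < 1 / 2 := by
      have := norm_nonneg (inner ℂ e0 e1 : ℂ)
      nlinarith only [m01]
    have := norm_nonneg (inner ℂ e0 e2 : ℂ)
    have := norm_nonneg (inner ℂ e0 e1 : ℂ)
    nlinarith only [m02, h12, hle, k1, m01]

/-- A common symmetry `g` with `g ^ 5 = 1` of four (even three) mutually unbiased bases is
a scalar. -/
theorem order5 {B : Fin 4 → OrthonormalBasis (Fin 6) ℂ H} (hB : PairwiseMUB B)
    (g : H →ₗ[ℂ] H) (hg : ∀ x y, inner ℂ (g x) (g y) = inner ℂ x y) (hp : PreservesBases B g)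
    (h5 : ∀ x, g (g (g (g (g x)))) = x) : ∃ z : ℂ, ∀ x, g x = z • x := by
  choose s c hc hs using fun i => exists_perm (B i) g hg (hp i)
  refine order5_scalar (fun i : Fin 3 => B i.castSucc) (fun i j hij k l => ?_) g hg
    (fun i => s i.castSucc) (fun i => c i.castSucc) (fun i k => hs i.castSucc k) (fun i => ?_)
  · exact hB _ _ (fun h => hij (Fin.castSucc_injective _ h)) k l
  · exact perm_pow_eq_one (hc _) (hs _) (n := 5) (fun x => h5 x)

end Vale.Agent.P355
end
end

section

section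

/-! Numerical core of the exclusion of involutions with fixed lines in two bases. -/

namespace Vale.Agent.P355

open Complex

/-- Maximal entry argument for a kernel vector of a `4 × 4` matrix with unit diagonal and
off-diagonal entries bounded by `1/3`. -/
theorem kernel_third {G : Fin 4 → Fin 4 → ℝ} (diag : ∀ i, G i i = 1) {v : Fin 4 → ℝ}
    (hv : v ≠ 0) (hk : ∀ i, ∑ j, G i j * v j = 0) (hb : ∀ i j, i ≠ j → |G i j| ≤ 1 / 3) :
    ∃ M : ℝ, 0 < M ∧ (∀ j, v j ^ 2 = M) ∧ ∀ i j, i ≠ j → G i j * (v i * v j) = -(M / 3) := by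
  have hk' : ∀ i, v i + ∑ j ∈ Finset.univ.erase i, G i j * v j = 0 := by
    intro i
    have := hk i
    rw [← Finset.add_sum_erase _ _ (Finset.mem_univ i), diag, one_mul] at this
    exact this
  obtain ⟨i0, -, hi0⟩ := Finset.exists_max_image (Finset.univ : Finset (Fin 4)) (fun i => v i ^ 2)
    ⟨0, Finset.mem_univ _⟩
  have hM : ∀ j, v j ^ 2 ≤ v i0 ^ 2 := fun j => hi0 j (Finset.mem_univ j)
  have hMpos : 0 < v i0 ^ 2 := by
    by_contra hc
    apply hv
    funext j
    have := hM j
    have : v j ^ 2 ≤ 0 := by linarith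
    have : v j = 0 := by (clear G diag hv hk hb hk' this; nlinarith [sq_nonneg (v j)])
    simpa using this
  set M2 := v i0 ^ 2 with hM2
  have hterm : ∀ i j, i ≠ j → 0 ≤ M2 / 3 + G i j * (v i * v j) := by
    intro i j hij
    have h2 : |v i * v j| ≤ M2 := by
      rw [abs_le]
      constructor <;> nlinarith only [hM i, hM j]
    have h4 : |G i j * (v i * v j)| ≤ 1 / 3 * M2 := by
      rw [abs_mul]
      exact mul_le_mul (hb i j hij) h2 (abs_nonneg _) (by norm_num)
    have h5 := (abs_le.1 h4).1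
    linarith only [h5]
  have hsumterm : ∀ i, ∑ j ∈ Finset.univ.erase i, (M2 / 3 + G i j * (v i * v j))
      = M2 - v i ^ 2 := by
    intro i
    rw [Finset.sum_add_distrib, Finset.sum_const, Finset.card_erase_of_mem (Finset.mem_univ i)]
    have : ∑ j ∈ Finset.univ.erase i, G i j * (v i * v j)
        = v i * ∑ j ∈ Finset.univ.erase i, G i j * v j := by
      rw [Finset.mul_sum]
      apply Finset.sum_congr rfl
      intro j _; ring
    rw [this]
    have h := hk' i
    have h' : ∑ j ∈ Finset.univ.erase i, G i j * v j = - v i := by linarith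
    rw [h']
    simp only [Finset.card_univ, Fintype.card_fin, Nat.add_one_sub_one, nsmul_eq_mul, Nat.cast_ofNat, mul_neg]
    ring
  have hall0 : ∀ j, v j ^ 2 = M2 := by
    intro j
    by_cases hj : j = i0
    · rw [hj]
    · have hz : ∑ j ∈ Finset.univ.erase i0, (M2 / 3 + G i0 j * (v i0 * v j)) = 0 := by
        rw [hsumterm]; simp [hM2]
      have hz' := (Finset.sum_eq_zero_iff_of_nonneg (fun j hj' =>
        hterm i0 j (Ne.symm (Finset.ne_of_mem_erase hj')))).1 hz j
        (Finset.mem_erase.2 ⟨hj, Finset.mem_univ j⟩)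
      have hb' := hb i0 j (Ne.symm hj)
      have h6 : M2 / 3 = |G i0 j| * |v i0 * v j| := by
        rw [← abs_mul]
        have : G i0 j * (v i0 * v j) = - (M2 / 3) := by linarith only [hz']
        rw [this, abs_neg, abs_of_pos (by positivity)]
      have h7 : M2 ≤ |v i0 * v j| := by
        have h8 := abs_nonneg (v i0 * v j)
        nlinarith only [h6, hb', h8]
      have h9 : M2 ^ 2 ≤ (v i0 * v j) ^ 2 := by
        rw [← sq_abs (v i0 * v j)]
        exact pow_le_pow_left₀ hMpos.le h7 2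
      have h10 : (v i0 * v j) ^ 2 = M2 * v j ^ 2 := by rw [mul_pow]
      rw [h10] at h9
      have h11 := hM j
      have h12 : M2 ≤ v j ^ 2 := by
        have : M2 * (M2 - v j ^ 2) ≤ 0 := by nlinarith only [h9]
        by_contra hc
        push Not at hc
        nlinarith only [h9, hc]
      linarith only [h12, h11]
  refine ⟨M2, hMpos, hall0, ?_⟩
  intro i j hij
  have hz : ∑ j ∈ Finset.univ.erase i, (M2 / 3 + G i j * (v i * v j)) = 0 := by
    rw [hsumterm, hall0 i]; simp
  have hz' := (Finset.sum_eq_zero_iff_of_nonneg (fun j hj' =>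
    hterm i j (Ne.symm (Finset.ne_of_mem_erase hj')))).1 hz j
    (Finset.mem_erase.2 ⟨Ne.symm hij, Finset.mem_univ j⟩)
  linarith only [hz']

/-- Four vectors in `ℝ³` are linearly dependent, in Gram matrix form. -/
theorem exists_kernel (n : Fin 4 → Fin 3 → ℝ) :
    ∃ v : Fin 4 → ℝ, v ≠ 0 ∧ ∀ i, ∑ j, (n i 0 * n j 0 + n i 1 * n j 1 + n i 2 * n j 2) * v j = 0 := by
  have h : ¬ LinearIndependent ℝ n := by
    intro h
    have := h.fintype_card_le_finrank
    simp at this
  obtain ⟨v, hv, i, hi⟩ := Fintype.not_linearIndependent_iff.1 h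
  refine ⟨v, fun h0 => hi (by rw [h0]; rfl), fun i => ?_⟩
  have e : ∀ m, ∑ j, v j * n j m = 0 := by
    intro m
    have := congrFun hv m
    simpa only [Finset.sum_apply, Pi.smul_apply, smul_eq_mul, Pi.zero_apply] using this
  have e0 := e 0
  have e1 := e 1
  have e2 := e 2
  have : ∑ j, (n i 0 * n j 0 + n i 1 * n j 1 + n i 2 * n j 2) * v j
      = n i 0 * ∑ j, v j * n j 0 + n i 1 * ∑ j, v j * n j 1 + n i 2 * ∑ j, v j * n j 2 := by
    rw [Finset.mul_sum, Finset.mul_sum, Finset.mul_sum, ← Finset.sum_add_distrib,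
      ← Finset.sum_add_distrib]
    apply Finset.sum_congr rfl
    intro j _
    ring
  rw [this, e0, e1, e2]
  ring

/-- Bloch vectors. -/
theorem bloch (a b c d : ℂ) (h1 : normSq a + normSq b = 1) (h2 : normSq c + normSq d = 1) :
    2 * normSq ((starRingEnd ℂ) a * c + (starRingEnd ℂ) b * d) - 1
      = (2 * ((starRingEnd ℂ) a * b).re) * (2 * ((starRingEnd ℂ) c * d).re)
        + (2 * ((starRingEnd ℂ) a * b).im) * (2 * ((starRingEnd ℂ) c * d).im)
        + (normSq a - normSq b) * (normSq c - normSq d) := by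
  have h : 1 = (normSq a + normSq b) * (normSq c + normSq d) := by rw [h1, h2]; norm_num
  rw [h]
  simp only [normSq_apply, add_re, add_im, mul_re, mul_im, conj_re, conj_im]
  ring

/-- Gram determinant of three vectors in `ℂ²`. -/
theorem gram_det (a1 b1 a2 b2 a3 b3 : ℂ) (h1 : normSq a1 + normSq b1 = 1)
    (h2 : normSq a2 + normSq b2 = 1) (h3 : normSq a3 + normSq b3 = 1)
    {z12 z23 z31 : ℂ}
    (e12 : z12 = (starRingEnd ℂ) a1 * a2 + (starRingEnd ℂ) b1 * b2)
    (e23 : z23 = (starRingEnd ℂ) a2 * a3 + (starRingEnd ℂ) b2 * b3)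
    (e31 : z31 = (starRingEnd ℂ) a3 * a1 + (starRingEnd ℂ) b3 * b1) :
    1 + 2 * (z12 * z23 * z31).re = normSq z12 + normSq z23 + normSq z31 := by
  have key : (normSq a1 + normSq b1) * (normSq a2 + normSq b2) * (normSq a3 + normSq b3)
      + 2 * (z12 * z23 * z31).re = normSq z12 * (normSq a3 + normSq b3)
        + normSq z23 * (normSq a1 + normSq b1) + normSq z31 * (normSq a2 + normSq b2) := by
    rw [e12, e23, e31]
    simp only [normSq_apply, add_re, add_im, mul_re, mul_im, conj_re, conj_im]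
    ring
  rw [h1, h2, h3] at key
  linarith only [key]

/-- Three purely imaginary ratios contradict two purely imaginary triple products. -/
theorem triple_contra {u1 u2 u3 w1 w2 w3 : ℂ}
    (hu : (u1 * u2 * u3).re = 0) (hw : (w1 * w2 * w3).re = 0)
    (h1 : (u1 * (starRingEnd ℂ) w1).re = 0) (h2 : (u2 * (starRingEnd ℂ) w2).re = 0)
    (h3 : (u3 * (starRingEnd ℂ) w3).re = 0)
    (nu1 : u1 ≠ 0) (nu2 : u2 ≠ 0) (nu3 : u3 ≠ 0) (nw1 : w1 ≠ 0) (nw2 : w2 ≠ 0) (nw3 : w3 ≠ 0) :
    False := by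
  have hP : u1 * u2 * u3 ≠ 0 := mul_ne_zero (mul_ne_zero nu1 nu2) nu3
  have hQ : w1 * w2 * w3 ≠ 0 := mul_ne_zero (mul_ne_zero nw1 nw2) nw3
  have e : (u1 * u2 * u3) * (starRingEnd ℂ) (w1 * w2 * w3)
      = (u1 * (starRingEnd ℂ) w1) * (u2 * (starRingEnd ℂ) w2) * (u3 * (starRingEnd ℂ) w3) := by
    simp only [map_mul]; ring
  have er := congrArg re e
  have rl : ((u1 * u2 * u3) * (starRingEnd ℂ) (w1 * w2 * w3)).re
      = (u1 * u2 * u3).im * (w1 * w2 * w3).im := by
    rw [mul_re, hu, conj_re, conj_im]; ring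
  have rr : ((u1 * (starRingEnd ℂ) w1) * (u2 * (starRingEnd ℂ) w2) *
      (u3 * (starRingEnd ℂ) w3)).re = 0 := by
    have g : ∀ z1 z2 z3 : ℂ, z1.re = 0 → z2.re = 0 → z3.re = 0 → (z1 * z2 * z3).re = 0 := by
      intro z1 z2 z3 g1 g2 g3
      rw [mul_re, mul_re, mul_im, g1, g2, g3]; ring
    exact g _ _ _ h1 h2 h3
  rw [rl, rr] at er
  rcases mul_eq_zero.1 er with h | h
  · exact hP (Complex.ext hu h)
  · exact hQ (Complex.ext hw h)

theorem order2_core (U W T : Fin 4 → Fin 2 → Fin 4 → Fin 2 → ℂ)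
    (Us : ∀ i a j b, U j b i a = (starRingEnd ℂ) (U i a j b))
    (Ws : ∀ i a j b, W j b i a = (starRingEnd ℂ) (W i a j b))
    (Ud : ∀ i a b, a ≠ b → U i a i b = 0) (Ud1 : ∀ i a, U i a i a = 1)
    (Wd1 : ∀ i a, W i a i a = 1)
    (hW : ∀ i a j b k, W i a j b = W i a k 0 * W k 0 j b + W i a k 1 * W k 1 j b)
    (hU : ∀ i a j b k, U i a j b = 1 / 2 * ((starRingEnd ℂ) (T k 0 i a) * T k 0 j b
      + (starRingEnd ℂ) (T k 1 i a) * T k 1 j b) + U i a k 0 * U k 0 j b + U i a k 1 * U k 1 j b)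
    (hT : ∀ k l j b, k ≠ j → normSq (T k l j b) = 2 / 3)
    (hUW : ∀ i a j b, i ≠ j → normSq (U i a j b) + normSq (W i a j b) = 2 / 3)
    (hre : ∀ i a j b, i ≠ j → (U i a j b * (starRingEnd ℂ) (W i a j b)).re = 0) : False := by
  have nz : ∀ z : ℂ, (starRingEnd ℂ) z * z = (normSq z : ℂ) := fun z => by
    rw [mul_comm, mul_conj]
  -- row sums
  have sW : ∀ k j b, normSq (W k 0 j b) + normSq (W k 1 j b) = 1 := by
    intro k j b
    have h := hW j b j b k
    rw [Wd1, Ws k 0 j b, Ws k 1 j b, nz, nz] at h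
    exact_mod_cast h.symm
  have sU : ∀ k j b, k ≠ j → normSq (U k 0 j b) + normSq (U k 1 j b) = 1 / 3 := by
    intro k j b hkj
    have h := hU j b j b k
    rw [Ud1, Us k 0 j b, Us k 1 j b, nz, nz, nz, nz, hT k 0 j b hkj, hT k 1 j b hkj] at h
    have h' : (normSq (U k 0 j b) : ℂ) + normSq (U k 1 j b) = ((1 / 3 : ℝ) : ℂ) := by
      push_cast at h ⊢
      linear_combination -h
    exact_mod_cast h'
  have W01 : ∀ i a j b, i ≠ j → 1 / 3 ≤ normSq (W i a j b) := by
    intro i a j b hij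
    have h1 := sU i j b hij
    have h2 := hUW i a j b hij
    have h3 : normSq (U i a j b) ≤ 1 / 3 := by
      have p0 := normSq_nonneg (U i 0 j b)
      have p1 := normSq_nonneg (U i 1 j b)
      fin_cases a
      · simp only [Fin.zero_eta, Fin.isValue]; linarith only [h1, p1]
      · simp only [Fin.mk_one, Fin.isValue]; linarith only [h1, p0]
    linarith
  have W02 : ∀ i a j b, i ≠ j → normSq (W i a j b) ≤ 2 / 3 := by
    intro i a j b hij
    have h2 := hUW i a j b hij
    have := normSq_nonneg (U i a j b)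
    linarith
  have sW' : ∀ k j b, normSq (W k b j 0) + normSq (W k b j 1) = 1 := by
    intro k j b
    have h := sW j k b
    rw [Ws k b j 0, Ws k b j 1, normSq_conj, normSq_conj] at h
    exact h
  -- Bloch vectors
  obtain ⟨v, hv, hk⟩ := exists_kernel (fun i => ![2 * ((starRingEnd ℂ) (W 0 0 i 0) * W 0 1 i 0).re,
    2 * ((starRingEnd ℂ) (W 0 0 i 0) * W 0 1 i 0).im, normSq (W 0 0 i 0) - normSq (W 0 1 i 0)])
  set G : Fin 4 → Fin 4 → ℝ := fun i j => 2 * normSq (W i 0 j 0) - 1 with hG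
  have hGn : ∀ i j, G i j = (2 * ((starRingEnd ℂ) (W 0 0 i 0) * W 0 1 i 0).re) *
      (2 * ((starRingEnd ℂ) (W 0 0 j 0) * W 0 1 j 0).re)
      + (2 * ((starRingEnd ℂ) (W 0 0 i 0) * W 0 1 i 0).im) *
      (2 * ((starRingEnd ℂ) (W 0 0 j 0) * W 0 1 j 0).im)
      + (normSq (W 0 0 i 0) - normSq (W 0 1 i 0)) * (normSq (W 0 0 j 0) - normSq (W 0 1 j 0)) := by
    intro i j
    rw [← bloch _ _ _ _ (sW 0 i 0) (sW 0 j 0), hG]
    simp only
    rw [hW i 0 j 0 0, Ws 0 0 i 0, Ws 0 1 i 0]
  obtain ⟨M, hM, hvM, hGM⟩ := kernel_third (G := G) (fun i => by simp [hG, Wd1]; norm_num) hv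
    (fun i => by
      have h := hk i
      simp only [Matrix.cons_val_zero, Matrix.cons_val_one, Matrix.cons_val] at h
      simp only [hGn]
      exact h)
    (fun i j hij => by
      have h1 := W01 i 0 j 0 hij
      have h2 := W02 i 0 j 0 hij
      rw [abs_le]
      constructor
      · simp only [hG]; linarith only [h1]
      · simp only [hG]; linarith only [h2])
  -- choose the sign
  obtain ⟨a, ha⟩ : ∃ a : Fin 4 → Fin 2, ∀ i, (0 < v i ∧ a i = 0) ∨ (v i < 0 ∧ a i = 1) := by
    refine ⟨fun i => if 0 < v i then 0 else 1, fun i => ?_⟩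
    by_cases h : 0 < v i
    · left; exact ⟨h, by simp [h]⟩
    · right
      refine ⟨?_, by simp [h]⟩
      have := hvM i
      rcases lt_trichotomy (v i) 0 with h1 | h1 | h1
      · exact h1
      · rw [h1] at this; simp at this; linarith
      · exact absurd h1 h
  have hv2 : ∀ i j, (v i * v j) ^ 2 = M ^ 2 := by
    intro i j
    rw [mul_pow, hvM, hvM]; ring
  have hWa : ∀ i j, i ≠ j → normSq (W i (a i) j (a j)) = 1 / 3 := by
    intro i j hij
    have g := hGM i j hij
    have q := hv2 i j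
    simp only [hG] at g
    have s1 := sW i j 0
    have s2 := sW i j 1
    have s3 := sW' i j 0
    rcases ha i with ⟨hi, ei⟩ | ⟨hi, ei⟩ <;> rcases ha j with ⟨hj, ej⟩ | ⟨hj, ej⟩ <;>
      rw [ei, ej]
    · have hp : v i * v j = M := by
        have : 0 < v i * v j := mul_pos hi hj
        nlinarith only [q, hM, this]
      rw [hp] at g
      have : (2 * normSq (W i 0 j 0) - 1 + 1 / 3) * M = 0 := by linarith
      rcases mul_eq_zero.1 this with h | h <;> linarith only [hM, h]
    · have hp : v i * v j = -M := by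
        have : v i * v j < 0 := mul_neg_of_pos_of_neg hi hj
        nlinarith only [q, hM, this]
      rw [hp] at g
      have : (2 * normSq (W i 0 j 0) - 1 - 1 / 3) * M = 0 := by linarith
      rcases mul_eq_zero.1 this with h | h <;> linarith only [hM, h, s3]
    · have hp : v i * v j = -M := by
        have : v i * v j < 0 := mul_neg_of_neg_of_pos hi hj
        nlinarith only [q, hM, this]
      rw [hp] at g
      have : (2 * normSq (W i 0 j 0) - 1 - 1 / 3) * M = 0 := by linarith
      rcases mul_eq_zero.1 this with h | h <;> linarith only [hM, h, s1]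
    · have hp : v i * v j = M := by
        have : 0 < v i * v j := mul_pos_of_neg_of_neg hi hj
        nlinarith only [q, hM, this]
      rw [hp] at g
      have : (2 * normSq (W i 0 j 0) - 1 + 1 / 3) * M = 0 := by linarith only [g]
      rcases mul_eq_zero.1 this with h | h <;> linarith only [hM, h, s2, s3]
  have hUa : ∀ i j, i ≠ j → normSq (U i (a i) j (a j)) = 1 / 3 := by
    intro i j hij
    have := hWa i j hij
    have := hUW i (a i) j (a j) hij
    linarith
  obtain ⟨a', ha'⟩ : ∃ a' : Fin 4 → Fin 2, ∀ i, (a i = 0 ∧ a' i = 1) ∨ (a i = 1 ∧ a' i = 0) := by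
    refine ⟨fun i => if a i = 0 then 1 else 0, fun i => ?_⟩
    by_cases h : a i = 0
    · left; exact ⟨h, by simp [h]⟩
    · right
      refine ⟨?_, by simp [h]⟩
      rcases ha i with ⟨_, e⟩ | ⟨_, e⟩
      · exact absurd e h
      · exact e
  have hU0 : ∀ i j, U i (a' i) j (a j) = 0 := by
    intro i j
    by_cases hij : i = j
    · subst hij
      apply Ud
      rcases ha' i with ⟨e, e'⟩ | ⟨e, e'⟩ <;> rw [e, e'] <;> decide
    · have h1 := sU i j (a j) hij
      have h2 := hUa i j hij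
      apply normSq_eq_zero.1
      rcases ha' i with ⟨e, e'⟩ | ⟨e, e'⟩
      · rw [e'] ; rw [e] at h2; linarith only [h1, h2]
      · rw [e'] ; rw [e] at h2; linarith
  -- expansions along the chosen index
  have hWc : ∀ i j k, W i (a i) j (a j) = (starRingEnd ℂ) (W k (a k) i (a i)) * W k (a k) j (a j)
      + (starRingEnd ℂ) (W k (a' k) i (a i)) * W k (a' k) j (a j) := by
    intro i j k
    have h := hW i (a i) j (a j) k
    rw [Ws k 0 i (a i), Ws k 1 i (a i)] at h
    rcases ha' k with ⟨e, e'⟩ | ⟨e, e'⟩ <;> rw [e, e', h]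
    ring
  have hUc : ∀ i x j k, U i x j (a j) = 1 / 2 * ((starRingEnd ℂ) (T k 0 i x) * T k 0 j (a j)
      + (starRingEnd ℂ) (T k 1 i x) * T k 1 j (a j)) + U i x k (a k) * U k (a k) j (a j) := by
    intro i x j k
    have h := hU i x j (a j) k
    have h0 := hU0 k j
    rcases ha' k with ⟨e, e'⟩ | ⟨e, e'⟩
    · rw [e'] at h0
      rw [e, h, h0]; ring
    · rw [e'] at h0
      rw [e, h, h0]; ring
  -- the vector x'_1
  set t0 := T 0 0 1 (a' 1) with ht0
  set t1 := T 0 1 1 (a' 1) with ht1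
  have nt0 : normSq t0 = 2 / 3 := hT 0 0 1 _ (by decide)
  have nt1 : normSq t1 = 2 / 3 := hT 0 1 1 _ (by decide)
  have hprop : ∀ j, (starRingEnd ℂ) t0 * T 0 0 j (a j) + (starRingEnd ℂ) t1 * T 0 1 j (a j) = 0 := by
    intro j
    have h := hUc 1 (a' 1) j 0
    rw [hU0 1 j, hU0 1 0] at h
    linear_combination (-2) * h
  have ht1' : (starRingEnd ℂ) t1 ≠ 0 := by
    intro h
    have : normSq ((starRingEnd ℂ) t1) = 0 := by rw [h, normSq_zero]
    rw [normSq_conj] at this
    linarith only [nt1, this]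
  set r : ℂ := - ((starRingEnd ℂ) t0 / (starRingEnd ℂ) t1) with hr
  have hT1 : ∀ j, T 0 1 j (a j) = r * T 0 0 j (a j) := by
    intro j
    have h := hprop j
    rw [hr]
    field_simp
    linear_combination h
  have hr1 : (starRingEnd ℂ) r * r = 1 := by
    rw [nz, hr, normSq_neg, normSq_div, normSq_conj, normSq_conj, nt0, nt1]
    norm_num
  have hUd : ∀ i j, U i (a i) j (a j) = (starRingEnd ℂ) (U 0 (a 0) i (a i)) * U 0 (a 0) j (a j)
      + (starRingEnd ℂ) (T 0 0 i (a i)) * T 0 0 j (a j) := by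
    intro i j
    have h := hUc i (a i) j 0
    rw [hT1 i, hT1 j, Us 0 (a 0) i (a i)] at h
    rw [h, map_mul]
    linear_combination (1 / 2 * (starRingEnd ℂ) (T 0 0 i (a i)) * T 0 0 j (a j)) * hr1
  -- norms
  have nU : ∀ j, 0 ≠ j → normSq (U 0 (a 0) j (a j)) + normSq (T 0 0 j (a j)) = 1 := by
    intro j hj
    rw [hUa 0 j hj, hT 0 0 j _ hj]; norm_num
  have nW : ∀ j, normSq (W 0 (a 0) j (a j)) + normSq (W 0 (a' 0) j (a j)) = 1 := by
    intro j
    have h := sW 0 j (a j)
    rcases ha' 0 with ⟨e, e'⟩ | ⟨e, e'⟩ <;> rw [e, e'] <;> linarith only [h]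
  have gU := gram_det _ _ _ _ _ _ (nU 1 (by decide)) (nU 2 (by decide)) (nU 3 (by decide))
    (hUd 1 2) (hUd 2 3) (hUd 3 1)
  have gW := gram_det _ _ _ _ _ _ (nW 1) (nW 2) (nW 3) (hWc 1 2 0) (hWc 2 3 0) (hWc 3 1 0)
  rw [hUa 1 2 (by decide), hUa 2 3 (by decide), hUa 3 1 (by decide)] at gU
  rw [hWa 1 2 (by decide), hWa 2 3 (by decide), hWa 3 1 (by decide)] at gW
  have neU : ∀ i j, i ≠ j → U i (a i) j (a j) ≠ 0 := by
    intro i j hij h
    have := hUa i j hij
    rw [h, normSq_zero] at this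
    norm_num at this
  have neW : ∀ i j, i ≠ j → W i (a i) j (a j) ≠ 0 := by
    intro i j hij h
    have := hWa i j hij
    rw [h, normSq_zero] at this
    norm_num at this
  exact triple_contra (by linarith only [gU]) (by linarith only [gW]) (hre 1 _ 2 _ (by decide))
    (hre 2 _ 3 _ (by decide)) (hre 3 _ 1 _ (by decide)) (neU 1 2 (by decide))
    (neU 2 3 (by decide)) (neU 3 1 (by decide)) (neW 1 2 (by decide)) (neW 2 3 (by decide))
    (neW 3 1 (by decide))

end Vale.Agent.P355
end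
end

section

section

/-! An involutive symmetry of four mutually unbiased bases of `ℂ⁶` fixing a line of at least two
of the bases is a scalar. -/

namespace Vale.Agent.P355

open Complex

theorem inv_symm {g : H →ₗ[ℂ] H} (hg : ∀ x y, inner ℂ (g x) (g y) = inner ℂ x y)
    (h2 : ∀ x, g (g x) = x) (x y : H) : inner ℂ (g x) y = inner ℂ x (g y) := by
  rw [← hg x (g y), h2]

theorem exists_notMem_of_card_lt {s : Finset (Fin 6)} (h : s.card < 6) : ∃ x, x ∉ s := by
  by_contra hc
  push Not at hc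
  have : s = Finset.univ := Finset.eq_univ_iff_forall.2 hc
  rw [this] at h
  simp at h

/-- Normal form of an involution of six points with exactly two fixed points. -/
theorem exists_normal (s : Equiv.Perm (Fin 6)) (h : s ^ 2 = 1)
    (hc : (Finset.univ.filter (fun k => s k = k)).card = 2) :
    ∃ e : Equiv.Perm (Fin 6), s (e 0) = e 0 ∧ s (e 1) = e 1 ∧ s (e 2) = e 3 ∧ s (e 4) = e 5 := by
  have hs : ∀ k, s (s k) = k := by
    intro k
    have := congrArg (fun t : Equiv.Perm (Fin 6) => t k) h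
    simpa [pow_two] using this
  obtain ⟨a, b, hab, hf⟩ := Finset.card_eq_two.1 hc
  have hfix : ∀ k, s k = k ↔ k = a ∨ k = b := by
    intro k
    have : k ∈ Finset.univ.filter (fun k => s k = k) ↔ k ∈ ({a, b} : Finset (Fin 6)) := by
      rw [hf]
    simpa using this
  have ha : s a = a := (hfix a).2 (Or.inl rfl)
  have hb : s b = b := (hfix b).2 (Or.inr rfl)
  obtain ⟨p, hp⟩ := exists_notMem_of_card_lt (s := {a, b})
    (lt_of_le_of_lt Finset.card_le_two (by norm_num))
  simp only [Finset.mem_insert, Finset.mem_singleton, not_or] at hp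
  have hpp : s p ≠ p := fun h => by
    rcases (hfix p).1 h with h | h
    · exact hp.1 h
    · exact hp.2 h
  have hpa : s p ≠ a := fun h => hp.1 (by rw [← hs p, h, ha])
  have hpb : s p ≠ b := fun h => hp.2 (by rw [← hs p, h, hb])
  obtain ⟨q, hq⟩ := exists_notMem_of_card_lt (s := {a, b, p, s p})
    (lt_of_le_of_lt Finset.card_le_four (by norm_num))
  simp only [Finset.mem_insert, Finset.mem_singleton, not_or] at hq
  obtain ⟨q1, q2, q3, q4⟩ := hq
  have hqq : s q ≠ q := fun h => by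
    rcases (hfix q).1 h with h | h
    · exact q1 h
    · exact q2 h
  have hqa : s q ≠ a := fun h => q1 (by rw [← hs q, h, ha])
  have hqb : s q ≠ b := fun h => q2 (by rw [← hs q, h, hb])
  have hqp : s q ≠ p := fun h => q4 (by rw [← hs q, h])
  have hqsp : s q ≠ s p := fun h => q3 (s.injective h)
  have hinj : Function.Injective (![a, b, p, s p, q, s q] : Fin 6 → Fin 6) := by
    intro x y hxy
    obtain ⟨p1, p2⟩ := hp
    fin_cases x <;> fin_cases y <;>
      simp only [Fin.zero_eta, Fin.mk_one, Fin.reduceFinMk, Fin.isValue, Matrix.cons_val_zero,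
        Matrix.cons_val_one, Matrix.cons_val] at hxy ⊢ <;>
      first
      | exact absurd hxy hab
      | exact absurd hxy.symm hab
      | exact absurd hxy p1
      | exact absurd hxy.symm p1
      | exact absurd hxy p2
      | exact absurd hxy.symm p2
      | exact absurd hxy hpp
      | exact absurd hxy.symm hpp
      | exact absurd hxy hpa
      | exact absurd hxy.symm hpa
      | exact absurd hxy hpb
      | exact absurd hxy.symm hpb
      | exact absurd hxy q1
      | exact absurd hxy.symm q1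
      | exact absurd hxy q2
      | exact absurd hxy.symm q2
      | exact absurd hxy q3
      | exact absurd hxy.symm q3
      | exact absurd hxy q4
      | exact absurd hxy.symm q4
      | exact absurd hxy hqq
      | exact absurd hxy.symm hqq
      | exact absurd hxy hqa
      | exact absurd hxy.symm hqa
      | exact absurd hxy hqb
      | exact absurd hxy.symm hqb
      | exact absurd hxy hqp
      | exact absurd hxy.symm hqp
      | exact absurd hxy hqsp
      | exact absurd hxy.symm hqsp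
  refine ⟨Equiv.ofBijective _ ((Finite.injective_iff_bijective).1 hinj), ?_, ?_, ?_, ?_⟩
  · simpa using ha
  · simpa using hb
  · simp
  · simp

/-- The vectors attached to a basis on which the involution acts with two fixed lines. -/
theorem normal_basis (b : OrthonormalBasis (Fin 6) ℂ H) {g : H →ₗ[ℂ] H}
    (h2 : ∀ x, g (g x) = x) {s : Equiv.Perm (Fin 6)} {z : Fin 6 → ℂ} (hz : ∀ k, ‖z k‖ = 1)
    (h : ∀ k, g (b k) = z k • b (s k))
    (hf : (Finset.univ.filter (fun k => s k = k)).card = 2) (hone : ∀ k, s k = k → z k = 1) :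
    ∃ c p : Fin 2 → H, (∀ l, g (c l) = c l) ∧
      (∀ v w : H, inner ℂ v w = inner ℂ v (c 0) * inner ℂ (c 0) w + inner ℂ v (c 1) * inner ℂ (c 1) w
        + (inner ℂ v (p 0) * inner ℂ (p 0) w + inner ℂ v (g (p 0)) * inner ℂ (g (p 0)) w)
        + (inner ℂ v (p 1) * inner ℂ (p 1) w + inner ℂ v (g (p 1)) * inner ℂ (g (p 1)) w)) ∧
      (∀ k l, inner ℂ (p k) (p l) = if k = l then (1 : ℂ) else 0) ∧
      (∀ k l, inner ℂ (p k) (g (p l)) = (0 : ℂ)) ∧
      (∀ l, ∃ k, c l = b k) ∧ (∀ l, ∃ k, p l = b k) ∧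
      (∀ l, ∃ k, ∃ w : ℂ, ‖w‖ = 1 ∧ g (p l) = w • b k) := by
  have hs2 : s ^ 2 = 1 := perm_pow_eq_one hz h (n := 2) (fun x => h2 x)
  obtain ⟨e, e0, e1, e2, e4⟩ := exists_normal s hs2 hf
  have g0 : g (b (e 0)) = b (e 0) := by rw [h, hone _ e0, e0, one_smul]
  have g1 : g (b (e 1)) = b (e 1) := by rw [h, hone _ e1, e1, one_smul]
  have g2 : g (b (e 2)) = z (e 2) • b (e 3) := by rw [h, e2]
  have g4 : g (b (e 4)) = z (e 4) • b (e 5) := by rw [h, e4]
  have hzz : ∀ k, z k * (starRingEnd ℂ) (z k) = 1 := by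
    intro k
    rw [mul_conj, normSq_eq_norm_sq, hz]; norm_num
  refine ⟨fun l => if l = 0 then b (e 0) else b (e 1), fun l => if l = 0 then b (e 2) else b (e 4),
    ?_, ?_, ?_, ?_, ?_, ?_, ?_⟩
  · intro l
    fin_cases l
    · simpa only [Fin.zero_eta, Fin.isValue, ↓reduceIte] using g0
    · simpa only [Fin.mk_one, Fin.isValue, one_ne_zero, ↓reduceIte] using g1
  · intro v w
    have hp := b.sum_inner_mul_inner v w
    rw [← Equiv.sum_comp e, Fin.sum_univ_six] at hp
    simp only [if_true, Fin.isValue, one_ne_zero, if_false]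
    rw [g2, g4, inner_smul_right, inner_smul_left, inner_smul_right, inner_smul_left, ← hp]
    linear_combination (- inner ℂ v (b (e 3)) * inner ℂ (b (e 3)) w) * hzz (e 2)
      + (- inner ℂ v (b (e 5)) * inner ℂ (b (e 5)) w) * hzz (e 4)
  · intro k l
    fin_cases k <;> fin_cases l <;> simp [b.norm_eq_one]
  · intro k l
    fin_cases k <;> fin_cases l <;>
      simp only [Fin.zero_eta, Fin.mk_one, Fin.isValue, if_true, one_ne_zero, if_false] <;>
      first
      | rw [g2, inner_smul_right, inner_basis, if_neg (by simp), mul_zero]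
      | rw [g4, inner_smul_right, inner_basis, if_neg (by simp), mul_zero]
  · intro l
    fin_cases l
    · exact ⟨e 0, by simp only [Fin.zero_eta, Fin.isValue, ↓reduceIte]⟩
    · exact ⟨e 1, by simp only [Fin.mk_one, Fin.isValue, one_ne_zero, ↓reduceIte]⟩
  · intro l
    fin_cases l
    · exact ⟨e 2, by simp⟩
    · exact ⟨e 4, by simp⟩
  · intro l
    fin_cases l
    · exact ⟨e 3, z (e 2), hz _, by simpa using g2⟩
    · exact ⟨e 5, z (e 4), hz _, by simpa using g4⟩

/-- The vector level contradiction. -/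
theorem order2_vectors {g : H →ₗ[ℂ] H} (hg : ∀ x y, inner ℂ (g x) (g y) = inner ℂ x y)
    (h2 : ∀ x, g (g x) = x) (c p : Fin 4 → Fin 2 → H) (gc : ∀ m l, g (c m l) = c m l)
    (par : ∀ (m : Fin 4) (v w : H), (inner ℂ v w : ℂ) = inner ℂ v (c m 0) * inner ℂ (c m 0) w
        + inner ℂ v (c m 1) * inner ℂ (c m 1) w
        + (inner ℂ v (p m 0) * inner ℂ (p m 0) w + inner ℂ v (g (p m 0)) * inner ℂ (g (p m 0)) w)
        + (inner ℂ v (p m 1) * inner ℂ (p m 1) w + inner ℂ v (g (p m 1)) * inner ℂ (g (p m 1)) w))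
    (hpp : ∀ m k l, inner ℂ (p m k) (p m l) = if k = l then (1 : ℂ) else 0)
    (hpg : ∀ m k l, inner ℂ (p m k) (g (p m l)) = (0 : ℂ))
    (ncp : ∀ m n, m ≠ n → ∀ k l, ‖(inner ℂ (c m k) (p n l) : ℂ)‖ ^ 2 = 1 / 6)
    (npp : ∀ m n, m ≠ n → ∀ k l, ‖(inner ℂ (p m k) (p n l) : ℂ)‖ ^ 2 = 1 / 6)
    (npg : ∀ m n, m ≠ n → ∀ k l, ‖(inner ℂ (p m k) (g (p n l)) : ℂ)‖ ^ 2 = 1 / 6) : False := by
  have hsy := inv_symm hg h2
  set X : Fin 4 → Fin 2 → H := fun m a => p m a + g (p m a) with hX
  set Y : Fin 4 → Fin 2 → H := fun m a => p m a - g (p m a) with hY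
  have gX : ∀ m a, g (X m a) = X m a := by
    intro m a
    simp only [hX, map_add, h2]
    exact add_comm _ _
  have gY : ∀ m a, g (Y m a) = - Y m a := by
    intro m a
    simp only [hY, map_sub, h2]
    rw [neg_sub]
  have UX : ∀ i a j b, (inner ℂ (X i a) (X j b) : ℂ) / 2
      = inner ℂ (p i a) (p j b) + inner ℂ (p i a) (g (p j b)) := by
    intro i a j b
    simp only [hX, inner_add_left, inner_add_right]
    rw [hg, hsy]
    ring
  have WY : ∀ i a j b, (inner ℂ (Y i a) (Y j b) : ℂ) / 2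
      = inner ℂ (p i a) (p j b) - inner ℂ (p i a) (g (p j b)) := by
    intro i a j b
    simp only [hY, inner_sub_left, inner_sub_right]
    rw [hg, hsy]
    ring
  have TX : ∀ k l j b, (inner ℂ (c k l) (X j b) : ℂ) = 2 * inner ℂ (c k l) (p j b) := by
    intro k l j b
    simp only [hX, inner_add_right]
    have : (inner ℂ (c k l) (g (p j b)) : ℂ) = inner ℂ (c k l) (p j b) := by
      rw [← hsy, gc]
    rw [this]; ring
  have nsq : ∀ w : ℂ, normSq w = ‖w‖ ^ 2 := fun w => normSq_eq_norm_sq w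
  refine order2_core (fun i a j b => (inner ℂ (X i a) (X j b) : ℂ) / 2)
    (fun i a j b => (inner ℂ (Y i a) (Y j b) : ℂ) / 2) (fun k l j b => inner ℂ (c k l) (X j b))
    ?_ ?_ ?_ ?_ ?_ ?_ ?_ ?_ ?_ ?_
  · intro i a j b
    rw [map_div₀, inner_conj_symm, map_ofNat]
  · intro i a j b
    rw [map_div₀, inner_conj_symm, map_ofNat]
  · intro i a b hab
    rw [UX, hpp, hpg, if_neg hab, add_zero]
  · intro i a
    rw [UX, hpp, hpg, if_pos rfl, add_zero]
  · intro i a
    rw [WY, hpp, hpg, if_pos rfl, sub_zero]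
  · intro i a j b k
    have h := par k (Y i a) (Y j b)
    have z1 : ∀ l, (inner ℂ (Y i a) (c k l) : ℂ) = 0 := by
      intro l
      have := hg (Y i a) (c k l)
      rw [gY, gc, inner_neg_left] at this
      linear_combination (-1 / 2) * this
    have z2 : ∀ l, (inner ℂ (Y i a) (g (p k l)) : ℂ) = - inner ℂ (Y i a) (p k l) := by
      intro l
      rw [← hsy, gY, inner_neg_left]
    have z3 : ∀ l, (inner ℂ (g (p k l)) (Y j b) : ℂ) = - inner ℂ (p k l) (Y j b) := by
      intro l
      rw [hsy, gY, inner_neg_right]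
    have z4 : ∀ l, (inner ℂ (Y i a) (Y k l) : ℂ) = 2 * inner ℂ (Y i a) (p k l) := by
      intro l
      conv_lhs => rw [hY]
      simp only [inner_sub_right]
      rw [z2]; ring
    have z5 : ∀ l, (inner ℂ (Y k l) (Y j b) : ℂ) = 2 * inner ℂ (p k l) (Y j b) := by
      intro l
      conv_lhs => rw [hY]
      simp only [inner_sub_left]
      rw [z3]; ring
    rw [z1, z1, z2, z2, z3, z3] at h
    rw [z4, z4, z5, z5]
    linear_combination (1 / 2) * h
  · intro i a j b k
    have h := par k (X i a) (X j b)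
    have z2 : ∀ l, (inner ℂ (X i a) (g (p k l)) : ℂ) = inner ℂ (X i a) (p k l) := by
      intro l
      rw [← hsy, gX]
    have z3 : ∀ l, (inner ℂ (g (p k l)) (X j b) : ℂ) = inner ℂ (p k l) (X j b) := by
      intro l
      rw [hsy, gX]
    have z4 : ∀ l, (inner ℂ (X i a) (X k l) : ℂ) = 2 * inner ℂ (X i a) (p k l) := by
      intro l
      conv_lhs => rw [hX]
      simp only [inner_add_right]
      rw [z2]; ring
    have z5 : ∀ l, (inner ℂ (X k l) (X j b) : ℂ) = 2 * inner ℂ (p k l) (X j b) := by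
      intro l
      conv_lhs => rw [hX]
      simp only [inner_add_left]
      rw [z3]; ring
    rw [z2, z2, z3, z3] at h
    rw [z4, z4, z5, z5, inner_conj_symm, inner_conj_symm]
    linear_combination (1 / 2) * h
  · intro k l j b hkj
    rw [TX, normSq_mul, nsq (inner ℂ (c k l) (p j b)), ncp k j hkj]
    norm_num
  · intro i a j b hij
    rw [UX, WY, normSq_add, normSq_sub, nsq, nsq, npp i j hij, npg i j hij]
    norm_num
  · intro i a j b hij
    rw [UX, WY]
    have e1 : normSq (inner ℂ (p i a) (p j b)) = 1 / 6 := by rw [nsq, npp i j hij]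
    have e2 : normSq (inner ℂ (p i a) (g (p j b))) = 1 / 6 := by rw [nsq, npg i j hij]
    set A : ℂ := inner ℂ (p i a) (p j b)
    set B : ℂ := inner ℂ (p i a) (g (p j b))
    have : ((A + B) * (starRingEnd ℂ) (A - B)).re = normSq A - normSq B := by
      rw [mul_re, conj_re, conj_im, add_re, add_im, sub_re, sub_im, normSq_apply, normSq_apply]
      ring
    rw [this, e1, e2]
    norm_num

theorem order2_aux {B : Fin 4 → OrthonormalBasis (Fin 6) ℂ H} (hB : PairwiseMUB B)
    (g : H →ₗ[ℂ] H) (hg : ∀ x y, inner ℂ (g x) (g y) = inner ℂ x y) (hp : PreservesBases B g)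
    (h2 : ∀ x, g (g x) = x) (i j : Fin 4) (hij : i ≠ j)
    (hi : ∃ k, g (B i k) = B i k) (hj : ∃ k, g (B j k) = B j k) : ∃ z : ℂ, ∀ x, g x = z • x := by
  have hsy := inv_symm hg h2
  choose s z hz hs using fun i => exists_perm (B i) g hg (hp i)
  obtain ⟨ki, hki⟩ := hi
  obtain ⟨kj, hkj⟩ := hj
  have hone : ∀ m k, s m k = k → z m k = 1 := by
    intro m k hk
    have e : g (B m k) = z m k • B m k := by rw [hs, hk]
    by_cases hm : m = i
    · subst hm
      exact same_eigenvalue hB hg hij e (w := 1) (by rw [one_smul]; exact hkj)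
    · exact same_eigenvalue hB hg hm e (w := 1) (by rw [one_smul]; exact hki)
  have hcard : ∀ m, (((Finset.univ.filter (fun k => s m k = k)).card : ℕ) : ℂ)
      = LinearMap.trace ℂ H g := by
    intro m
    rw [LinearMap.trace_eq_sum_inner g (B m), Finset.card_filter]
    push_cast
    apply Finset.sum_congr rfl
    intro k _
    rw [hs, inner_smul_right, inner_basis]
    by_cases hk : s m k = k
    · rw [if_pos hk, if_pos hk.symm, hone m k hk, mul_one]
    · rw [if_neg hk, if_neg (fun h => hk h.symm), mul_zero]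
  have hcard0 : ∀ m n, (Finset.univ.filter (fun k => s m k = k)).card
      = (Finset.univ.filter (fun k => s n k = k)).card := by
    intro m n
    have := (hcard m).trans (hcard n).symm
    exact_mod_cast this
  by_cases hall : ∀ k, s 0 k = k
  · refine ⟨1, fun x => ?_⟩
    have h1 : g = LinearMap.id := by
      apply (B 0).toBasis.ext
      intro k
      simp [hs, hall, hone 0 k (hall k)]
    rw [h1]; simp
  · exfalso
    push Not at hall
    obtain ⟨k0, hk0⟩ := hall
    set f := (Finset.univ.filter (fun k => s 1 k = k)).card with hf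
    have hfpos : 0 < f := by
      rw [hf, hcard0 1 i]
      apply Finset.card_pos.2
      refine ⟨ki, ?_⟩
      rw [Finset.mem_filter]
      refine ⟨Finset.mem_univ _, ?_⟩
      exact (fixed_iff (hz i) (hs i) ki).2 ⟨1, by rw [one_smul]; exact hki⟩
    have : Fact (Nat.Prime 2) := ⟨Nat.prime_two⟩
    have hs2 : ∀ m, s m ^ 2 = 1 := fun m => perm_pow_eq_one (hz m) (hs m) (n := 2) (fun x => h2 x)
    have hmod := card_fixed_mod (s 1) 2 (hs2 1)
    rw [← hf] at hmod
    -- bound on f
    set v := B 0 k0 + g (B 0 k0) with hv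
    have hv2 : (inner ℂ v v : ℂ) = 2 := by
      have e1 : (inner ℂ (B 0 k0) (g (B 0 k0)) : ℂ) = 0 := by
        rw [hs, inner_smul_right, inner_basis, if_neg (fun h => hk0 h.symm), mul_zero]
      have e2 : (inner ℂ (B 0 k0) (B 0 k0) : ℂ) = 1 := by rw [inner_basis, if_pos rfl]
      rw [hv, inner_add_left, inner_add_right, inner_add_right, hg, hsy, e1, e2]
      norm_num
    have hvn : ‖v‖ ^ 2 = 2 := by
      have h := congrArg Complex.re hv2
      have h' := inner_self_eq_norm_sq (𝕜 := ℂ) v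
      rw [← h']
      simpa using h
    have hbes := (B 1).sum_sq_norm_inner_right v
    rw [hvn] at hbes
    have hsub : ∑ k ∈ Finset.univ.filter (fun k => s 1 k = k), ‖(inner ℂ (B 1 k) v : ℂ)‖ ^ 2
        ≤ 2 := by
      rw [← hbes]
      exact Finset.sum_le_sum_of_subset_of_nonneg (Finset.filter_subset _ _)
        (fun k _ _ => by (clear * -; positivity))
    have hterm : ∀ k ∈ Finset.univ.filter (fun k => s 1 k = k),
        ‖(inner ℂ (B 1 k) v : ℂ)‖ ^ 2 = 2 / 3 := by
      intro k hk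
      have hk' : s 1 k = k := (Finset.mem_filter.1 hk).2
      have gk : g (B 1 k) = B 1 k := by rw [hs, hk', hone 1 k hk', one_smul]
      have : (inner ℂ (B 1 k) v : ℂ) = 2 * inner ℂ (B 1 k) (B 0 k0) := by
        rw [hv, inner_add_right, ← hsy, gk]; ring
      rw [this, norm_mul, mul_pow, hB 1 0 (by decide)]
      norm_num
    rw [Finset.sum_congr rfl hterm, Finset.sum_const, nsmul_eq_mul, ← hf] at hsub
    have hf3 : (f : ℝ) ≤ 3 := by linarith only [hsub]
    have hf3' : f ≤ 3 := by exact_mod_cast hf3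
    have hf2 : f = 2 := by
      rw [Nat.ModEq] at hmod
      omega
    have hfm : ∀ m, (Finset.univ.filter (fun k => s m k = k)).card = 2 := by
      intro m
      rw [hcard0 m 1, ← hf, hf2]
    choose c p gc par hpp hpg hcb hpb hgb using fun m =>
      normal_basis (B m) h2 (hz m) (hs m) (hfm m) (hone m)
    refine order2_vectors hg h2 c p gc par hpp hpg ?_ ?_ ?_
    · intro m n hmn k l
      obtain ⟨a, ha⟩ := hcb m k
      obtain ⟨b, hb⟩ := hpb n l
      rw [ha, hb, hB m n hmn]
    · intro m n hmn k l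
      obtain ⟨a, ha⟩ := hpb m k
      obtain ⟨b, hb⟩ := hpb n l
      rw [ha, hb, hB m n hmn]
    · intro m n hmn k l
      obtain ⟨a, ha⟩ := hpb m k
      obtain ⟨b, w, hw, hb⟩ := hgb n l
      rw [ha, hb, inner_smul_right, norm_mul, hw, one_mul, hB m n hmn]

/-- An involutive symmetry of four mutually unbiased bases of `ℂ⁶` which fixes at least one line
in each of two different bases is a scalar. -/
theorem order2 {B : Fin 4 → OrthonormalBasis (Fin 6) ℂ H} (hB : PairwiseMUB B)
    (g : H →ₗ[ℂ] H) (hg : ∀ x y, inner ℂ (g x) (g y) = inner ℂ x y) (hp : PreservesBases B g)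
    (h2 : ∀ x, g (g x) = x) (i j : Fin 4) (hij : i ≠ j)
    (hi : ∃ k, ∃ z : ℂ, g (B i k) = z • B i k) (hj : ∃ k, ∃ z : ℂ, g (B j k) = z • B j k) :
    ∃ z : ℂ, ∀ x, g x = z • x := by
  obtain ⟨ki, a, hi⟩ := hi
  obtain ⟨kj, a', hj⟩ := hj
  have haa : a = a' := same_eigenvalue hB hg hij hi hj
  subst haa
  have hne : B i ki ≠ 0 := by
    intro h0
    have := (B i).norm_eq_one ki
    rw [h0, norm_zero] at this
    norm_num at this
  have ha2 : a * a = 1 := by
    have h := h2 (B i ki)
    rw [hi, map_smul, hi, smul_smul] at h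
    have h' : (a * a - 1) • B i ki = 0 := by rw [sub_smul, h, one_smul, sub_self]
    rcases smul_eq_zero.1 h' with h3 | h3
    · linear_combination h3
    · exact absurd h3 hne
  have han : (starRingEnd ℂ) a * a = 1 := by
    have h1 := isom_norm hg (B i ki)
    rw [hi, norm_smul, (B i).norm_eq_one, mul_one] at h1
    rw [mul_comm, mul_conj, normSq_eq_norm_sq, h1]; norm_num
  obtain ⟨w, hw⟩ := order2_aux hB (a • g) (fun x y => by
      rw [LinearMap.smul_apply, LinearMap.smul_apply, inner_smul_left, inner_smul_right, hg,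
        ← mul_assoc, han, one_mul])
    (fun m k => by
      obtain ⟨l, u, hl⟩ := hp m k
      exact ⟨l, a * u, by rw [LinearMap.smul_apply, hl, smul_smul]⟩)
    (fun x => by
      rw [LinearMap.smul_apply, LinearMap.smul_apply, map_smul, smul_smul, ha2, one_smul, h2])
    i j hij ⟨ki, by rw [LinearMap.smul_apply, hi, smul_smul, ha2, one_smul]⟩
    ⟨kj, by rw [LinearMap.smul_apply, hj, smul_smul, ha2, one_smul]⟩
  refine ⟨a * w, fun x => ?_⟩
  rw [mul_smul, ← hw x, LinearMap.smul_apply, smul_smul, ha2, one_smul]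

end Vale.Agent.P355
end
end

section

section

/-! Assembly: symmetries of four mutually unbiased bases of `ℂ⁶`. -/

namespace Vale.Agent.P355

open Complex

/-- `g` is a symmetry: a linear isometry preserving each of the four bases. -/
def IsSym (B : Fin 4 → OrthonormalBasis (Fin 6) ℂ H) (g : H →ₗ[ℂ] H) : Prop :=
  (∀ x y, inner ℂ (g x) (g y) = inner ℂ x y) ∧ PreservesBases B g

/-- `g` is a multiple of the identity -/
def IsScalar (g : H →ₗ[ℂ] H) : Prop := ∃ z : ℂ, ∀ x, g x = z • x

variable {B : Fin 4 → OrthonormalBasis (Fin 6) ℂ H} {g h : H →ₗ[ℂ] H}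

theorem IsSym.comp (hg : IsSym B g) (hh : IsSym B h) : IsSym B (g * h) := by
  refine ⟨fun x y => ?_, fun i k => ?_⟩
  · rw [Module.End.mul_apply, Module.End.mul_apply, hg.1, hh.1]
  · obtain ⟨l, z, hz⟩ := hh.2 i k
    obtain ⟨l', z', hz'⟩ := hg.2 i l
    refine ⟨l', z * z', ?_⟩
    rw [Module.End.mul_apply, hz, map_smul, hz', smul_smul]

theorem IsSym.one : IsSym B (1 : H →ₗ[ℂ] H) :=
  ⟨fun _ _ => rfl, fun i k => ⟨k, 1, by simp⟩⟩

theorem IsSym.pow (hg : IsSym B g) (n : ℕ) : IsSym B (g ^ n) := by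
  induction n with
  | zero => simpa using IsSym.one
  | succ n ih => rw [pow_succ]; exact ih.comp hg

theorem IsSym.smul (hg : IsSym B g) {c : ℂ} (hc : ‖c‖ = 1) : IsSym B (c • g) := by
  refine ⟨fun x y => ?_, fun i k => ?_⟩
  · rw [LinearMap.smul_apply, LinearMap.smul_apply, inner_smul_left, inner_smul_right, hg.1,
      ← mul_assoc, mul_comm ((starRingEnd ℂ) c) c, mul_conj, normSq_eq_norm_sq, hc]
    norm_num
  · obtain ⟨l, z, hz⟩ := hg.2 i k
    exact ⟨l, c * z, by rw [LinearMap.smul_apply, hz, smul_smul]⟩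

/-- the scalar of a scalar isometry has norm one -/
theorem norm_scalar (hg : IsSym B g) {c : ℂ} (hc : ∀ x, g x = c • x) : ‖c‖ = 1 := by
  have h := isom_norm hg.1 (B 0 0)
  rw [hc, norm_smul, (B 0).norm_eq_one, mul_one] at h
  exact h

/-- `g` is scalar if it is diagonal in one basis and preserves a line of another one. -/
theorem scalar_of_diag (hB : PairwiseMUB B) (hg : IsSym B g) {i j : Fin 4} (hij : i ≠ j)
    (hi : ∀ k, ∃ z : ℂ, g (B i k) = z • B i k) (hj : ∃ k, ∃ z : ℂ, g (B j k) = z • B j k) :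
    IsScalar g := by
  obtain ⟨l, w, hw⟩ := hj
  refine ⟨w, ?_⟩
  have hall' : ∀ k, g (B i k) = w • B i k := by
    intro k
    obtain ⟨c, hc⟩ := hi k
    rw [hc, same_eigenvalue hB hg.1 hij hc hw]
  have heq : g = w • LinearMap.id := by
    apply (B i).toBasis.ext
    intro k
    simp [hall' k]
  intro x
  rw [heq]
  simp

theorem exists_root (n : ℕ) (hn : n ≠ 0) (c : ℂ) (hc : ‖c‖ = 1) :
    ∃ γ : ℂ, γ ^ n * c = 1 ∧ ‖γ‖ = 1 := by
  have hc0 : c ≠ 0 := by
    intro h; rw [h, norm_zero] at hc; norm_num at hc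
  obtain ⟨γ, hγ⟩ := IsAlgClosed.exists_pow_nat_eq (c⁻¹) (Nat.pos_of_ne_zero hn)
  refine ⟨γ, by rw [hγ, inv_mul_cancel₀ hc0], ?_⟩
  have h1 : ‖γ‖ ^ n = 1 := by
    rw [← norm_pow, hγ, norm_inv, hc, inv_one]
  exact (pow_eq_one_iff_of_nonneg (norm_nonneg _) hn).1 h1

theorem perm_pow_sixty (σ : Equiv.Perm (Fin 6)) : σ ^ 60 = 1 := by
  rw [← orderOf_dvd_iff_pow_eq_one, ← Equiv.Perm.lcm_cycleType]
  apply Multiset.lcm_dvd.2
  intro n hn
  have h1 := Equiv.Perm.le_card_support_of_mem_cycleType hn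
  have h2 : σ.support.card ≤ 6 := by
    have := Finset.card_le_univ σ.support
    rwa [Fintype.card_fin] at this
  have h3 := Equiv.Perm.two_le_of_mem_cycleType hn
  have h4 : n ≤ 6 := le_trans h1 h2
  interval_cases n <;> decide

theorem perm_four (σ : Equiv.Perm (Fin 6)) (h4 : ∀ k, σ (σ (σ (σ k))) = k) :
    ∃ k, σ (σ k) = k := by
  by_contra hc
  push Not at hc
  have inj := σ.injective
  have h1 : ∀ k, σ k ≠ k := fun k h => hc k (by rw [h, h])
  have h3 : ∀ k, σ (σ (σ k)) ≠ k := by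
    intro k h
    apply h1 k
    have := h4 k
    rw [h] at this
    exact this
  have hcard : ∀ k, ({k, σ k, σ (σ k), σ (σ (σ k))} : Finset (Fin 6)).card = 4 := by
    intro k
    rw [Finset.card_insert_of_notMem, Finset.card_insert_of_notMem,
      Finset.card_insert_of_notMem, Finset.card_singleton]
    · simp only [Finset.mem_singleton]
      exact fun h => h1 _ (inj (inj h)).symm
    · simp only [Finset.mem_insert, Finset.mem_singleton, not_or]
      exact ⟨fun h => h1 _ (inj h).symm, fun h => hc _ (inj h).symm⟩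
    · simp only [Finset.mem_insert, Finset.mem_singleton, not_or]
      exact ⟨fun h => h1 _ h.symm, fun h => hc _ h.symm, fun h => h3 _ h.symm⟩
  obtain ⟨y, hy⟩ : ∃ y, y ∉ ({0, σ 0, σ (σ 0), σ (σ (σ 0))} : Finset (Fin 6)) := by
    by_contra hcon
    push Not at hcon
    have h2 : (Finset.univ : Finset (Fin 6)) ⊆ _ := fun x _ => hcon x
    have := Finset.card_le_card h2
    rw [hcard, Finset.card_univ, Fintype.card_fin] at this
    omega
  simp only [Finset.mem_insert, Finset.mem_singleton, not_or] at hy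
  obtain ⟨y0, y1, y2, y3⟩ := hy
  have hdisj : Disjoint ({0, σ 0, σ (σ 0), σ (σ (σ 0))} : Finset (Fin 6))
      {y, σ y, σ (σ y), σ (σ (σ y))} := by
    rw [Finset.disjoint_left]
    intro a ha hb
    simp only [Finset.mem_insert, Finset.mem_singleton] at ha hb
    have e0 := h4 0
    have ey := h4 y
    rcases hb with hb | hb | hb | hb
    · rw [hb] at ha
      rcases ha with ha | ha | ha | ha
      · exact y0 ha
      · exact y1 ha
      · exact y2 ha
      · exact y3 ha
    · rw [hb] at ha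
      have ha' : y = σ (σ (σ 0)) ∨ y = 0 ∨ y = σ 0 ∨ y = σ (σ 0) := by
        rcases ha with ha | ha | ha | ha
        · left; rw [← ey, ha]
        · right; left; exact inj ha
        · right; right; left; exact inj ha
        · right; right; right; exact inj ha
      (clear * - ha ha' y3 y0 y1 y2; tauto)
    · rw [hb] at ha
      have ha' : y = σ (σ 0) ∨ y = σ (σ (σ 0)) ∨ y = 0 ∨ y = σ 0 := by
        rcases ha with ha | ha | ha | ha
        · left; rw [← ey, ha]
        · right; left; rw [← ey, ha]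
        · right; right; left; exact inj (inj ha)
        · right; right; right; exact inj (inj ha)
      (clear * - ha ha' y2 y3 y0 y1; tauto)
    · rw [hb] at ha
      have ha' : y = σ 0 ∨ y = σ (σ 0) ∨ y = σ (σ (σ 0)) ∨ y = 0 := by
        rcases ha with ha | ha | ha | ha
        · left; rw [← ey, ha]
        · right; left; rw [← ey, ha]
        · right; right; left; rw [← ey, ha]
        · right; right; right; exact inj (inj (inj ha))
      (clear * - ha ha' y1 y2 y3 y0; tauto)
  have hun := Finset.card_union_of_disjoint hdisj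
  rw [hcard, hcard] at hun
  have hle := Finset.card_le_univ ({0, σ 0, σ (σ 0), σ (σ (σ 0))} ∪
      ({y, σ y, σ (σ y), σ (σ (σ y))} : Finset (Fin 6)))
  rw [hun, Fintype.card_fin] at hle
  omega

/-- The 60th power of a symmetry is scalar. -/
theorem pow_sixty_scalar (hB : PairwiseMUB B) (hg : IsSym B g) : IsScalar (g ^ 60) := by
  have hfix : ∀ i k, ∃ z : ℂ, (g ^ 60) (B i k) = z • B i k := by
    intro i k
    obtain ⟨σ, c, hc, hσ⟩ := exists_perm (B i) g hg.1 (hg.2 i)
    obtain ⟨d, -, e⟩ := iter_perm hc hσ 60 k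
    rw [perm_pow_sixty] at e
    exact ⟨d, e⟩
  exact scalar_of_diag hB (hg.pow 60) (i := 0) (j := 1) (by decide) (hfix 0) ⟨0, hfix 1 0⟩

/-- Reduction: if `g ^ n` is scalar then `g` is a multiple of a symmetry with `g ^ n = 1`. -/
theorem exists_scaled (hg : IsSym B g) (n : ℕ) (hn : n ≠ 0) (h : IsScalar (g ^ n)) :
    ∃ γ : ℂ, ‖γ‖ = 1 ∧ ∀ x, ((γ • g) ^ n) x = x := by
  obtain ⟨c, hc⟩ := h
  have hc1 : ‖c‖ = 1 := norm_scalar (hg.pow n) hc
  obtain ⟨γ, h1, h2⟩ := exists_root n hn c hc1
  refine ⟨γ, h2, fun x => ?_⟩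
  rw [smul_pow, LinearMap.smul_apply, hc, smul_smul, h1, one_smul]

theorem scalar_of_smul {γ : ℂ} (hγ : ‖γ‖ = 1) (h : IsScalar (γ • g)) : IsScalar g := by
  obtain ⟨c, hc⟩ := h
  have h0 : γ ≠ 0 := by
    intro h; rw [h, norm_zero] at hγ; norm_num at hγ
  refine ⟨γ⁻¹ * c, fun x => ?_⟩
  have := hc x
  rw [LinearMap.smul_apply] at this
  rw [← smul_smul, ← this, smul_smul, inv_mul_cancel₀ h0, one_smul]

theorem pow_twenty_scalar (hB : PairwiseMUB B) (hg : IsSym B g) : IsScalar (g ^ 20) := by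
  have h60 : IsScalar ((g ^ 20) ^ 3) := by rw [← pow_mul]; exact pow_sixty_scalar hB hg
  obtain ⟨γ, h1, h2⟩ := exists_scaled (hg.pow 20) 3 (by norm_num) h60
  have hs := (hg.pow 20).smul h1
  apply scalar_of_smul h1
  apply order3 hB _ hs.1 hs.2
  intro x
  have := h2 x
  simpa only [pow_succ, pow_zero, one_mul, Module.End.mul_apply] using this

theorem pow_four_scalar (hB : PairwiseMUB B) (hg : IsSym B g) : IsScalar (g ^ 4) := by
  have h20 : IsScalar ((g ^ 4) ^ 5) := by rw [← pow_mul]; exact pow_twenty_scalar hB hg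
  obtain ⟨γ, h1, h2⟩ := exists_scaled (hg.pow 4) 5 (by norm_num) h20
  have hs := (hg.pow 4).smul h1
  apply scalar_of_smul h1
  apply order5 hB _ hs.1 hs.2
  intro x
  have := h2 x
  simpa only [pow_succ, pow_zero, one_mul, Module.End.mul_apply] using this

theorem sq_scalar (hB : PairwiseMUB B) (hg : IsSym B g) : IsScalar (g ^ 2) := by
  have h4 := pow_four_scalar hB hg
  obtain ⟨γ, h1, h2⟩ := exists_scaled hg 4 (by norm_num) h4
  have hs := hg.smul h1
  set s := γ • g with hsdef
  have key : IsScalar (s ^ 2) := by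
    have hs2 := hs.pow 2
    have hsq : ∀ x, (s ^ 2) ((s ^ 2) x) = x := by
      intro x
      have := h2 x
      have e : s ^ 4 = s ^ 2 * s ^ 2 := by rw [← pow_add]
      rw [e] at this
      exact this
    have hfix : ∀ i, ∃ k, ∃ z : ℂ, (s ^ 2) (B i k) = z • B i k := by
      intro i
      obtain ⟨σ, c, hc, hσ⟩ := exists_perm (B i) s hs.1 (hs.2 i)
      have hσ4 := perm_pow_eq_one hc hσ (n := 4) h2
      obtain ⟨k, hk⟩ := perm_four σ (fun k => by
        have := congrArg (fun τ : Equiv.Perm (Fin 6) => τ k) hσ4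
        simpa only [pow_succ, pow_zero, one_mul, Equiv.Perm.coe_mul, Function.comp_apply, Equiv.Perm.coe_one,     id_eq] using this)
      obtain ⟨d, -, e⟩ := iter_perm hc hσ 2 k
      refine ⟨k, d, ?_⟩
      have : (σ ^ 2) k = k := by rw [pow_two, Equiv.Perm.mul_apply]; exact hk
      rw [this] at e
      exact e
    exact order2 hB (s ^ 2) hs2.1 hs2.2 hsq 0 1 (by decide) (hfix 0) (hfix 1)
  have e : s ^ 2 = γ ^ 2 • g ^ 2 := by rw [hsdef, smul_pow]
  rw [e] at key
  exact scalar_of_smul (by rw [norm_pow, h1, one_pow]) key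

end Vale.Agent.P355
end
end

section

section

/-! The symmetry group of four mutually unbiased bases of `ℂ⁶`. -/

namespace Vale.Agent.P355

open Complex

variable {B : Fin 4 → OrthonormalBasis (Fin 6) ℂ H} {g h : H →ₗ[ℂ] H}

/-- rescaling a symmetry to an involution -/
theorem exists_involution (hB : PairwiseMUB B) (hg : IsSym B g) :
    ∃ γ : ℂ, ‖γ‖ = 1 ∧ ∀ x, (γ • g) ((γ • g) x) = x := by
  obtain ⟨γ, h1, h2⟩ := exists_scaled hg 2 (by norm_num) (sq_scalar hB hg)
  refine ⟨γ, h1, fun x => ?_⟩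
  have := h2 x
  rw [pow_two, Module.End.mul_apply] at this
  exact this

end Vale.Agent.P355
end
end

section

section

/-! Two unitary `3 × 3` matrices `X`, `Y` with `|X a b|² + |Y a b|² = 2/3` and
`Re (X a b * conj (Y a b)) = 0` for all entries: the number `det Y * conj (det X)` is purely
imaginary. -/

namespace Vale.Agent.P355

open Complex

theorem im_trans {u v w : ℂ} (hw : w * (starRingEnd ℂ) w = 1)
    (h1 : (u * (starRingEnd ℂ) w).im = 0) (h2 : (v * (starRingEnd ℂ) w).im = 0) :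
    (u * (starRingEnd ℂ) v).im = 0 := by
  have e : u * (starRingEnd ℂ) v
      = (u * (starRingEnd ℂ) w) * (starRingEnd ℂ) (v * (starRingEnd ℂ) w) := by
    rw [map_mul, conj_conj]
    linear_combination (- u * (starRingEnd ℂ) v) * hw
  rw [e, mul_im, conj_re, conj_im, h1, h2]
  ring

theorem im_symm {u v : ℂ} (h : (u * (starRingEnd ℂ) v).im = 0) :
    (v * (starRingEnd ℂ) u).im = 0 := by
  have e : v * (starRingEnd ℂ) u = (starRingEnd ℂ) (u * (starRingEnd ℂ) v) := by
    rw [map_mul, conj_conj, mul_comm]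
  rw [e, conj_im, h, neg_zero]

/-- two real relations between three unimodular numbers -/
theorem rel_dichotomy {ζ : Fin 3 → ℂ} (hζ : ∀ b, ζ b * (starRingEnd ℂ) (ζ b) = 1)
    {p q : Fin 3 → ℝ} (hp : (p 0 : ℂ) * ζ 0 + p 1 * ζ 1 + p 2 * ζ 2 = 0)
    (hq : (q 0 : ℂ) * ζ 0 + q 1 * ζ 1 + q 2 * ζ 2 = 0)
    (hnc : ¬ ∀ b b', (ζ b * (starRingEnd ℂ) (ζ b')).im = 0) :
    ∀ b b', p b * q b' = p b' * q b := by
  -- elimination
  have key : ∀ (z1 z2 : ℂ) (r1 r2 : ℝ), (r1 : ℂ) * z1 + r2 * z2 = 0 →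
      r1 * (z1 * (starRingEnd ℂ) z2).im = 0 := by
    intro z1 z2 r1 r2 h
    have e : ((r1 : ℂ) * z1 + r2 * z2) * (starRingEnd ℂ) z2 = 0 := by rw [h, zero_mul]
    have e2 : ((r1 : ℂ) * (z1 * (starRingEnd ℂ) z2) + r2 * (normSq z2 : ℂ)) = 0 := by
      rw [← mul_conj]; linear_combination e
    have e3 := congrArg im e2
    simp only [add_im, mul_im, ofReal_re, ofReal_im, zero_mul, mul_zero, add_zero, zero_im] at e3
    rw [mul_im z1]
    exact e3
  have k01 : (p 0 * q 2 - q 0 * p 2) * (ζ 0 * (starRingEnd ℂ) (ζ 1)).im = 0 :=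
    key _ _ _ (p 1 * q 2 - q 1 * p 2) (by push_cast; linear_combination (q 2 : ℂ) * hp - (p 2 : ℂ) * hq)
  have k10 : (p 1 * q 2 - q 1 * p 2) * (ζ 1 * (starRingEnd ℂ) (ζ 0)).im = 0 :=
    key _ _ _ (p 0 * q 2 - q 0 * p 2) (by push_cast; linear_combination (q 2 : ℂ) * hp - (p 2 : ℂ) * hq)
  have k02 : (p 0 * q 1 - q 0 * p 1) * (ζ 0 * (starRingEnd ℂ) (ζ 2)).im = 0 :=
    key _ _ _ (p 2 * q 1 - q 2 * p 1) (by push_cast; linear_combination (q 1 : ℂ) * hp - (p 1 : ℂ) * hq)
  have k20 : (p 2 * q 1 - q 2 * p 1) * (ζ 2 * (starRingEnd ℂ) (ζ 0)).im = 0 :=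
    key _ _ _ (p 0 * q 1 - q 0 * p 1) (by push_cast; linear_combination (q 1 : ℂ) * hp - (p 1 : ℂ) * hq)
  have k12 : (p 1 * q 0 - q 1 * p 0) * (ζ 1 * (starRingEnd ℂ) (ζ 2)).im = 0 :=
    key _ _ _ (p 2 * q 0 - q 2 * p 0) (by push_cast; linear_combination (q 0 : ℂ) * hp - (p 0 : ℂ) * hq)
  have k21 : (p 2 * q 0 - q 2 * p 0) * (ζ 2 * (starRingEnd ℂ) (ζ 1)).im = 0 :=
    key _ _ _ (p 1 * q 0 - q 1 * p 0) (by push_cast; linear_combination (q 0 : ℂ) * hp - (p 0 : ℂ) * hq)
  have self : ∀ b, (ζ b * (starRingEnd ℂ) (ζ b)).im = 0 := fun b => by rw [hζ b]; simp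
  -- all minors vanish
  have m01 : p 0 * q 1 - q 0 * p 1 = 0 ∧ p 0 * q 2 - q 0 * p 2 = 0 ∧ p 1 * q 2 - q 1 * p 2 = 0 := by
    by_cases h01 : (ζ 0 * (starRingEnd ℂ) (ζ 1)).im = 0
    · by_cases h02 : (ζ 0 * (starRingEnd ℂ) (ζ 2)).im = 0
      · exfalso
        apply hnc
        have h10 := im_symm h01
        have h20 := im_symm h02
        have h12 : (ζ 1 * (starRingEnd ℂ) (ζ 2)).im = 0 := im_trans (hζ 0) h10 h20
        have h21 := im_symm h12
        intro b b'
        fin_cases b <;> fin_cases b'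
        · exact self 0
        · exact h01
        · exact h02
        · exact h10
        · exact self 1
        · exact h12
        · exact h20
        · exact h21
        · exact self 2
      · have h20 : (ζ 2 * (starRingEnd ℂ) (ζ 0)).im ≠ 0 := fun h => h02 (im_symm h)
        by_cases h12 : (ζ 1 * (starRingEnd ℂ) (ζ 2)).im = 0
        · exact absurd (im_trans (hζ 1) (im_symm (im_symm h01)) (im_symm h12)) h02
        · have h21 : (ζ 2 * (starRingEnd ℂ) (ζ 1)).im ≠ 0 := fun h => h12 (im_symm h)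
          have a := (mul_eq_zero.1 k02).resolve_right h02
          have b := (mul_eq_zero.1 k20).resolve_right h20
          have c := (mul_eq_zero.1 k21).resolve_right h21
          exact ⟨a, by linarith only [c], by linarith only [b]⟩
    · have h10 : (ζ 1 * (starRingEnd ℂ) (ζ 0)).im ≠ 0 := fun h => h01 (im_symm h)
      have a := (mul_eq_zero.1 k01).resolve_right h01
      have b := (mul_eq_zero.1 k10).resolve_right h10
      by_cases h02 : (ζ 0 * (starRingEnd ℂ) (ζ 2)).im = 0
      · by_cases h12 : (ζ 1 * (starRingEnd ℂ) (ζ 2)).im = 0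
        · exact absurd (im_trans (hζ 2) h02 h12) h01
        · have c := (mul_eq_zero.1 k12).resolve_right h12
          exact ⟨by linarith only [c], a, b⟩
      · have c := (mul_eq_zero.1 k02).resolve_right h02
        exact ⟨c, a, b⟩
  obtain ⟨m1, m2, m3⟩ := m01
  intro b b'
  fin_cases b <;> fin_cases b' <;>
    simp only [Fin.zero_eta, Fin.mk_one, Fin.reduceFinMk, Fin.isValue] <;> linarith only [m1, m2, m3]

/-- proportional rows: the squares sum to `2/3`. -/
theorem row_compl {c c' s s' : Fin 3 → ℝ} (h : ∀ b, c b ^ 2 + s b ^ 2 = 2 / 3)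
    (h' : ∀ b, c' b ^ 2 + s' b ^ 2 = 2 / 3) (n : c 0 ^ 2 + c 1 ^ 2 + c 2 ^ 2 = 1)
    (n' : c' 0 ^ 2 + c' 1 ^ 2 + c' 2 ^ 2 = 1)
    (hpq : ∀ b b', (c b * c' b) * (s b' * s' b') = (c b' * c' b') * (s b * s' b)) :
    ∀ b, c b ^ 2 + c' b ^ 2 = 2 / 3 := by
  set k : Fin 3 → ℝ := fun b => c b ^ 2 + c' b ^ 2 - 2 / 3 with hk
  have hd : ∀ b, (c b * c' b) ^ 2 - (s b * s' b) ^ 2 = 2 / 3 * k b := by
    intro b
    have e1 : s b ^ 2 = 2 / 3 - c b ^ 2 := by linarith only [h b]
    have e2 : s' b ^ 2 = 2 / 3 - c' b ^ 2 := by linarith only [h' b]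
    rw [mul_pow, mul_pow, e1, e2]
    simp only [hk]
    ring
  have hno : ∀ b b', 0 < k b → k b' < 0 → False := by
    intro b b' h1 h2
    have d1 := hd b
    have d2 := hd b'
    have e : (c b * c' b) ^ 2 * (s b' * s' b') ^ 2 = (c b' * c' b') ^ 2 * (s b * s' b) ^ 2 := by
      rw [← mul_pow, ← mul_pow, hpq b b']
    have p1 : (s b * s' b) ^ 2 < (c b * c' b) ^ 2 := by linarith only [h1, d1]
    have p2 : (c b' * c' b') ^ 2 < (s b' * s' b') ^ 2 := by linarith only [h2, d2]
    have q1 := sq_nonneg (s b * s' b)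
    have q2 := sq_nonneg (c b' * c' b')
    have r1 : (s b * s' b) ^ 2 * (c b' * c' b') ^ 2 < (c b * c' b) ^ 2 * (s b' * s' b') ^ 2 :=
      mul_lt_mul'' p1 p2 q1 q2
    linarith only [e, r1]
  have hs : k 0 + k 1 + k 2 = 0 := by simp only [hk]; linarith
  have hall : k 0 = 0 ∧ k 1 = 0 ∧ k 2 = 0 := by
    rcases lt_trichotomy (k 0) 0 with h0 | h0 | h0
    · exfalso
      have h1 : k 1 ≤ 0 := by
        by_contra hc
        exact hno 1 0 (lt_of_not_ge hc) h0
      have h2 : k 2 ≤ 0 := by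
        by_contra hc
        exact hno 2 0 (lt_of_not_ge hc) h0
      linarith only [hs, h0, h1, h2]
    · rcases lt_trichotomy (k 1) 0 with h1 | h1 | h1
      · exact (hno 2 1 (by linarith only [hs, h0, h1]) h1).elim
      · exact ⟨h0, h1, by linarith only [hs, h0, h1]⟩
      · exact (hno 1 2 h1 (by linarith only [hs, h0, h1])).elim
    · exfalso
      have h1 : 0 ≤ k 1 := by
        by_contra hc
        exact hno 0 1 h0 (lt_of_not_ge hc)
      have h2 : 0 ≤ k 2 := by
        by_contra hc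
        exact hno 0 2 h0 (lt_of_not_ge hc)
      linarith only [hs, h0, h1, h2]
  intro b
  have : k b = 0 := by
    fin_cases b
    · exact hall.1
    · exact hall.2.1
    · exact hall.2.2
  simp only [hk] at this
  linarith only [this]

/-- polar decomposition of an entry -/
theorem polar_entry {x y : ℂ} (h : normSq x + normSq y = 2 / 3)
    (hr : (x * (starRingEnd ℂ) y).re = 0) :
    ∃ (c s : ℝ) (e : ℂ), e * (starRingEnd ℂ) e = 1 ∧ x = c * e ∧ y = I * (s * e) ∧
      c ^ 2 + s ^ 2 = 2 / 3 := by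
  by_cases hx : x = 0
  · have hy : normSq y = 2 / 3 := by rw [hx, normSq_zero] at h; linarith
    have hy' : ‖y‖ ^ 2 = 2 / 3 := by rw [← normSq_eq_norm_sq]; exact hy
    have hy0 : (‖y‖ : ℂ) ≠ 0 := by
      intro h0
      have : ‖y‖ = 0 := by exact_mod_cast h0
      rw [this] at hy'
      norm_num at hy'
    have hyy : y * (starRingEnd ℂ) y = (‖y‖ : ℂ) ^ 2 := by
      rw [mul_conj, normSq_eq_norm_sq]; push_cast; ring
    refine ⟨0, ‖y‖, - I * y / ‖y‖, ?_, by rw [hx]; simp, ?_, by rw [hy']; ring⟩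
    · simp only [map_div₀, map_mul, map_neg, conj_I, conj_ofReal]
      field_simp
      linear_combination hyy - y * (starRingEnd ℂ) y * I_sq
    · field_simp
      linear_combination y * I_sq
  · have hx0 : (‖x‖ : ℂ) ≠ 0 := by
      intro h0
      have : ‖x‖ = 0 := by exact_mod_cast h0
      exact hx (norm_eq_zero.1 this)
    have hx0' : ‖x‖ ≠ 0 := fun h0 => hx (norm_eq_zero.1 h0)
    have hxx : x * (starRingEnd ℂ) x = (‖x‖ : ℂ) ^ 2 := by
      rw [mul_conj, normSq_eq_norm_sq]; push_cast; ring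
    set r : ℝ := (y * (starRingEnd ℂ) x).im with hrdef
    have hyx : y * (starRingEnd ℂ) x = I * r := by
      apply Complex.ext
      · rw [mul_re I, I_re, I_im, ofReal_im]
        have : (y * (starRingEnd ℂ) x).re = (x * (starRingEnd ℂ) y).re := by
          rw [mul_re, mul_re, conj_re, conj_im, conj_re, conj_im]; ring
        rw [this, hr]; ring
      · rw [mul_im I, I_re, I_im, ofReal_re]; ring
    refine ⟨‖x‖, r / ‖x‖, x / ‖x‖, ?_, ?_, ?_, ?_⟩
    · simp only [map_div₀, conj_ofReal]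
      field_simp
      exact hxx
    · field_simp
    · push_cast
      field_simp
      linear_combination (- y) * hxx + x * hyx
    · have hr2 : r ^ 2 = normSq y * ‖x‖ ^ 2 := by
        have e := congrArg normSq hyx
        rw [normSq_mul, normSq_mul, normSq_conj, normSq_I, normSq_ofReal, normSq_eq_norm_sq x] at e
        linarith only [e]
      rw [div_pow, hr2, mul_div_assoc, div_self (pow_ne_zero 2 hx0'), mul_one,
        ← normSq_eq_norm_sq]
      exact h

/-- Real type: `X = D O D'`, `Y = I D O' D'` with `O`, `O'` real. -/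
theorem det_real_type {X Y : Matrix (Fin 3) (Fin 3) ℂ} (u v : Fin 3 → Fin 3 → ℝ)
    (α β : Fin 3 → ℂ) (hX : ∀ a b, X a b = (u a b : ℂ) * α a * β b)
    (hY : ∀ a b, Y a b = I * ((v a b : ℂ) * α a * β b)) :
    (Y.det * (starRingEnd ℂ) X.det).re = 0 := by
  set du : ℝ := u 0 0 * u 1 1 * u 2 2 - u 0 0 * u 1 2 * u 2 1 - u 0 1 * u 1 0 * u 2 2
    + u 0 1 * u 1 2 * u 2 0 + u 0 2 * u 1 0 * u 2 1 - u 0 2 * u 1 1 * u 2 0 with hdu
  set dv : ℝ := v 0 0 * v 1 1 * v 2 2 - v 0 0 * v 1 2 * v 2 1 - v 0 1 * v 1 0 * v 2 2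
    + v 0 1 * v 1 2 * v 2 0 + v 0 2 * v 1 0 * v 2 1 - v 0 2 * v 1 1 * v 2 0 with hdv
  set w : ℂ := α 0 * α 1 * α 2 * (β 0 * β 1 * β 2) with hw
  have e1 : X.det = (du : ℂ) * w := by
    rw [Matrix.det_fin_three]
    simp only [hX, hdu, hw]
    push_cast
    ring
  have e2 : Y.det = I ^ 3 * ((dv : ℂ) * w) := by
    rw [Matrix.det_fin_three]
    simp only [hY, hdv, hw]
    push_cast
    ring
  rw [e1, e2, map_mul, conj_ofReal]
  have e3 : I ^ 3 * ((dv : ℂ) * w) * ((du : ℂ) * (starRingEnd ℂ) w)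
      = ((dv * du * normSq w : ℝ) : ℂ) * I ^ 3 := by
    push_cast
    rw [← mul_conj]
    ring
  rw [e3, I_pow_three, re_ofReal_mul]
  simp

theorem key_det {X Y : Matrix (Fin 3) (Fin 3) ℂ}
    (hX : ∀ a a', a ≠ a' → X a 0 * (starRingEnd ℂ) (X a' 0) + X a 1 * (starRingEnd ℂ) (X a' 1)
      + X a 2 * (starRingEnd ℂ) (X a' 2) = 0)
    (hY : ∀ a a', a ≠ a' → Y a 0 * (starRingEnd ℂ) (Y a' 0) + Y a 1 * (starRingEnd ℂ) (Y a' 1)
      + Y a 2 * (starRingEnd ℂ) (Y a' 2) = 0)
    (nX : ∀ a, normSq (X a 0) + normSq (X a 1) + normSq (X a 2) = 1)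
    (cX : ∀ b, normSq (X 0 b) + normSq (X 1 b) + normSq (X 2 b) = 1)
    (h1 : ∀ a b, normSq (X a b) + normSq (Y a b) = 2 / 3)
    (h2 : ∀ a b, (X a b * (starRingEnd ℂ) (Y a b)).re = 0) :
    (Y.det * (starRingEnd ℂ) X.det).re = 0 := by
  choose c s e he hx hy hcs using fun a b => polar_entry (h1 a b) (h2 a b)
  have hne : ∀ a b, normSq (e a b) = 1 := by
    intro a b
    have := he a b
    rw [mul_conj] at this
    exact_mod_cast this
  have hnx : ∀ a b, normSq (X a b) = c a b ^ 2 := by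
    intro a b
    rw [hx, normSq_mul, normSq_ofReal, hne]; ring
  simp only [hnx] at nX cX
  set ζ : Fin 3 → Fin 3 → Fin 3 → ℂ := fun a a' b => e a b * (starRingEnd ℂ) (e a' b) with hζ
  have hζ1 : ∀ a a' b, ζ a a' b * (starRingEnd ℂ) (ζ a a' b) = 1 := by
    intro a a' b
    simp only [hζ, map_mul, conj_conj]
    linear_combination (e a' b * (starRingEnd ℂ) (e a' b)) * he a b + he a' b
  have hp : ∀ a a', a ≠ a' → ((c a 0 * c a' 0 : ℝ) : ℂ) * ζ a a' 0
      + ((c a 1 * c a' 1 : ℝ) : ℂ) * ζ a a' 1 + ((c a 2 * c a' 2 : ℝ) : ℂ) * ζ a a' 2 = 0 := by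
    intro a a' haa
    have := hX a a' haa
    rw [hx a 0, hx a 1, hx a 2, hx a' 0, hx a' 1, hx a' 2] at this
    simp only [map_mul, conj_ofReal] at this
    simp only [hζ]
    push_cast
    linear_combination this
  have hq : ∀ a a', a ≠ a' → ((s a 0 * s a' 0 : ℝ) : ℂ) * ζ a a' 0
      + ((s a 1 * s a' 1 : ℝ) : ℂ) * ζ a a' 1 + ((s a 2 * s a' 2 : ℝ) : ℂ) * ζ a a' 2 = 0 := by
    intro a a' haa
    have := hY a a' haa
    rw [hy a 0, hy a 1, hy a 2, hy a' 0, hy a' 1, hy a' 2] at this
    simp only [map_mul, conj_ofReal, conj_I] at this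
    simp only [hζ]
    push_cast
    linear_combination this + (s a 0 * s a' 0 * (e a 0 * (starRingEnd ℂ) (e a' 0))
      + s a 1 * s a' 1 * (e a 1 * (starRingEnd ℂ) (e a' 1))
      + s a 2 * s a' 2 * (e a 2 * (starRingEnd ℂ) (e a' 2))) * I_sq
  have hmin : ∀ a a', a ≠ a' → ¬ (∀ b b', (ζ a a' b * (starRingEnd ℂ) (ζ a a' b')).im = 0) →
      ∀ b b', (c a b * c a' b) * (s a b' * s a' b') = (c a b' * c a' b') * (s a b * s a' b) :=
    fun a a' haa hnc => rel_dichotomy (hζ1 a a') (p := fun b => c a b * c a' b)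
      (q := fun b => s a b * s a' b) (hp a a' haa) (hq a a' haa) hnc
  have hcomp : ∀ a a', a ≠ a' → ¬ (∀ b b', (ζ a a' b * (starRingEnd ℂ) (ζ a a' b')).im = 0) →
      ∀ b, c a b ^ 2 + c a' b ^ 2 = 2 / 3 :=
    fun a a' haa hnc => row_compl (hcs a) (hcs a') (nX a) (nX a') (hmin a a' haa hnc)
  have csymm : ∀ a a', (∀ b b', (ζ a a' b * (starRingEnd ℂ) (ζ a a' b')).im = 0) →
      (∀ b b', (ζ a' a b * (starRingEnd ℂ) (ζ a' a b')).im = 0) := by
    intro a a' h b b'
    have e1 : ζ a' a b * (starRingEnd ℂ) (ζ a' a b')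
        = (starRingEnd ℂ) (ζ a a' b * (starRingEnd ℂ) (ζ a a' b')) := by
      simp only [hζ, map_mul, conj_conj]; ring
    rw [e1, conj_im, h b b', neg_zero]
  have ctrans : ∀ a a' a'', (∀ b b', (ζ a a' b * (starRingEnd ℂ) (ζ a a' b')).im = 0) →
      (∀ b b', (ζ a' a'' b * (starRingEnd ℂ) (ζ a' a'' b')).im = 0) →
      (∀ b b', (ζ a a'' b * (starRingEnd ℂ) (ζ a a'' b')).im = 0) := by
    intro a a' a'' h h' b b'
    have e1 : ζ a a'' b * (starRingEnd ℂ) (ζ a a'' b')
        = (ζ a a' b * (starRingEnd ℂ) (ζ a a' b')) * (ζ a' a'' b * (starRingEnd ℂ) (ζ a' a'' b')) := by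
      simp only [hζ, map_mul, conj_conj]
      linear_combination (-(e a b * (starRingEnd ℂ) (e a'' b) * (starRingEnd ℂ) (e a b') * e a'' b'
        * (e a' b' * (starRingEnd ℂ) (e a' b')))) * he a' b
        - (e a b * (starRingEnd ℂ) (e a'' b) * (starRingEnd ℂ) (e a b') * e a'' b') * he a' b'
    rw [e1, mul_im, h b b', h' b b']
    ring
  by_cases hA : (∀ b b', (ζ 0 1 b * (starRingEnd ℂ) (ζ 0 1 b')).im = 0) ∧
      (∀ b b', (ζ 0 2 b * (starRingEnd ℂ) (ζ 0 2 b')).im = 0)
  · -- real type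
    have hc0 : ∀ a, ∀ b b', (ζ a 0 b * (starRingEnd ℂ) (ζ a 0 b')).im = 0 := by
      intro a
      fin_cases a
      · intro b b'
        simp only [hζ, Fin.zero_eta, Fin.isValue, he, map_one, mul_one, one_im]
      · exact csymm _ _ hA.1
      · exact csymm _ _ hA.2
    have hr : ∀ a b, e a b = (((ζ a 0 b * (starRingEnd ℂ) (ζ a 0 0)).re : ℝ) : ℂ)
        * (e a 0 * (starRingEnd ℂ) (e 0 0)) * e 0 b := by
      intro a b
      have e1 : (((ζ a 0 b * (starRingEnd ℂ) (ζ a 0 0)).re : ℝ) : ℂ)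
          = ζ a 0 b * (starRingEnd ℂ) (ζ a 0 0) := by
        apply Complex.ext
        · simp
        · rw [hc0 a b 0, ofReal_im]
      rw [e1]
      simp only [hζ, map_mul, conj_conj]
      linear_combination (-(e a b * (e 0 0 * (starRingEnd ℂ) (e 0 0))
        * (e a 0 * (starRingEnd ℂ) (e a 0)))) * he 0 b
        - (e a b * (e a 0 * (starRingEnd ℂ) (e a 0))) * he 0 0 - (e a b) * he a 0
    refine det_real_type (fun a b => c a b * (ζ a 0 b * (starRingEnd ℂ) (ζ a 0 0)).re)
      (fun a b => s a b * (ζ a 0 b * (starRingEnd ℂ) (ζ a 0 0)).re)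
      (fun a => e a 0 * (starRingEnd ℂ) (e 0 0)) (fun b => e 0 b) ?_ ?_
    · intro a b
      rw [hx a b]
      conv_lhs => rw [hr a b]
      push_cast
      ring
    · intro a b
      rw [hy a b]
      conv_lhs => rw [hr a b]
      push_cast
      ring
  · -- flat type
    have hall : ∀ b, c 0 b ^ 2 = 1 / 3 ∧ c 1 b ^ 2 = 1 / 3 ∧ c 2 b ^ 2 = 1 / 3 := by
      intro b
      have n := cX b
      by_cases h01 : ∀ b b', (ζ 0 1 b * (starRingEnd ℂ) (ζ 0 1 b')).im = 0
      · have h02 : ¬ ∀ b b', (ζ 0 2 b * (starRingEnd ℂ) (ζ 0 2 b')).im = 0 := fun h => hA ⟨h01, h⟩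
        have h12 : ¬ ∀ b b', (ζ 1 2 b * (starRingEnd ℂ) (ζ 1 2 b')).im = 0 :=
          fun h => h02 (ctrans 0 1 2 h01 h)
        have a1 := hcomp 0 2 (by decide) h02 b
        have a2 := hcomp 1 2 (by decide) h12 b
        exact ⟨by linarith only [n, a2], by linarith only [n, a1], by linarith⟩
      · have a1 := hcomp 0 1 (by decide) h01 b
        by_cases h02 : ∀ b b', (ζ 0 2 b * (starRingEnd ℂ) (ζ 0 2 b')).im = 0
        · have h12 : ¬ ∀ b b', (ζ 1 2 b * (starRingEnd ℂ) (ζ 1 2 b')).im = 0 :=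
            fun h => h01 (ctrans 0 2 1 h02 (csymm 1 2 h))
          have a2 := hcomp 1 2 (by decide) h12 b
          exact ⟨by linarith only [n, a2], by linarith, by linarith only [n, a1]⟩
        · have a2 := hcomp 0 2 (by decide) h02 b
          exact ⟨by linarith, by linarith only [n, a2], by linarith only [n, a1]⟩
    have hc3 : ∀ a b, c a b ^ 2 = 1 / 3 := by
      intro a b
      obtain ⟨x0, x1, x2⟩ := hall b
      fin_cases a
      · exact x0
      · exact x1
      · exact x2
    have hs3 : ∀ a b, s a b ^ 2 = 1 / 3 := by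
      intro a b
      have := hcs a b
      have := hc3 a b
      linarith
    have hnc : ∀ a a', a ≠ a' → ¬ (∀ b b', (ζ a a' b * (starRingEnd ℂ) (ζ a a' b')).im = 0) := by
      intro a a' haa hcol
      have hreal : ∀ b, (((ζ a a' b * (starRingEnd ℂ) (ζ a a' 0)).re : ℝ) : ℂ)
          = ζ a a' b * (starRingEnd ℂ) (ζ a a' 0) := by
        intro b
        apply Complex.ext
        · simp
        · rw [hcol b 0, ofReal_im]
      set ρ : Fin 3 → ℝ := fun b => (ζ a a' b * (starRingEnd ℂ) (ζ a a' 0)).re with hρ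
      have hρ2 : ∀ b, ρ b ^ 2 = 1 := by
        intro b
        have e1 : ((ρ b : ℝ) : ℂ) * (starRingEnd ℂ) ((ρ b : ℝ) : ℂ) = 1 := by
          have e0 : ((ρ b : ℝ) : ℂ) = ζ a a' b * (starRingEnd ℂ) (ζ a a' 0) := hreal b
          rw [e0]
          have gen : ∀ z1 z2 : ℂ, z1 * (starRingEnd ℂ) z1 = 1 → z2 * (starRingEnd ℂ) z2 = 1 →
              (z1 * (starRingEnd ℂ) z2) * (starRingEnd ℂ) (z1 * (starRingEnd ℂ) z2) = 1 := by
            intro z1 z2 g1 g2
            rw [map_mul, conj_conj]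
            linear_combination (z2 * (starRingEnd ℂ) z2) * g1 + g2
          exact gen _ _ (hζ1 a a' b) (hζ1 a a' 0)
        rw [conj_ofReal] at e1
        have e2 : ρ b * ρ b = 1 := by exact_mod_cast e1
        rw [pow_two]; exact e2
      have hsum : c a 0 * c a' 0 * ρ 0 + c a 1 * c a' 1 * ρ 1 + c a 2 * c a' 2 * ρ 2 = 0 := by
        have e1 : (((c a 0 * c a' 0 * ρ 0 + c a 1 * c a' 1 * ρ 1 + c a 2 * c a' 2 * ρ 2 : ℝ)) : ℂ)
            = 0 := by
          push_cast
          simp only [hρ]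
          rw [hreal 0, hreal 1, hreal 2]
          have := hp a a' haa
          push_cast at this
          linear_combination ((starRingEnd ℂ) (ζ a a' 0)) * this
        exact_mod_cast e1
      have hu : ∀ b, c a b * c a' b * ρ b = 1 / 3 ∨ c a b * c a' b * ρ b = - (1 / 3) := by
        intro b
        have e1 : (c a b * c a' b * ρ b) ^ 2 = (1 / 3) ^ 2 := by
          rw [mul_pow, mul_pow, hc3, hc3, hρ2]; norm_num
        exact sq_eq_sq_iff_eq_or_eq_neg.1 e1
      rcases hu 0 with h0 | h0 <;> rcases hu 1 with h1 | h1 <;> rcases hu 2 with h2 | h2 <;>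
        linarith only [hsum, h0, h1, h2]
    have hs : ∀ a, ∃ η : ℝ, ∀ b, s a b = η * (3 * s 0 b * c 0 b) * c a b := by
      intro a
      by_cases ha : a = 0
      · subst ha
        refine ⟨1, fun b => ?_⟩
        have := hc3 0 b
        linear_combination (-3 * s 0 b) * this
      · have hm := hmin 0 a (fun h => ha h.symm) (hnc 0 a (fun h => ha h.symm))
        refine ⟨9 * (c 0 0 * c a 0) * (s 0 0 * s a 0), fun b => ?_⟩
        have e1 := hm 0 b
        have e2 := hc3 0 0
        have e3 := hc3 a 0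
        have e4 := hs3 0 b
        have e5 : (s 0 b * s a b) = 9 * (c 0 0 * c a 0) * (s 0 0 * s a 0) * (c 0 b * c a b) := by
          have e6 : (c 0 0 * c a 0) ^ 2 = 1 / 9 := by rw [mul_pow, e2, e3]; norm_num
          linear_combination (9 * (c 0 0 * c a 0)) * e1 - 9 * (s 0 b * s a b) * e6
        linear_combination (-3 * s a b) * e4 + 3 * s 0 b * e5
    choose η hη using hs
    have hYX : ∀ a b, Y a b = I * ((η a * (3 * s 0 b * c 0 b) : ℝ) : ℂ) * X a b := by
      intro a b
      rw [hy a b, hx a b, hη a b]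
      push_cast
      ring
    set t : ℝ := η 0 * η 1 * η 2 * ((3 * s 0 0 * c 0 0) * (3 * s 0 1 * c 0 1) * (3 * s 0 2 * c 0 2))
      with ht
    have e1 : Y.det = I ^ 3 * ((t : ℂ) * X.det) := by
      rw [Matrix.det_fin_three, Matrix.det_fin_three]
      simp only [hYX, ht]
      push_cast
      ring
    have e2 : Y.det * (starRingEnd ℂ) X.det = ((t * normSq X.det : ℝ) : ℂ) * I ^ 3 := by
      rw [e1]
      push_cast
      rw [← mul_conj]
      ring
    rw [e2, I_pow_three, re_ofReal_mul]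
    simp

end Vale.Agent.P355
end
end

section

section

/-! No unitary involution permutes without fixed line the lines of each of three mutually
unbiased bases of `ℂ⁶`. -/

namespace Vale.Agent.P355

open Complex

/-- Normal form of a fixed point free involution of six points. -/
theorem exists_normal_free (s : Equiv.Perm (Fin 6)) (h : s ^ 2 = 1) (hf : ∀ k, s k ≠ k) :
    ∃ e : Equiv.Perm (Fin 6), s (e 0) = e 1 ∧ s (e 2) = e 3 ∧ s (e 4) = e 5 := by
  have hs : ∀ k, s (s k) = k := by
    intro k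
    have := congrArg (fun t : Equiv.Perm (Fin 6) => t k) h
    simpa [pow_two] using this
  obtain ⟨q, hq⟩ := exists_notMem_of_card_lt (s := {0, s 0})
    (lt_of_le_of_lt Finset.card_le_two (by norm_num))
  simp only [Finset.mem_insert, Finset.mem_singleton, not_or] at hq
  obtain ⟨q1, q2⟩ := hq
  have q3 : s q ≠ 0 := fun h => q2 (by rw [← hs q, h])
  have q4 : s q ≠ s 0 := fun h => q1 (s.injective h)
  obtain ⟨r, hr⟩ := exists_notMem_of_card_lt (s := {0, s 0, q, s q})
    (lt_of_le_of_lt Finset.card_le_four (by norm_num))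
  simp only [Finset.mem_insert, Finset.mem_singleton, not_or] at hr
  obtain ⟨r1, r2, r3, r4⟩ := hr
  have r5 : s r ≠ 0 := fun h => r2 (by rw [← hs r, h])
  have r6 : s r ≠ s 0 := fun h => r1 (s.injective h)
  have r7 : s r ≠ q := fun h => r4 (by rw [← hs r, h])
  have r8 : s r ≠ s q := fun h => r3 (s.injective h)
  have f0 := hf 0
  have f1 := hf q
  have f2 := hf r
  have hinj : Function.Injective (![0, s 0, q, s q, r, s r] : Fin 6 → Fin 6) := by
    intro x y hxy
    fin_cases x <;> fin_cases y <;>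
      simp only [Fin.zero_eta, Fin.mk_one, Fin.reduceFinMk, Fin.isValue, Matrix.cons_val_zero,
        Matrix.cons_val_one, Matrix.cons_val] at hxy ⊢ <;>
      first
      | exact absurd hxy f0
      | exact absurd hxy.symm f0
      | exact absurd hxy f1
      | exact absurd hxy.symm f1
      | exact absurd hxy f2
      | exact absurd hxy.symm f2
      | exact absurd hxy q1
      | exact absurd hxy.symm q1
      | exact absurd hxy q2
      | exact absurd hxy.symm q2
      | exact absurd hxy q3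
      | exact absurd hxy.symm q3
      | exact absurd hxy q4
      | exact absurd hxy.symm q4
      | exact absurd hxy r1
      | exact absurd hxy.symm r1
      | exact absurd hxy r2
      | exact absurd hxy.symm r2
      | exact absurd hxy r3
      | exact absurd hxy.symm r3
      | exact absurd hxy r4
      | exact absurd hxy.symm r4
      | exact absurd hxy r5
      | exact absurd hxy.symm r5
      | exact absurd hxy r6
      | exact absurd hxy.symm r6
      | exact absurd hxy r7
      | exact absurd hxy.symm r7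
      | exact absurd hxy r8
      | exact absurd hxy.symm r8
  refine ⟨Equiv.ofBijective _ ((Finite.injective_iff_bijective).1 hinj), ?_, ?_, ?_⟩
  · simp only [Fin.isValue, Equiv.ofBijective_apply, Matrix.cons_val_zero, Matrix.cons_val_one]
  · simp only [Fin.isValue, Equiv.ofBijective_apply, Matrix.cons_val]
  · simp

/-- The vectors attached to a basis on which the involution acts without fixed lines. -/
theorem free_basis (b : OrthonormalBasis (Fin 6) ℂ H) {g : H →ₗ[ℂ] H}
    (h2 : ∀ x, g (g x) = x) {s : Equiv.Perm (Fin 6)} {z : Fin 6 → ℂ} (hz : ∀ k, ‖z k‖ = 1)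
    (h : ∀ k, g (b k) = z k • b (s k)) (hf : ∀ k, s k ≠ k) :
    ∃ p : Fin 3 → H,
      (∀ v w : H, (inner ℂ v w : ℂ)
        = (inner ℂ v (p 0) * inner ℂ (p 0) w + inner ℂ v (g (p 0)) * inner ℂ (g (p 0)) w)
        + (inner ℂ v (p 1) * inner ℂ (p 1) w + inner ℂ v (g (p 1)) * inner ℂ (g (p 1)) w)
        + (inner ℂ v (p 2) * inner ℂ (p 2) w + inner ℂ v (g (p 2)) * inner ℂ (g (p 2)) w)) ∧
      (∀ k l, inner ℂ (p k) (p l) = if k = l then (1 : ℂ) else 0) ∧
      (∀ k l, inner ℂ (p k) (g (p l)) = (0 : ℂ)) ∧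
      (∀ l, ∃ k, p l = b k) ∧
      (∀ l, ∃ k, ∃ w : ℂ, ‖w‖ = 1 ∧ g (p l) = w • b k) := by
  have hs2 : s ^ 2 = 1 := perm_pow_eq_one hz h (n := 2) (fun x => h2 x)
  obtain ⟨e, e0, e2, e4⟩ := exists_normal_free s hs2 hf
  have g0 : g (b (e 0)) = z (e 0) • b (e 1) := by rw [h, e0]
  have g2 : g (b (e 2)) = z (e 2) • b (e 3) := by rw [h, e2]
  have g4 : g (b (e 4)) = z (e 4) • b (e 5) := by rw [h, e4]
  have hzz : ∀ k, z k * (starRingEnd ℂ) (z k) = 1 := by
    intro k
    rw [mul_conj, normSq_eq_norm_sq, hz]; norm_num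
  refine ⟨![b (e 0), b (e 2), b (e 4)], ?_, ?_, ?_, ?_, ?_⟩
  · intro v w
    have hp := b.sum_inner_mul_inner v w
    rw [← Equiv.sum_comp e, Fin.sum_univ_six] at hp
    simp only [Matrix.cons_val_zero, Matrix.cons_val_one, Matrix.cons_val, Fin.isValue]
    rw [g0, g2, g4, inner_smul_right, inner_smul_left, inner_smul_right, inner_smul_left,
      inner_smul_right, inner_smul_left, ← hp]
    linear_combination (- inner ℂ v (b (e 1)) * inner ℂ (b (e 1)) w) * hzz (e 0)
      + (- inner ℂ v (b (e 3)) * inner ℂ (b (e 3)) w) * hzz (e 2)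
      + (- inner ℂ v (b (e 5)) * inner ℂ (b (e 5)) w) * hzz (e 4)
  · intro k l
    fin_cases k <;> fin_cases l <;> simp [b.norm_eq_one]
  · intro k l
    fin_cases k <;> fin_cases l <;>
      simp only [Fin.zero_eta, Fin.mk_one, Fin.reduceFinMk, Fin.isValue, Matrix.cons_val_zero,
        Matrix.cons_val_one, Matrix.cons_val] <;>
      first
      | rw [g0, inner_smul_right, inner_basis, if_neg (by simp), mul_zero]
      | rw [g2, inner_smul_right, inner_basis, if_neg (by simp only [Fin.isValue, EmbeddingLike.apply_eq_iff_eq, Fin.reduceEq, not_false_eq_true]), mul_zero]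
      | rw [g4, inner_smul_right, inner_basis, if_neg (by simp only [Fin.isValue, EmbeddingLike.apply_eq_iff_eq, Fin.reduceEq, not_false_eq_true]), mul_zero]
  · intro l
    fin_cases l
    · exact ⟨e 0, by simp only [Fin.isValue, Fin.zero_eta, Matrix.cons_val_zero]⟩
    · exact ⟨e 2, by simp⟩
    · exact ⟨e 4, by simp⟩
  · intro l
    fin_cases l
    · exact ⟨e 1, z (e 0), hz _, by simpa only [Fin.isValue, Fin.zero_eta, Matrix.cons_val_zero] using g0⟩
    · exact ⟨e 3, z (e 2), hz _, by simpa using g2⟩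
    · exact ⟨e 5, z (e 4), hz _, by simpa using g4⟩

/-- The matrix level contradiction. -/
theorem free2_matrices (X Y : Fin 3 → Fin 3 → Matrix (Fin 3) (Fin 3) ℂ)
    (Xs : ∀ i j a b, X j i b a = (starRingEnd ℂ) (X i j a b))
    (Ys : ∀ i j a b, Y j i b a = (starRingEnd ℂ) (Y i j a b))
    (X1 : ∀ i, X i i = 1) (Y1 : ∀ i, Y i i = 1)
    (Xm : ∀ i j k, X i j * X j k = X i k) (Ym : ∀ i j k, Y i j * Y j k = Y i k)
    (h1 : ∀ i j, i ≠ j → ∀ a b, normSq (X i j a b) + normSq (Y i j a b) = 2 / 3)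
    (h2 : ∀ i j, i ≠ j → ∀ a b, (X i j a b * (starRingEnd ℂ) (Y i j a b)).re = 0) : False := by
  have rows : ∀ (Z : Fin 3 → Fin 3 → Matrix (Fin 3) (Fin 3) ℂ)
      (_ : ∀ i j a b, Z j i b a = (starRingEnd ℂ) (Z i j a b)) (_ : ∀ i, Z i i = 1)
      (_ : ∀ i j k, Z i j * Z j k = Z i k), ∀ i j a a',
      Z i j a 0 * (starRingEnd ℂ) (Z i j a' 0) + Z i j a 1 * (starRingEnd ℂ) (Z i j a' 1)
      + Z i j a 2 * (starRingEnd ℂ) (Z i j a' 2) = if a = a' then 1 else 0 := by
    intro Z Zs Z1 Zm i j a a'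
    have h := congrFun (congrFun (Zm i j i) a) a'
    rw [Matrix.mul_apply, Fin.sum_univ_three, Z1, Matrix.one_apply, Zs i j a' 0, Zs i j a' 1,
      Zs i j a' 2] at h
    exact h
  have hdet : ∀ i j, i ≠ j → ((Y i j).det * (starRingEnd ℂ) (X i j).det).re = 0 := by
    intro i j hij
    refine key_det (fun a a' haa => ?_) (fun a a' haa => ?_) (fun a => ?_) (fun b => ?_)
      (h1 i j hij) (h2 i j hij)
    · rw [rows X Xs X1 Xm i j a a', if_neg haa]
    · rw [rows Y Ys Y1 Ym i j a a', if_neg haa]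
    · have h := rows X Xs X1 Xm i j a a
      rw [if_pos rfl, mul_conj, mul_conj, mul_conj] at h
      exact_mod_cast h
    · have h := rows X Xs X1 Xm j i b b
      rw [if_pos rfl, mul_conj, mul_conj, mul_conj, Xs i j 0 b, Xs i j 1 b, Xs i j 2 b,
        normSq_conj, normSq_conj, normSq_conj] at h
      exact_mod_cast h
  have hn : ∀ (Z : Fin 3 → Fin 3 → Matrix (Fin 3) (Fin 3) ℂ)
      (_ : ∀ i j a b, Z j i b a = (starRingEnd ℂ) (Z i j a b)) (_ : ∀ i, Z i i = 1)
      (_ : ∀ i j k, Z i j * Z j k = Z i k), ∀ i j, normSq (Z i j).det = 1 := by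
    intro Z Zs Z1 Zm i j
    have e1 : Z j i = (Z i j).conjTranspose := by
      ext b a
      rw [Matrix.conjTranspose_apply, Zs i j a b]
      rfl
    have e2 := congrArg Matrix.det (Zm i j i)
    rw [Matrix.det_mul, Z1, Matrix.det_one, e1, Matrix.det_conjTranspose] at e2
    have e3 : (Z i j).det * (starRingEnd ℂ) (Z i j).det = 1 := e2
    rw [mul_conj] at e3
    exact_mod_cast e3
  have hm : ((Y 0 1).det * (starRingEnd ℂ) (X 0 1).det) * ((Y 1 2).det * (starRingEnd ℂ) (X 1 2).det)
      = (Y 0 2).det * (starRingEnd ℂ) (X 0 2).det := by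
    rw [← Ym 0 1 2, ← Xm 0 1 2, Matrix.det_mul, Matrix.det_mul, map_mul]
    ring
  have r01 := hdet 0 1 (by decide)
  have r12 := hdet 1 2 (by decide)
  have r02 := hdet 0 2 (by decide)
  have i02 : ((Y 0 2).det * (starRingEnd ℂ) (X 0 2).det).im = 0 := by
    rw [← hm, mul_im, r01, r12]
    ring
  have z : (Y 0 2).det * (starRingEnd ℂ) (X 0 2).det = 0 := Complex.ext r02 i02
  have n := congrArg normSq z
  rw [normSq_mul, normSq_conj, hn Y Ys Y1 Ym, hn X Xs X1 Xm, normSq_zero] at n
  norm_num at n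

/-- The vector level contradiction. -/
theorem free2_vectors {g : H →ₗ[ℂ] H} (hg : ∀ x y, inner ℂ (g x) (g y) = inner ℂ x y)
    (h2 : ∀ x, g (g x) = x) (p : Fin 3 → Fin 3 → H)
    (par : ∀ (m : Fin 3) (v w : H), (inner ℂ v w : ℂ)
        = (inner ℂ v (p m 0) * inner ℂ (p m 0) w + inner ℂ v (g (p m 0)) * inner ℂ (g (p m 0)) w)
        + (inner ℂ v (p m 1) * inner ℂ (p m 1) w + inner ℂ v (g (p m 1)) * inner ℂ (g (p m 1)) w)
        + (inner ℂ v (p m 2) * inner ℂ (p m 2) w + inner ℂ v (g (p m 2)) * inner ℂ (g (p m 2)) w))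
    (hpp : ∀ m k l, inner ℂ (p m k) (p m l) = if k = l then (1 : ℂ) else 0)
    (hpg : ∀ m k l, inner ℂ (p m k) (g (p m l)) = (0 : ℂ))
    (npp : ∀ m n, m ≠ n → ∀ k l, ‖(inner ℂ (p m k) (p n l) : ℂ)‖ ^ 2 = 1 / 6)
    (npg : ∀ m n, m ≠ n → ∀ k l, ‖(inner ℂ (p m k) (g (p n l)) : ℂ)‖ ^ 2 = 1 / 6) : False := by
  have hsy := inv_symm hg h2
  set X : Fin 3 → Fin 3 → H := fun m a => p m a + g (p m a) with hX
  set Y : Fin 3 → Fin 3 → H := fun m a => p m a - g (p m a) with hY
  have gX : ∀ m a, g (X m a) = X m a := by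
    intro m a
    simp only [hX, map_add, h2]
    exact add_comm _ _
  have gY : ∀ m a, g (Y m a) = - Y m a := by
    intro m a
    simp only [hY, map_sub, h2]
    rw [neg_sub]
  have UX : ∀ i a j b, (inner ℂ (X i a) (X j b) : ℂ) / 2
      = inner ℂ (p i a) (p j b) + inner ℂ (p i a) (g (p j b)) := by
    intro i a j b
    simp only [hX, inner_add_left, inner_add_right]
    rw [hg, hsy]
    ring
  have WY : ∀ i a j b, (inner ℂ (Y i a) (Y j b) : ℂ) / 2
      = inner ℂ (p i a) (p j b) - inner ℂ (p i a) (g (p j b)) := by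
    intro i a j b
    simp only [hY, inner_sub_left, inner_sub_right]
    rw [hg, hsy]
    ring
  have nsq : ∀ w : ℂ, normSq w = ‖w‖ ^ 2 := fun w => normSq_eq_norm_sq w
  refine free2_matrices (fun i j => Matrix.of fun a b => (inner ℂ (X i a) (X j b) : ℂ) / 2)
    (fun i j => Matrix.of fun a b => (inner ℂ (Y i a) (Y j b) : ℂ) / 2)
    ?_ ?_ ?_ ?_ ?_ ?_ ?_ ?_
  · intro i j a b
    simp only [Matrix.of_apply]
    rw [map_div₀, inner_conj_symm, map_ofNat]
  · intro i j a b
    simp only [Matrix.of_apply]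
    rw [map_div₀, inner_conj_symm, map_ofNat]
  · intro i
    ext a b
    simp only [Matrix.of_apply]
    rw [UX, hpp, hpg, add_zero, Matrix.one_apply]
  · intro i
    ext a b
    simp only [Matrix.of_apply]
    rw [WY, hpp, hpg, sub_zero, Matrix.one_apply]
  · intro i j k
    ext a b
    rw [Matrix.mul_apply, Fin.sum_univ_three]
    simp only [Matrix.of_apply]
    have h := par j (X i a) (X k b)
    have z2 : ∀ l, (inner ℂ (X i a) (g (p j l)) : ℂ) = inner ℂ (X i a) (p j l) := by
      intro l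
      rw [← hsy, gX]
    have z3 : ∀ l, (inner ℂ (g (p j l)) (X k b) : ℂ) = inner ℂ (p j l) (X k b) := by
      intro l
      rw [hsy, gX]
    have z4 : ∀ l, (inner ℂ (X i a) (X j l) : ℂ) = 2 * inner ℂ (X i a) (p j l) := by
      intro l
      conv_lhs => rw [hX]
      simp only [inner_add_right]
      rw [z2]; ring
    have z5 : ∀ l, (inner ℂ (X j l) (X k b) : ℂ) = 2 * inner ℂ (p j l) (X k b) := by
      intro l
      conv_lhs => rw [hX]
      simp only [inner_add_left]
      rw [z3]; ring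
    rw [z2, z2, z2, z3, z3, z3] at h
    rw [z4, z4, z4, z5, z5, z5]
    linear_combination (-1 / 2) * h
  · intro i j k
    ext a b
    rw [Matrix.mul_apply, Fin.sum_univ_three]
    simp only [Matrix.of_apply]
    have h := par j (Y i a) (Y k b)
    have z2 : ∀ l, (inner ℂ (Y i a) (g (p j l)) : ℂ) = - inner ℂ (Y i a) (p j l) := by
      intro l
      rw [← hsy, gY, inner_neg_left]
    have z3 : ∀ l, (inner ℂ (g (p j l)) (Y k b) : ℂ) = - inner ℂ (p j l) (Y k b) := by
      intro l
      rw [hsy, gY, inner_neg_right]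
    have z4 : ∀ l, (inner ℂ (Y i a) (Y j l) : ℂ) = 2 * inner ℂ (Y i a) (p j l) := by
      intro l
      conv_lhs => rw [hY]
      simp only [inner_sub_right]
      rw [z2]; ring
    have z5 : ∀ l, (inner ℂ (Y j l) (Y k b) : ℂ) = 2 * inner ℂ (p j l) (Y k b) := by
      intro l
      conv_lhs => rw [hY]
      simp only [inner_sub_left]
      rw [z3]; ring
    rw [z2, z2, z2, z3, z3, z3] at h
    rw [z4, z4, z4, z5, z5, z5]
    linear_combination (-1 / 2) * h
  · intro i j hij a b
    simp only [Matrix.of_apply]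
    rw [UX, WY, normSq_add, normSq_sub, nsq, nsq, npp i j hij, npg i j hij]
    norm_num
  · intro i j hij a b
    simp only [Matrix.of_apply]
    rw [UX, WY]
    have e1 : normSq (inner ℂ (p i a) (p j b)) = 1 / 6 := by rw [nsq, npp i j hij]
    have e2 : normSq (inner ℂ (p i a) (g (p j b))) = 1 / 6 := by rw [nsq, npg i j hij]
    set A : ℂ := inner ℂ (p i a) (p j b)
    set B : ℂ := inner ℂ (p i a) (g (p j b))
    have : ((A + B) * (starRingEnd ℂ) (A - B)).re = normSq A - normSq B := by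
      rw [mul_re, conj_re, conj_im, add_re, add_im, sub_re, sub_im, normSq_apply, normSq_apply]
      ring
    rw [this, e1, e2]
    norm_num

/-- There is no unitary involution which permutes without fixed line the lines of each of three
pairwise unbiased bases of `ℂ⁶`. -/
theorem free2_three (b : Fin 3 → OrthonormalBasis (Fin 6) ℂ H)
    (hb : ∀ i j, i ≠ j → ∀ k l, ‖(inner ℂ (b i k) (b j l) : ℂ)‖ ^ 2 = 1 / 6)
    (g : H →ₗ[ℂ] H) (hg : ∀ x y, inner ℂ (g x) (g y) = inner ℂ x y)
    (hp : ∀ i k, ∃ l, ∃ z : ℂ, g (b i k) = z • b i l) (h2 : ∀ x, g (g x) = x)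
    (hfree : ∀ i k, ¬ ∃ z : ℂ, g (b i k) = z • b i k) : False := by
  choose s z hz hs using fun i => exists_perm (b i) g hg (hp i)
  have hf : ∀ i k, s i k ≠ k := by
    intro i k hk
    exact hfree i k ((fixed_iff (hz i) (hs i) k).1 hk)
  choose p par hpp hpg hpb hgb using fun i => free_basis (b i) h2 (hz i) (hs i) (hf i)
  refine free2_vectors hg h2 p par hpp hpg ?_ ?_
  · intro m n hmn k l
    obtain ⟨a, ha⟩ := hpb m k
    obtain ⟨c, hc⟩ := hpb n l
    rw [ha, hc, hb m n hmn]
  · intro m n hmn k l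
    obtain ⟨a, ha⟩ := hpb m k
    obtain ⟨c, w, hw, hc⟩ := hgb n l
    rw [ha, hc, inner_smul_right, norm_mul, hw, one_mul, hb m n hmn]

/-- Four bases: an involutive symmetry is a scalar. -/
theorem involution_scalar {B : Fin 4 → OrthonormalBasis (Fin 6) ℂ H} (hB : PairwiseMUB B)
    (g : H →ₗ[ℂ] H) (hg : ∀ x y, inner ℂ (g x) (g y) = inner ℂ x y) (hp : PreservesBases B g)
    (h2 : ∀ x, g (g x) = x) : ∃ z : ℂ, ∀ x, g x = z • x := by
  by_cases h : ∃ i j, i ≠ j ∧ (∃ k, ∃ z : ℂ, g (B i k) = z • B i k) ∧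
      (∃ k, ∃ z : ℂ, g (B j k) = z • B j k)
  · obtain ⟨i, j, hij, hi, hj⟩ := h
    exact order2 hB g hg hp h2 i j hij hi hj
  · exfalso
    push Not at h
    -- three free bases
    have h3 : ∃ f : Fin 3 → Fin 4, Function.Injective f ∧
        ∀ m, ¬ ∃ k, ∃ z : ℂ, g (B (f m) k) = z • B (f m) k := by
      by_cases hex : ∃ i, ∃ k, ∃ z : ℂ, g (B i k) = z • B i k
      · obtain ⟨i, k, z, hz⟩ := hex
        refine ⟨i.succAbove, Fin.succAbove_right_injective, fun m => ?_⟩
        rintro ⟨k', z', hz'⟩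
        exact h i (i.succAbove m) (Fin.succAbove_ne i m).symm ⟨k, z, hz⟩ k' z' hz'
      · refine ⟨Fin.castSucc, Fin.castSucc_injective _, fun m hm => hex ⟨_, hm⟩⟩
    obtain ⟨f, hfi, hf⟩ := h3
    exact free2_three (fun m => B (f m)) (fun i j hij k l => hB _ _ (fun e => hij (hfi e)) k l)
      g hg (fun i k => hp (f i) k) h2 (fun i k hk => hf i ⟨k, hk⟩)

end Vale.Agent.P355
end
end

section

section

/-! Transfer between matrices and operators on `ℂ⁶`. -/

namespace Vale.Agent.P355

open Complex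

/-- the `k`-th column -/
noncomputable def vec (A : M6) (k : Fin 6) : H := WithLp.toLp 2 (fun r => A r k)

theorem vec_apply (A : M6) (k r : Fin 6) : vec A k r = A r k := rfl

theorem inner_vec (A C : M6) (k l : Fin 6) :
    inner ℂ (vec A k) (vec C l) = (A.conjTranspose * C) k l := by
  rw [PiLp.inner_apply, Matrix.mul_apply]
  refine Finset.sum_congr rfl fun r _ => ?_
  rw [vec_apply, vec_apply, Matrix.conjTranspose_apply]
  simp [RCLike.inner_apply, mul_comm]

theorem orthonormal_vec {A : M6} (hA : Unitary6 A) : Orthonormal ℂ (vec A) := by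
  rw [orthonormal_iff_ite]
  intro k l
  rw [inner_vec, hA, Matrix.one_apply]

/-- the orthonormal basis of the columns -/
noncomputable def onb {A : M6} (hA : Unitary6 A) : OrthonormalBasis (Fin 6) ℂ H :=
  OrthonormalBasis.mk (orthonormal_vec hA) (by
    rw [LinearIndependent.span_eq_top_of_card_eq_finrank (orthonormal_vec hA).linearIndependent]
    simp [H])

theorem onb_apply {A : M6} (hA : Unitary6 A) (k : Fin 6) : onb hA k = vec A k := by
  unfold onb
  rw [OrthonormalBasis.coe_mk]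

/-- the linear map of a matrix -/
noncomputable def lin (U : M6) : H →ₗ[ℂ] H where
  toFun x := WithLp.toLp 2 (U.mulVec x.ofLp)
  map_add' x y := by
    rw [WithLp.ofLp_add, Matrix.mulVec_add, WithLp.toLp_add]
  map_smul' c x := by
    rw [WithLp.ofLp_smul, Matrix.mulVec_smul, WithLp.toLp_smul]
    rfl

theorem lin_apply (U : M6) (x : H) (r : Fin 6) : lin U x r = ∑ s, U r s * x s := rfl

theorem lin_vec (U A : M6) (k : Fin 6) : lin U (vec A k) = vec (U * A) k := by
  ext r
  rw [lin_apply, vec_apply, Matrix.mul_apply]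
  rfl

theorem lin_isom {U : M6} (hU : Unitary6 U) (x y : H) :
    inner ℂ (lin U x) (lin U y) = inner ℂ x y := by
  have e : ∀ x y : H, inner ℂ x y = star x.ofLp ⬝ᵥ y.ofLp := by
    intro x y
    rw [PiLp.inner_apply]
    simp only [RCLike.inner_apply, dotProduct, Pi.star_apply, RCLike.star_def, mul_comm]
  rw [e, e]
  show star (U.mulVec x.ofLp) ⬝ᵥ (U.mulVec y.ofLp) = _
  rw [Matrix.star_mulVec, ← Matrix.dotProduct_mulVec, Matrix.mulVec_mulVec, hU,
    Matrix.one_mulVec]

theorem lin_ext {U V : M6} (h : ∀ x, lin U x = lin V x) : U = V := by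
  ext r k
  have := congrArg (fun x : H => x r) (h (vec 1 k))
  rw [lin_vec, lin_vec, mul_one, mul_one] at this
  exact this

theorem lin_smul (c : ℂ) (U : M6) (x : H) : lin (c • U) x = c • lin U x := by
  ext r
  show (lin (c • U) x) r = c * (lin U x) r
  rw [lin_apply, lin_apply, Finset.mul_sum]
  refine Finset.sum_congr rfl fun s _ => ?_
  rw [Matrix.smul_apply, smul_eq_mul, mul_assoc]

theorem lin_one (x : H) : lin 1 x = x := by
  ext r
  rw [lin_apply]
  simp [Matrix.one_apply]

/-- the bases associated to a family of unitary matrices -/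
noncomputable def bases {n : ℕ} {B : Fin n → M6} (hB : ∀ i, Unitary6 (B i)) (i : Fin n) :
    OrthonormalBasis (Fin 6) ℂ H := onb (hB i)

theorem bases_mub {B : Fin 4 → M6} (hB : IsMUBs B) : PairwiseMUB (bases hB.1) := by
  intro i j hij k l
  have := hB.2 i j hij k l
  unfold bases
  rw [onb_apply, onb_apply, inner_vec, ← normSq_eq_norm_sq]
  exact this

theorem isSym_of {B : Fin 4 → M6} (hB : IsMUBs B) {U : M6} (hU : IsSymmetry B U) :
    IsSym (bases hB.1) (lin U) := by
  refine ⟨lin_isom hU.1, fun i k => ?_⟩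
  obtain ⟨l, z, h⟩ := hU.2 i k
  refine ⟨l, z, ?_⟩
  unfold bases
  rw [onb_apply, onb_apply, lin_vec]
  ext r
  exact h r

end Vale.Agent.P355
end
end

section

section

/-! Four mutually unbiased bases of `ℂ⁶` have only scalar unitary symmetries. -/

namespace Vale.Agent.P355

open Complex

theorem isSym_scalar {B : Fin 4 → OrthonormalBasis (Fin 6) ℂ H} (hB : PairwiseMUB B)
    {g : H →ₗ[ℂ] H} (hg : IsSym B g) : IsScalar g := by
  obtain ⟨γ, h1, h2⟩ := exists_involution hB hg
  have hs := hg.smul h1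
  exact scalar_of_smul h1 (involution_scalar hB (γ • g) hs.1 hs.2 h2)

theorem matrix_scalar_four {B : Fin 4 → M6} (hB : IsMUBs B) {U : M6} (hU : IsSymmetry B U) :
    IsMultiple U 1 := by
  obtain ⟨c, hc⟩ := isSym_scalar (bases_mub hB) (isSym_of hB hU)
  refine ⟨c, lin_ext fun x => ?_⟩
  rw [hc, lin_smul, lin_one]

theorem matrix_scalar {n : ℕ} (hn : 4 ≤ n) {B : Fin n → M6} (hB : IsMUBs B) {U : M6}
    (hU : IsSymmetry B U) : IsMultiple U 1 := by
  have hB' : IsMUBs (fun i : Fin 4 => B (Fin.castLE hn i)) :=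
    ⟨fun i => hB.1 _, fun i j hij => hB.2 _ _ (fun h => hij (Fin.castLE_injective hn h))⟩
  exact matrix_scalar_four hB' (U := U) ⟨hU.1, fun i => hU.2 _⟩

/-- If `U` and `V` both carry the lines of `A` to the lines of `C` then `Vᴴ U` preserves `A`. -/
theorem preserves_of_maps {A C U V : M6} (hA : Unitary6 A) (hC : Unitary6 C) (hV : Unitary6 V)
    (h1 : ∀ k, ∃ l, ∃ z : ℂ, ∀ r, (U * A) r k = z * C r l)
    (h2 : ∀ k, ∃ l, ∃ z : ℂ, ∀ r, (V * A) r k = z * C r l) :
    Preserves (V.conjTranspose * U) A := by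
  choose f z hf using h2
  have hvec : ∀ k, lin V (vec A k) = z k • vec C (f k) := by
    intro k
    rw [lin_vec]
    ext r
    exact hf k r
  have hz : ∀ k, z k ≠ 0 := by
    intro k h0
    have h := lin_isom hV (vec A k) (vec A k)
    rw [hvec, h0, zero_smul, inner_zero_left, inner_vec, hA, Matrix.one_apply_eq] at h
    exact zero_ne_one h
  have hinj : Function.Injective f := by
    intro k l hkl
    by_contra hne
    have h := lin_isom hV (vec A k) (vec A l)
    rw [hvec, hvec, hkl, inner_smul_left, inner_smul_right, inner_vec, inner_vec, hA, hC,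
      Matrix.one_apply_eq, Matrix.one_apply_ne hne, mul_one] at h
    rcases mul_eq_zero.1 h with h' | h'
    · exact hz k ((map_eq_zero _).1 h')
    · exact hz l h'
  have hsurj : Function.Surjective f := Finite.surjective_of_injective hinj
  intro k
  obtain ⟨l, w, hw⟩ := h1 k
  obtain ⟨k', hk'⟩ := hsurj l
  refine ⟨k', w * (z k')⁻¹, fun r => ?_⟩
  have hcol : ∀ s, (U * A) s k = (w * (z k')⁻¹) * (V * A) s k' := by
    intro s
    rw [hw s, hf k' s, hk']
    have := hz k'
    field_simp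
  rw [Matrix.mul_assoc, Matrix.mul_apply]
  have e : A = V.conjTranspose * (V * A) := by
    rw [← Matrix.mul_assoc, hV, Matrix.one_mul]
  have e2 : A r k' = ∑ s, V.conjTranspose r s * (V * A) s k' := by
    rw [← Matrix.mul_apply, ← e]
  rw [e2, Finset.mul_sum]
  refine Finset.sum_congr rfl fun s _ => ?_
  rw [hcol s]
  ring

end Vale.Agent.P355
end
end
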